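import Mathlib

/-!
Lipschitz bounds for the edge influence as a function of the two endpoint means.
-/

noncomputable section

namespace Vale.Agent.P161.Crit

/-- the relation between endpoint means `x y` and second moment `g` on an edge -/
def Quad (θ x y g : ℝ) : Prop :=
  (1 - θ) ^ 2 * ((1 + g) ^ 2 - (x + y) ^ 2) = (1 + θ) ^ 2 * ((1 - g) ^ 2 - (x - y) ^ 2)

/-- influence divided by `θ` -/
def wfun (θ x y g : ℝ) : ℝ := (g - x * y) / ((1 - x ^ 2) * θ)

lemma quad_zero (θ : ℝ) : Quad θ 0 0 θ := by unfold Quad; ring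

lemma quad_diff {θ1 θ θ' x y g x' y' g' : ℝ} (h0 : 0 ≤ θ) (h1 : θ ≤ θ1) (h0' : 0 ≤ θ')
    (h1' : θ' ≤ θ1) (hθ1 : θ1 < 1) (hx' : |x'| ≤ 1) (hy' : |y'| ≤ 1) (hg : |g| ≤ 1)
    (hg' : |g'| ≤ 1) (hq : Quad θ x y g) (hq' : Quad θ' x' y' g') :
    |g - g'| ≤ 6 / (1 - θ1) ^ 2
      * ((|x - x'| + |y - y'|) * (|x| + |y| + |x'| + |y'|) + |θ - θ'|) := by
  set D := (|x - x'| + |y - y'|) * (|x| + |y| + |x'| + |y'|) with hD
  have hD0 : 0 ≤ D := by positivity
  set S := (x + y) ^ 2 - (x' + y') ^ 2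
  set T := (x - y) ^ 2 - (x' - y') ^ 2
  have hS : |S| ≤ D := by
    rw [show S = ((x - x') + (y - y')) * (x + y + (x' + y')) by ring, abs_mul]
    refine mul_le_mul (abs_add_le _ _) ?_ (abs_nonneg _) (by positivity)
    linarith [abs_add_le (x + y) (x' + y'), abs_add_le x y, abs_add_le x' y']
  have hT : |T| ≤ D := by
    rw [show T = ((x - x') - (y - y')) * (x - y + (x' - y')) by ring, abs_mul]
    refine mul_le_mul (abs_sub _ _) ?_ (abs_nonneg _) (by positivity)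
    linarith [abs_add_le (x - y) (x' - y'), abs_sub x y, abs_sub x' y']
  set U := (1 + g') ^ 2 - (x' + y') ^ 2
  set W := (1 - g') ^ 2 - (x' - y') ^ 2
  have bx := abs_le.1 hx'
  have bY := abs_le.1 hy'
  have bg := abs_le.1 hg
  have bg' := abs_le.1 hg'
  have u1 : 0 ≤ (1 + g') ^ 2 ∧ (1 + g') ^ 2 ≤ 4 := ⟨sq_nonneg _, by nlinarith⟩
  have u2 : 0 ≤ (1 - g') ^ 2 ∧ (1 - g') ^ 2 ≤ 4 := ⟨sq_nonneg _, by nlinarith⟩
  have u3 : (x' + y') ^ 2 ≤ 4 := (sq_le_sq' (a := x' + y') (b := 2) (by linarith)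
    (by linarith)).trans (by norm_num)
  have u4 : (x' - y') ^ 2 ≤ 4 := (sq_le_sq' (a := x' - y') (b := 2) (by linarith)
    (by linarith)).trans (by norm_num)
  have hU : |U| ≤ 4 := by
    rw [abs_le]; constructor <;> linarith [sq_nonneg (x' + y'), u1.1, u1.2]
  have hW : |W| ≤ 4 := by
    rw [abs_le]; constructor <;> linarith [sq_nonneg (x' - y'), u2.1, u2.2]
  have e : (g - g') * ((1 - θ) ^ 2 * (2 + (g + g')) + (1 + θ) ^ 2 * (2 - (g + g')))
      = (1 - θ) ^ 2 * S - (1 + θ) ^ 2 * T + (θ - θ') * (2 - θ - θ') * U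
        + (θ - θ') * (2 + θ + θ') * W := by
    unfold Quad at hq hq'
    linear_combination hq - hq'
  set c := (1 - θ) ^ 2 * (2 + (g + g')) + (1 + θ) ^ 2 * (2 - (g + g')) with hc
  have hc4 : 4 * (1 - θ1) ^ 2 ≤ c := by
    have h2 : (1 - θ1) ^ 2 ≤ (1 - θ) ^ 2 := pow_le_pow_left₀ (by linarith) (by linarith) 2
    have h3 : (1 - θ) ^ 2 ≤ (1 + θ) ^ 2 := pow_le_pow_left₀ (by linarith) (by linarith) 2
    nlinarith [mul_le_mul_of_nonneg_right h3 (show 0 ≤ 2 - (g + g') by linarith)]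
  have hR : |(1 - θ) ^ 2 * S - (1 + θ) ^ 2 * T + (θ - θ') * (2 - θ - θ') * U
        + (θ - θ') * (2 + θ + θ') * W| ≤ 5 * D + 24 * |θ - θ'| := by
    have a1 : |(1 - θ) ^ 2 * S| ≤ 1 * D := by
      rw [abs_mul, abs_of_nonneg (sq_nonneg _)]
      exact mul_le_mul (pow_le_one₀ (by linarith) (by linarith)) hS (abs_nonneg _) zero_le_one
    have a2 : |(1 + θ) ^ 2 * T| ≤ 4 * D := by
      rw [abs_mul, abs_of_nonneg (sq_nonneg _)]
      exact mul_le_mul (by nlinarith) hT (abs_nonneg _) (by norm_num)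
    have a3 : |(θ - θ') * (2 - θ - θ') * U| ≤ |θ - θ'| * 2 * 4 := by
      rw [abs_mul, abs_mul]
      refine mul_le_mul (mul_le_mul_of_nonneg_left ?_ (abs_nonneg _)) hU (abs_nonneg _) (by positivity)
      rw [abs_le]; constructor <;> linarith
    have a4 : |(θ - θ') * (2 + θ + θ') * W| ≤ |θ - θ'| * 4 * 4 := by
      rw [abs_mul, abs_mul]
      refine mul_le_mul (mul_le_mul_of_nonneg_left ?_ (abs_nonneg _)) hW (abs_nonneg _) (by positivity)
      rw [abs_le]; constructor <;> linarith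
    linarith [abs_add_le ((1 - θ) ^ 2 * S - (1 + θ) ^ 2 * T + (θ - θ') * (2 - θ - θ') * U)
        ((θ - θ') * (2 + θ + θ') * W),
      abs_add_le ((1 - θ) ^ 2 * S - (1 + θ) ^ 2 * T) ((θ - θ') * (2 - θ - θ') * U),
      abs_sub ((1 - θ) ^ 2 * S) ((1 + θ) ^ 2 * T)]
  have hp : 0 < (1 - θ1) ^ 2 := by
    have : 0 < 1 - θ1 := by linarith
    positivity
  have h : |g - g'| * c = |(1 - θ) ^ 2 * S - (1 + θ) ^ 2 * T + (θ - θ') * (2 - θ - θ') * U
        + (θ - θ') * (2 + θ + θ') * W| := by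
    rw [← e, abs_mul, abs_of_pos (show 0 < c by linarith)]
  rw [div_mul_eq_mul_div, le_div_iff₀ hp]
  have h5 := mul_le_mul_of_nonneg_left hc4 (abs_nonneg (g - g'))
  linarith [abs_nonneg (θ - θ')]

lemma wfun_diff {θ0 θ1 κ θ θ' x y g x' y' g' : ℝ} (hθ0 : 0 < θ0) (h0 : θ0 ≤ θ) (h1 : θ ≤ θ1)
    (h0' : θ0 ≤ θ') (h1' : θ' ≤ θ1) (hθ1 : θ1 < 1) (hκ : 0 < κ) (hk : κ ≤ 1 - x ^ 2)
    (hk' : κ ≤ 1 - x' ^ 2) (hy : |y| ≤ 1) (hy' : |y'| ≤ 1) (hg : |g| ≤ 1) (hg' : |g'| ≤ 1)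
    (hq : Quad θ x y g) (hq' : Quad θ' x' y' g') :
    |wfun θ x y g - wfun θ' x' y' g'|
      ≤ ((6 / (1 - θ1) ^ 2 + 1) / (κ * θ0) + 4 / (κ * θ0) ^ 2)
        * ((|x - x'| + |y - y'|) * (|x| + |y| + |x'| + |y'|) + |θ - θ'|) := by
  set E := (|x - x'| + |y - y'|) * (|x| + |y| + |x'| + |y'|) + |θ - θ'| with hE
  have hx : |x| ≤ 1 := by rw [abs_le]; constructor <;> nlinarith
  have hx' : |x'| ≤ 1 := by rw [abs_le]; constructor <;> nlinarith
  have hgd := quad_diff (hθ0.le.trans h0) h1 (hθ0.le.trans h0') h1' hθ1 hx' hy' hg hg' hq hq'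
  have hp : (|x - x'| + |y - y'|) * (|x| + |y| + |x'| + |y'|) ≤ E :=
    le_add_of_nonneg_right (abs_nonneg _)
  have hxy : |x * y - x' * y'| ≤ E := by
    rw [show x * y - x' * y' = (x - x') * y + x' * (y - y') by ring]
    refine (abs_add_le _ _).trans (le_trans ?_ hp)
    rw [abs_mul, abs_mul]
    nlinarith [abs_nonneg (x - x'), abs_nonneg (y - y'), abs_nonneg x, abs_nonneg y, abs_nonneg x',
      abs_nonneg y']
  have hnum : |(g - x * y) - (g' - x' * y')| ≤ (6 / (1 - θ1) ^ 2 + 1) * E := by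
    rw [show (g - x * y) - (g' - x' * y') = (g - g') - (x * y - x' * y') by ring]
    refine (abs_sub _ _).trans ?_
    rw [add_mul, one_mul]
    exact add_le_add hgd hxy
  have hden : |(1 - x ^ 2) * θ - (1 - x' ^ 2) * θ'| ≤ 2 * E := by
    rw [show (1 - x ^ 2) * θ - (1 - x' ^ 2) * θ'
      = (1 - x ^ 2) * (θ - θ') + θ' * ((x' - x) * (x' + x)) by ring]
    refine (abs_add_le _ _).trans ?_
    rw [abs_mul, abs_mul θ', abs_mul, abs_sub_comm x' x, abs_of_nonneg (hθ0.le.trans h0')]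
    have e1 : |1 - x ^ 2| * |θ - θ'| ≤ E :=
      (mul_le_of_le_one_left (abs_nonneg _) (abs_le.2 ⟨by nlinarith, by nlinarith⟩)).trans
        (le_add_of_nonneg_left (by positivity))
    have e2 : θ' * (|x - x'| * |x' + x|) ≤ E := by
      refine le_trans (mul_le_of_le_one_left (by positivity) (by linarith)) (le_trans ?_ hp)
      refine mul_le_mul (le_add_of_nonneg_right (abs_nonneg _)) ?_ (abs_nonneg _) (by positivity)
      linarith [abs_add_le x' x, abs_nonneg y, abs_nonneg y']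
    linarith
  have d1 : κ * θ0 ≤ (1 - x ^ 2) * θ := mul_le_mul hk h0 hθ0.le (by linarith)
  have d2 : κ * θ0 ≤ (1 - x' ^ 2) * θ' := mul_le_mul hk' h0' hθ0.le (by linarith)
  have hd : 0 < κ * θ0 := mul_pos hκ hθ0
  have hn' : |g' - x' * y'| ≤ 2 := by
    refine (abs_sub _ _).trans ?_
    rw [abs_mul]
    nlinarith [abs_nonneg x', abs_nonneg y']
  unfold wfun
  have e : (g - x * y) / ((1 - x ^ 2) * θ) - (g' - x' * y') / ((1 - x' ^ 2) * θ')
      = ((g - x * y) - (g' - x' * y')) / ((1 - x ^ 2) * θ)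
        - (g' - x' * y') * (((1 - x ^ 2) * θ) - ((1 - x' ^ 2) * θ'))
          / (((1 - x ^ 2) * θ) * ((1 - x' ^ 2) * θ')) := by
    have n1 : (1 - x ^ 2) * θ ≠ 0 := by linarith
    have n2 : (1 - x' ^ 2) * θ' ≠ 0 := by linarith
    generalize (1 - x ^ 2) * θ = a at n1 ⊢
    generalize (1 - x' ^ 2) * θ' = b at n2 ⊢
    field_simp
    ring
  rw [e]
  refine (abs_sub _ _).trans ?_
  rw [add_mul]
  refine add_le_add ?_ ?_
  · rw [abs_div, abs_of_pos (lt_of_lt_of_le hd d1), div_mul_eq_mul_div]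
    exact div_le_div₀ ((abs_nonneg _).trans hnum) hnum hd d1
  · rw [abs_div, abs_mul, abs_of_pos (mul_pos (lt_of_lt_of_le hd d1) (lt_of_lt_of_le hd d2)),
      div_mul_eq_mul_div]
    refine div_le_div₀ (by positivity) ?_ (by positivity) ?_
    · calc _ ≤ 2 * (2 * E) := mul_le_mul hn' hden (abs_nonneg _) (by norm_num)
        _ = 4 * E := by ring
    · rw [pow_two]
      exact mul_le_mul d1 d2 hd.le (by linarith)

lemma wfun_sub_one {θ0 θ1 κ θ x y g : ℝ} (hθ0 : 0 < θ0) (h0 : θ0 ≤ θ) (h1 : θ ≤ θ1)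
    (hθ1 : θ1 < 1) (hκ : 0 < κ) (hk : κ ≤ 1 - x ^ 2) (hy : |y| ≤ 1) (hg : |g| ≤ 1)
    (hq : Quad θ x y g) :
    |wfun θ x y g - 1|
      ≤ ((6 / (1 - θ1) ^ 2 + 1) / (κ * θ0) + 4 / (κ * θ0) ^ 2) * (|x| + |y|) ^ 2 := by
  have hκ1 : κ ≤ 1 := by nlinarith
  have h := wfun_diff (x' := 0) (y' := 0) (g' := θ) hθ0 h0 h1 h0 h1 hθ1 hκ hk (by simpa using hκ1)
    hy (by simp) hg (by rw [abs_le]; constructor <;> linarith) hq (quad_zero θ)
  have e : wfun θ 0 0 θ = 1 := by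
    have : θ ≠ 0 := by linarith
    simp [wfun, this]
  simpa [e, pow_two] using h

lemma abs_log_sub_le {a b c : ℝ} (hc : 0 < c) (ha : c ≤ a) (hb : c ≤ b) :
    |Real.log a - Real.log b| ≤ |a - b| / c := by
  have key : ∀ a b : ℝ, c ≤ a → c ≤ b → Real.log a - Real.log b ≤ |a - b| / c := by
    intro a b ha hb
    have h1 : Real.log (a / b) ≤ a / b - 1 :=
      Real.log_le_sub_one_of_pos (div_pos (by linarith) (by linarith))
    rw [Real.log_div (by linarith) (by linarith)] at h1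
    have h2 : a / b - 1 ≤ |a - b| / c := by
      rw [div_sub_one (by linarith)]
      refine le_trans (div_le_div_of_nonneg_right (le_abs_self _) (by linarith)) ?_
      exact div_le_div_of_nonneg_left (abs_nonneg _) hc hb
    linarith
  rw [abs_le]
  have h2 := key b a hb ha
  rw [abs_sub_comm] at h2
  exact ⟨by linarith, key a b ha hb⟩

end Vale.Agent.P161.Crit
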