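import Mathlib
import Vale.Agent.P161.Ising

/-!
Cutting the free Ising weights along an edge.
-/

open Finset
open scoped Classical

noncomputable section

namespace Vale.Agent.P161.Crit

variable {V : Type*} {G : SimpleGraph V} {θ : ℝ}

/-- the part of `D` on the side of `x` of the edge `x y` -/
def side (G : SimpleGraph V) (D : Finset V) (x y : V) : Finset V :=
  D.filter (fun z => G.dist x z < G.dist y z)

lemma mem_side {D : Finset V} {x y z : V} :
    z ∈ side G D x y ↔ z ∈ D ∧ G.dist x z < G.dist y z := Finset.mem_filter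

lemma side_subset (D : Finset V) (x y : V) : side G D x y ⊆ D := Finset.filter_subset _ _

lemma self_mem_side (hT : G.IsTree) {D : Finset V} {x y : V} (hx : x ∈ D) (ha : G.Adj x y) :
    x ∈ side G D x y := by
  rw [mem_side, SimpleGraph.dist_self]
  exact ⟨hx, hT.connected.pos_dist_of_ne (G.ne_of_adj ha).symm⟩

lemma side_iff (hT : G.IsTree) {D : Finset V} {x y z : V} (ha : G.Adj x y) :
    z ∈ side G D x y ↔ z ∈ D ∧ G.dist x z + 1 = G.dist y z := by
  rw [mem_side]
  constructor
  · rintro ⟨h, h'⟩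
    refine ⟨h, ?_⟩
    rcases adj_cases hT ha z with c | c
    · omega
    · exact c
  · rintro ⟨h, h'⟩; exact ⟨h, by omega⟩

lemma not_mem_side_iff (hT : G.IsTree) {D : Finset V} {x y z : V} (ha : G.Adj x y) (hz : z ∈ D) :
    z ∉ side G D x y ↔ z ∈ side G D y x := by
  rw [side_iff hT ha, side_iff hT ha.symm]
  rcases adj_cases hT ha z with c | c <;> constructor
  · intro _; exact ⟨hz, c⟩
  · intro _ h; omega
  · intro h; exact absurd ⟨hz, c⟩ h
  · intro h; omega

lemma side_disjoint (hT : G.IsTree) (D : Finset V) {x y : V} (ha : G.Adj x y) :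
    Disjoint (side G D x y) (side G D y x) := by
  rw [Finset.disjoint_left]
  intro z h h'
  rw [side_iff hT ha] at h
  rw [side_iff hT ha.symm] at h'
  omega

lemma side_union (hT : G.IsTree) (D : Finset V) {x y : V} (ha : G.Adj x y) :
    side G D x y ∪ side G D y x = D := by
  ext z
  simp only [Finset.mem_union]
  constructor
  · rintro (h | h) <;> exact side_subset _ _ _ h
  · intro hz
    by_cases h : z ∈ side G D x y
    · exact Or.inl h
    · exact Or.inr ((not_mem_side_iff hT ha hz).1 h)

/-- an edge from the side of `x` to the side of `y` is the edge `x y` -/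
lemma crossing (hT : G.IsTree) {x y a b : V} (ha : G.Adj x y)
    (h1 : G.dist x a + 1 = G.dist y a) (h2 : G.dist y b + 1 = G.dist x b) (hab : G.Adj a b) :
    a = x ∧ b = y := by
  have h3 := dist_through hT (G.dist x b) x y b rfl ha h2 h1
  rw [SimpleGraph.dist_eq_one_iff_adj.2 hab] at h3
  have h5 : G.dist y b = 0 := by omega
  have h6 : G.dist a x = 0 := by omega
  rw [hT.connected.dist_eq_zero_iff] at h5 h6
  exact ⟨h6, h5.symm⟩

lemma geo_side (hT : G.IsTree) {D : Finset V} (hD : Geo G D) {x y : V} (ha : G.Adj x y) :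
    Geo G (side G D x y) := by
  intro p hp u hu z hz hd
  rw [side_iff hT ha] at hp hu ⊢
  refine ⟨hD p hp.1 u hu.1 z hz hd, ?_⟩
  rcases adj_cases hT ha z with c | c
  · exfalso
    obtain ⟨hpx, hzy⟩ := crossing hT ha hp.2 c hz
    subst hpx hzy
    omega
  · exact c

lemma edges_cut (hT : G.IsTree) {D : Finset V} {x y : V} (hx : x ∈ D) (hy : y ∈ D)
    (ha : G.Adj x y) :
    D.sym2.filter (fun e => e ∈ G.edgeSet)
      = insert s(x, y) ((side G D x y).sym2.filter (fun e => e ∈ G.edgeSet)
          ∪ (side G D y x).sym2.filter (fun e => e ∈ G.edgeSet)) := by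
  ext e
  induction e using Sym2.ind with
  | _ a b =>
    simp only [Finset.mem_filter, Finset.mk_mem_sym2_iff, Finset.mem_insert, Finset.mem_union,
      SimpleGraph.mem_edgeSet]
    constructor
    · rintro ⟨⟨haD, hbD⟩, hab⟩
      by_cases h1 : a ∈ side G D x y <;> by_cases h2 : b ∈ side G D x y
      · exact Or.inr (Or.inl ⟨⟨h1, h2⟩, hab⟩)
      · have h2' := (side_iff hT ha.symm).1 ((not_mem_side_iff hT ha hbD).1 h2)
        obtain ⟨rfl, rfl⟩ := crossing hT ha ((side_iff hT ha).1 h1).2 h2'.2 hab
        exact Or.inl rfl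
      · have h1' := (side_iff hT ha.symm).1 ((not_mem_side_iff hT ha haD).1 h1)
        obtain ⟨rfl, rfl⟩ := crossing hT ha ((side_iff hT ha).1 h2).2 h1'.2 hab.symm
        exact Or.inl Sym2.eq_swap
      · exact Or.inr (Or.inr ⟨⟨(not_mem_side_iff hT ha haD).1 h1,
          (not_mem_side_iff hT ha hbD).1 h2⟩, hab⟩)
    · rintro (h | ⟨⟨h1, h2⟩, hab⟩ | ⟨⟨h1, h2⟩, hab⟩)
      · rw [Sym2.eq_iff] at h
        rcases h with ⟨rfl, rfl⟩ | ⟨rfl, rfl⟩
        · exact ⟨⟨hx, hy⟩, ha⟩
        · exact ⟨⟨hy, hx⟩, ha.symm⟩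
      · exact ⟨⟨side_subset _ _ _ h1, side_subset _ _ _ h2⟩, hab⟩
      · exact ⟨⟨side_subset _ _ _ h1, side_subset _ _ _ h2⟩, hab⟩

lemma wgt_loc (D : Finset V) : Loc D (fun η => wgt G θ D η) := by
  intro η η' h
  show (1 / 2 : ℝ) * ∏ e ∈ D.sym2 with e ∈ G.edgeSet, edgeFactor θ (fun v => decide (v ∈ η)) e
    = 1 / 2 * ∏ e ∈ D.sym2 with e ∈ G.edgeSet, edgeFactor θ (fun v => decide (v ∈ η')) e
  congr 1
  refine Finset.prod_congr rfl (fun e he => ?_)
  induction e using Sym2.ind with
  | _ a b =>
    rw [Finset.mem_filter, Finset.mk_mem_sym2_iff] at he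
    rw [edgeFactor_mk, edgeFactor_mk, decide_eq_decide.2 (h a he.1.1),
      decide_eq_decide.2 (h b he.1.2)]

lemma wgt_cut (hT : G.IsTree) {D : Finset V} {x y : V} (hx : x ∈ D) (hy : y ∈ D)
    (ha : G.Adj x y) (η : Finset V) :
    wgt G θ D η = (1 + θ * sp η x * sp η y) * wgt G θ (side G D x y) η
      * wgt G θ (side G D y x) η := by
  unfold wgt isingCylinder
  rw [edges_cut hT hx hy ha, Finset.prod_insert, Finset.prod_union, edgeFactor_mk]
  · simp only [sp]; ring
  · rw [Finset.disjoint_left]
    intro e he he'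
    induction e using Sym2.ind with
    | _ a b =>
      rw [Finset.mem_filter, Finset.mk_mem_sym2_iff] at he he'
      exact Finset.disjoint_left.1 (side_disjoint hT D ha) he.1.1 he'.1.1
  · intro h
    simp only [Finset.mem_union, Finset.mem_filter, Finset.mk_mem_sym2_iff] at h
    rcases h with h | h
    · have := (side_iff hT ha).1 h.1.2
      simp [SimpleGraph.dist_eq_one_iff_adj.2 ha, SimpleGraph.dist_self] at this
    · have := (side_iff hT ha.symm).1 h.1.1
      simp [SimpleGraph.dist_eq_one_iff_adj.2 ha.symm, SimpleGraph.dist_self] at this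

/-- the bilinear identity behind everything: `μ_D = μ_A ⊗ μ_B · (1 + θ σ_x σ_y)` -/
lemma EI_cut (hT : G.IsTree) {D : Finset V} {x y : V} (hx : x ∈ D) (hy : y ∈ D)
    (ha : G.Adj x y) {F H : Finset V → ℝ} (hF : Loc (side G D x y) F)
    (hH : Loc (side G D y x) H) :
    EI G θ D (fun η => F η * H η)
      = EI G θ (side G D x y) F * EI G θ (side G D y x) H
        + θ * EI G θ (side G D x y) (fun η => F η * sp η x)
          * EI G θ (side G D y x) (fun η => H η * sp η y) := by
  set A := side G D x y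
  set B := side G D y x
  have hdis : Disjoint A B := side_disjoint hT D ha
  have hD : A ∪ B = D := side_union hT D ha
  have hxA : x ∈ A := self_mem_side hT hx ha
  have hyB : y ∈ B := self_mem_side hT hy ha.symm
  have e1 : ∀ S T, S ⊆ A → T ⊆ B → ∀ K : Finset V → ℝ, Loc A K → K (S ∪ T) = K S := by
    intro S T hS hT' K hK
    refine hK _ _ (fun v hv => ?_)
    simp only [Finset.mem_union, or_iff_left_iff_imp]
    intro h
    exact absurd (hT' h) (Finset.disjoint_left.1 hdis hv)
  have e2 : ∀ S T, S ⊆ A → T ⊆ B → ∀ K : Finset V → ℝ, Loc B K → K (S ∪ T) = K T := by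
    intro S T hS hT' K hK
    refine hK _ _ (fun v hv => ?_)
    simp only [Finset.mem_union, or_iff_right_iff_imp]
    intro h
    exact absurd (hS h) (Finset.disjoint_right.1 hdis hv)
  have key : EI G θ D (fun η => F η * H η)
      = ∑ p ∈ A.powerset ×ˢ B.powerset,
          (1 + θ * sp p.1 x * sp p.2 y) * (wgt G θ A p.1 * F p.1) * (wgt G θ B p.2 * H p.2) := by
    unfold EI
    refine Finset.sum_nbij' (fun η => (η ∩ A, η ∩ B)) (fun p => p.1 ∪ p.2) ?_ ?_ ?_ ?_ ?_
    · intro η _
      simp
    · intro p hp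
      simp only [Finset.mem_coe, Finset.mem_product, Finset.mem_powerset] at hp ⊢
      exact hD ▸ Finset.union_subset_union hp.1 hp.2
    · intro η hη
      simp only [Finset.mem_coe, Finset.mem_powerset] at hη
      rw [← Finset.inter_union_distrib_left, hD]
      exact Finset.inter_eq_left.2 hη
    · rintro ⟨S, T⟩ hp
      simp only [Finset.mem_coe, Finset.mem_product, Finset.mem_powerset] at hp
      simp only [Prod.mk.injEq]
      have hd : Disjoint T A := (hdis.mono_right hp.2).symm
      have hd' : Disjoint S B := hdis.mono_left hp.1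
      refine ⟨?_, ?_⟩
      · rw [Finset.union_inter_distrib_right, Finset.inter_eq_left.2 hp.1,
          Finset.disjoint_iff_inter_eq_empty.1 hd, Finset.union_empty]
      · rw [Finset.union_inter_distrib_right, Finset.inter_eq_left.2 hp.2,
          Finset.disjoint_iff_inter_eq_empty.1 hd', Finset.empty_union]
    · intro η hη
      simp only [Finset.mem_coe, Finset.mem_powerset] at hη
      have h0 : η = (η ∩ A) ∪ (η ∩ B) := by
        rw [← Finset.inter_union_distrib_left, hD]
        exact (Finset.inter_eq_left.2 hη).symm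
      set S := η ∩ A
      set T := η ∩ B
      have hS : S ⊆ A := Finset.inter_subset_right
      have hT' : T ⊆ B := Finset.inter_subset_right
      have x1 : sp (S ∪ T) x = sp S x := e1 S T hS hT' (fun P => sp P x) (Loc.sp hxA)
      have y1 : sp (S ∪ T) y = sp T y := e2 S T hS hT' (fun P => sp P y) (Loc.sp hyB)
      have wA : wgt G θ A (S ∪ T) = wgt G θ A S := e1 S T hS hT' (fun P => wgt G θ A P) (wgt_loc A)
      have wB : wgt G θ B (S ∪ T) = wgt G θ B T := e2 S T hS hT' (fun P => wgt G θ B P) (wgt_loc B)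
      show wgt G θ D η * (F η * H η) = _
      rw [wgt_cut hT hx hy ha, h0, e1 S T hS hT' F hF, e2 S T hS hT' H hH, x1, y1, wA, wB]
      ring
  rw [key, Finset.sum_product]
  unfold EI
  rw [mul_assoc θ, Finset.sum_mul_sum, Finset.sum_mul_sum, Finset.mul_sum, ← Finset.sum_add_distrib]
  refine Finset.sum_congr rfl (fun S _ => ?_)
  rw [Finset.mul_sum, ← Finset.sum_add_distrib]
  exact Finset.sum_congr rfl (fun T _ => by ring)

end Vale.Agent.P161.Crit
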