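import Mathlib
import Vale.Agent.P161.Crit.Cut

/-!
Posterior means, covariances and edge influences of the free Ising state in single-site fields.
-/

open Finset
open scoped Classical

noncomputable section

namespace Vale.Agent.P161.Crit

variable {V : Type*} {G : SimpleGraph V} {θ : ℝ}

/-- partition function in the fields `h` -/
def Zf (G : SimpleGraph V) (θ : ℝ) (D : Finset V) (h : V → Bool → ℝ) : ℝ :=
  EI G θ D (fprod D h)

/-- posterior mean -/
def mf (G : SimpleGraph V) (θ : ℝ) (D : Finset V) (h : V → Bool → ℝ) (v : V) : ℝ :=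
  EI G θ D (fun η => fprod D h η * sp η v) / Zf G θ D h

/-- posterior second moment -/
def gf (G : SimpleGraph V) (θ : ℝ) (D : Finset V) (h : V → Bool → ℝ) (v w : V) : ℝ :=
  EI G θ D (fun η => fprod D h η * (sp η v * sp η w)) / Zf G θ D h

/-- posterior covariance -/
def cf (G : SimpleGraph V) (θ : ℝ) (D : Finset V) (h : V → Bool → ℝ) (v w : V) : ℝ :=
  gf G θ D h v w - mf G θ D h v * mf G θ D h w

/-- influence of `v` on `w` -/
def bf (G : SimpleGraph V) (θ : ℝ) (D : Finset V) (h : V → Bool → ℝ) (v w : V) : ℝ :=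
  cf G θ D h v w / (1 - mf G θ D h v ^ 2)

section basic

variable (hθ0 : 0 ≤ θ) (hθ1 : θ < 1) {h : V → Bool → ℝ} (hh : ∀ v b, 0 < h v b)

include hθ0 hθ1 hh

lemma Zf_pos (D : Finset V) : 0 < Zf G θ D h := EI_pos hθ0 hθ1 D (fprod_pos D hh)

lemma abs_moment_le (D : Finset V) (K : Finset V → ℝ) (hK : ∀ η, |K η| ≤ 1) :
    |EI G θ D (fun η => fprod D h η * K η) / Zf G θ D h| ≤ 1 := by
  have hZ := Zf_pos (G := G) hθ0 hθ1 hh D
  rw [abs_div, abs_of_pos hZ, div_le_one hZ]
  refine (abs_EI_le hθ0 hθ1 D _).trans (EI_mono hθ0 hθ1 D (fun η => ?_))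
  rw [abs_mul, abs_of_pos (fprod_pos D hh η)]
  exact mul_le_of_le_one_right (fprod_pos D hh η).le (hK η)

lemma abs_mf_le (D : Finset V) (v : V) : |mf G θ D h v| ≤ 1 :=
  abs_moment_le hθ0 hθ1 hh D _ (fun η => (abs_sp η v).le)

lemma abs_gf_le (D : Finset V) (v w : V) : |gf G θ D h v w| ≤ 1 :=
  abs_moment_le hθ0 hθ1 hh D _ (fun η => by rw [abs_mul, abs_sp, abs_sp, one_mul])

lemma abs_cf_le (hT : G.IsTree) {D : Finset V} (hD : Geo G D) {u v : V} (hu : u ∈ D)
    (hv : v ∈ D) : |cf G θ D h u v| ≤ θ ^ G.dist u v := by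
  have hZ := Zf_pos (G := G) hθ0 hθ1 hh D
  have := cov_bound hT hθ0 hθ1 _ D rfl hD h hh u hu v hv
  rw [G.dist_comm (u := v)] at this
  unfold cf gf mf Zf at *
  rw [div_mul_div_comm, div_sub_div _ _ hZ.ne' (mul_pos hZ hZ).ne', abs_div,
    abs_of_pos (mul_pos hZ (mul_pos hZ hZ)), div_le_iff₀ (mul_pos hZ (mul_pos hZ hZ))]
  set X := EI G θ D (fun η => fprod D h η * (sp η u * sp η v))
  set A := EI G θ D (fun η => fprod D h η * sp η u)
  set B := EI G θ D (fun η => fprod D h η * sp η v)
  set Z := EI G θ D (fprod D h)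
  rw [show X * (Z * Z) - Z * (A * B) = (X * Z - A * B) * Z by ring, abs_mul, abs_of_pos hZ]
  calc |X * Z - A * B| * Z ≤ θ ^ G.dist u v * Z ^ 2 * Z :=
        mul_le_mul_of_nonneg_right this hZ.le
    _ = θ ^ G.dist u v * (Z * (Z * Z)) := by ring

end basic

lemma cf_comm (D : Finset V) (h : V → Bool → ℝ) (v w : V) :
    cf G θ D h v w = cf G θ D h w v := by
  have : gf G θ D h v w = gf G θ D h w v := by
    unfold gf
    congr 1
    exact EI_congr D (fun η _ => by ring)
  unfold cf
  rw [this]; ring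

section cut

variable (hT : G.IsTree) (hθ0 : 0 ≤ θ) (hθ1 : θ < 1) {h : V → Bool → ℝ} (hh : ∀ v b, 0 < h v b)
  {D : Finset V} {x y : V} (hx : x ∈ D) (hy : y ∈ D) (ha : G.Adj x y)

include hT hθ0 hθ1 hh hx hy ha

/-- normalised form of the cut identity -/
lemma moment_cut {F H : Finset V → ℝ} (hF : Loc (side G D x y) F) (hH : Loc (side G D y x) H) :
    EI G θ D (fun η => fprod D h η * (F η * H η)) / Zf G θ D h
      = (EI G θ (side G D x y) (fun η => fprod (side G D x y) h η * F η) / Zf G θ (side G D x y) h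
          * (EI G θ (side G D y x) (fun η => fprod (side G D y x) h η * H η)
              / Zf G θ (side G D y x) h)
        + θ * (EI G θ (side G D x y) (fun η => fprod (side G D x y) h η * (F η * sp η x))
              / Zf G θ (side G D x y) h)
          * (EI G θ (side G D y x) (fun η => fprod (side G D y x) h η * (H η * sp η y))
              / Zf G θ (side G D y x) h))
        / (1 + θ * mf G θ (side G D x y) h x * mf G θ (side G D y x) h y) := by
  set A := side G D x y
  set B := side G D y x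
  have hZA := Zf_pos (G := G) hθ0 hθ1 hh A
  have hZB := Zf_pos (G := G) hθ0 hθ1 hh B
  have hZD := Zf_pos (G := G) hθ0 hθ1 hh D
  have hf : ∀ η, fprod D h η = fprod A h η * fprod B h η := by
    intro η
    unfold fprod
    conv_lhs => rw [← side_union hT D ha]
    rw [Finset.prod_union (side_disjoint hT D ha)]
  have lA : ∀ K, Loc A K → Loc A (fun η => fprod A h η * K η) := fun K hK η η' e => by
    simp only
    rw [hK η η' e, loc_fprod A h η η' e]
  have lB : ∀ K, Loc B K → Loc B (fun η => fprod B h η * K η) := fun K hK η η' e => by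
    simp only
    rw [hK η η' e, loc_fprod B h η η' e]
  have num : EI G θ D (fun η => fprod D h η * (F η * H η))
      = EI G θ A (fun η => fprod A h η * F η) * EI G θ B (fun η => fprod B h η * H η)
        + θ * EI G θ A (fun η => fprod A h η * (F η * sp η x))
          * EI G θ B (fun η => fprod B h η * (H η * sp η y)) := by
    have h1 := EI_cut (θ := θ) hT hx hy ha (lA F hF) (lB H hH)
    rw [EI_congr D (F' := fun η => (fprod A h η * F η) * (fprod B h η * H η))
      (fun η _ => by rw [hf]; ring), h1]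
    simp only [mul_assoc]
    rfl
  have den : Zf G θ D h = Zf G θ A h * Zf G θ B h
      + θ * (mf G θ A h x * Zf G θ A h) * (mf G θ B h y * Zf G θ B h) := by
    have h1 := EI_cut (θ := θ) hT hx hy ha (loc_fprod A h) (loc_fprod B h)
    unfold mf Zf
    rw [div_mul_cancel₀ _ (ne_of_gt (EI_pos hθ0 hθ1 A (fprod_pos A hh))),
      div_mul_cancel₀ _ (ne_of_gt (EI_pos hθ0 hθ1 B (fprod_pos B hh))),
      EI_congr D (F := fprod D h) (F' := fun η => fprod A h η * fprod B h η) (fun η _ => hf η), h1]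
  have hden : 0 < 1 + θ * mf G θ A h x * mf G θ B h y := by
    have a1 := abs_mf_le (G := G) hθ0 hθ1 hh A x
    have a2 := abs_mf_le (G := G) hθ0 hθ1 hh B y
    have : |θ * mf G θ A h x * mf G θ B h y| ≤ θ := by
      rw [abs_mul, abs_mul, abs_of_nonneg hθ0]
      calc θ * |mf G θ A h x| * |mf G θ B h y| ≤ θ * 1 * 1 := by gcongr
        _ = θ := by ring
    linarith [(abs_le.1 this).1]
  rw [num, den]
  field_simp

lemma mf_left : mf G θ D h x
    = (mf G θ (side G D x y) h x + θ * mf G θ (side G D y x) h y)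
      / (1 + θ * mf G θ (side G D x y) h x * mf G θ (side G D y x) h y) := by
  have h1 := moment_cut hT hθ0 hθ1 hh hx hy ha (F := fun η => sp η x) (H := fun _ => 1)
    (Loc.sp (self_mem_side hT hx ha)) (fun _ _ _ => rfl)
  have e : ∀ K, EI G θ K (fprod K h) / Zf G θ K h = 1 := fun K =>
    div_self (Zf_pos (G := G) hθ0 hθ1 hh K).ne'
  simp only [sp_mul_self, mul_one, one_mul, e] at h1
  exact h1

lemma mf_far {o : V} (ho : o ∈ side G D x y) : mf G θ D h o
    = (mf G θ (side G D x y) h o
        + θ * gf G θ (side G D x y) h o x * mf G θ (side G D y x) h y)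
      / (1 + θ * mf G θ (side G D x y) h x * mf G θ (side G D y x) h y) := by
  have h1 := moment_cut hT hθ0 hθ1 hh hx hy ha (F := fun η => sp η o) (H := fun _ => 1)
    (Loc.sp ho) (fun _ _ _ => rfl)
  have e : ∀ K, EI G θ K (fprod K h) / Zf G θ K h = 1 := fun K =>
    div_self (Zf_pos (G := G) hθ0 hθ1 hh K).ne'
  simp only [mul_one, one_mul, e] at h1
  exact h1

lemma gf_far {o : V} (ho : o ∈ side G D x y) :
    gf G θ D h o y
      = (mf G θ (side G D x y) h o * mf G θ (side G D y x) h y + θ * gf G θ (side G D x y) h o x)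
        / (1 + θ * mf G θ (side G D x y) h x * mf G θ (side G D y x) h y) := by
  have h1 := moment_cut hT hθ0 hθ1 hh hx hy ha (F := fun η => sp η o) (H := fun η => sp η y)
    (Loc.sp ho) (Loc.sp (self_mem_side hT hy ha.symm))
  have e : ∀ K, EI G θ K (fprod K h) / Zf G θ K h = 1 := fun K =>
    div_self (Zf_pos (G := G) hθ0 hθ1 hh K).ne'
  simp only [sp_mul_self, mul_one, e] at h1
  exact h1

lemma gf_left {o : V} (ho : o ∈ side G D x y) :
    gf G θ D h o x
      = (gf G θ (side G D x y) h o x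
          + θ * mf G θ (side G D x y) h o * mf G θ (side G D y x) h y)
        / (1 + θ * mf G θ (side G D x y) h x * mf G θ (side G D y x) h y) := by
  have hxA := self_mem_side hT hx ha
  have h1 := moment_cut hT hθ0 hθ1 hh hx hy ha (F := fun η => sp η o * sp η x) (H := fun _ => 1)
    (fun η η' e => by
      have e1 := Loc.sp ho η η' e
      have e2 := Loc.sp hxA η η' e
      simp only at e1 e2 ⊢
      rw [e1, e2]) (fun _ _ _ => rfl)
  have e : ∀ K, EI G θ K (fprod K h) / Zf G θ K h = 1 := fun K =>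
    div_self (Zf_pos (G := G) hθ0 hθ1 hh K).ne'
  simp only [mul_assoc, sp_mul_self, mul_one, one_mul, e] at h1
  refine h1.trans ?_
  unfold gf mf
  ring

lemma abs_cut_den : 0 < 1 + θ * mf G θ (side G D x y) h x * mf G θ (side G D y x) h y := by
  have a1 := abs_mf_le (G := G) hθ0 hθ1 hh (side G D x y) x
  have a2 := abs_mf_le (G := G) hθ0 hθ1 hh (side G D y x) y
  have : |θ * mf G θ (side G D x y) h x * mf G θ (side G D y x) h y| ≤ θ := by
    rw [abs_mul, abs_mul, abs_of_nonneg hθ0]
    calc θ * |mf G θ (side G D x y) h x| * |mf G θ (side G D y x) h y| ≤ θ * 1 * 1 := by gcongr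
      _ = θ := by ring
  linarith [(abs_le.1 this).1]

lemma var_left : 1 - mf G θ D h x ^ 2
    = (1 - mf G θ (side G D x y) h x ^ 2) * (1 - θ ^ 2 * mf G θ (side G D y x) h y ^ 2)
      / (1 + θ * mf G θ (side G D x y) h x * mf G θ (side G D y x) h y) ^ 2 := by
  have hne := (abs_cut_den hT hθ0 hθ1 hh hx hy ha).ne'
  rw [mf_left hT hθ0 hθ1 hh hx hy ha, div_pow, one_sub_div (pow_ne_zero 2 hne)]
  congr 1
  ring

lemma cf_left {o : V} (ho : o ∈ side G D x y) :
    cf G θ D h o x = cf G θ (side G D x y) h o x * (1 - θ ^ 2 * mf G θ (side G D y x) h y ^ 2)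
      / (1 + θ * mf G θ (side G D x y) h x * mf G θ (side G D y x) h y) ^ 2 := by
  have hne := (abs_cut_den hT hθ0 hθ1 hh hx hy ha).ne'
  unfold cf
  rw [gf_left hT hθ0 hθ1 hh hx hy ha ho, mf_far hT hθ0 hθ1 hh hx hy ha ho,
    mf_left hT hθ0 hθ1 hh hx hy ha]
  field_simp
  ring

lemma cf_far {o : V} (ho : o ∈ side G D x y) :
    cf G θ D h o y = θ * cf G θ (side G D x y) h o x * (1 - mf G θ (side G D y x) h y ^ 2)
      / (1 + θ * mf G θ (side G D x y) h x * mf G θ (side G D y x) h y) ^ 2 := by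
  have hne := (abs_cut_den hT hθ0 hθ1 hh hx hy ha).ne'
  have hr : mf G θ D h y = (mf G θ (side G D y x) h y + θ * mf G θ (side G D x y) h x)
      / (1 + θ * mf G θ (side G D x y) h x * mf G θ (side G D y x) h y) := by
    rw [mf_left hT hθ0 hθ1 hh hy hx ha.symm]
    ring
  unfold cf
  rw [gf_far hT hθ0 hθ1 hh hx hy ha ho, mf_far hT hθ0 hθ1 hh hx hy ha ho, hr]
  field_simp
  ring

lemma cf_self (hA : |mf G θ (side G D x y) h x| ≤ 1) :
    cf G θ (side G D x y) h x x = 1 - mf G θ (side G D x y) h x ^ 2 := by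
  have hgxx : gf G θ (side G D x y) h x x = 1 := by
    unfold gf
    simp only [sp_mul_self, mul_one]
    exact div_self (Zf_pos (G := G) hθ0 hθ1 hh _).ne'
  unfold cf
  rw [hgxx]; ring

/-- the quadratic relation between the two means and the second moment of an edge -/
lemma edge_quad :
    (1 - θ) ^ 2 * ((1 + gf G θ D h x y) ^ 2 - (mf G θ D h x + mf G θ D h y) ^ 2)
      = (1 + θ) ^ 2 * ((1 - gf G θ D h x y) ^ 2 - (mf G θ D h x - mf G θ D h y) ^ 2) := by
  have hne := (abs_cut_den hT hθ0 hθ1 hh hx hy ha).ne'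
  have hxA := self_mem_side hT hx ha
  have hgxx : gf G θ (side G D x y) h x x = 1 := by
    unfold gf
    simp only [sp_mul_self, mul_one]
    exact div_self (Zf_pos (G := G) hθ0 hθ1 hh _).ne'
  have hr : mf G θ D h y = (mf G θ (side G D y x) h y + θ * mf G θ (side G D x y) h x)
      / (1 + θ * mf G θ (side G D x y) h x * mf G θ (side G D y x) h y) := by
    rw [mf_left hT hθ0 hθ1 hh hy hx ha.symm]
    ring
  rw [gf_far hT hθ0 hθ1 hh hx hy ha hxA, mf_left hT hθ0 hθ1 hh hx hy ha, hr, hgxx]
  field_simp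
  ring

end cut

section influence

variable (hT : G.IsTree) (hθ0 : 0 ≤ θ) (hθ1 : θ < 1) {h : V → Bool → ℝ} (hh : ∀ v b, 0 < h v b)

include hT hθ0 hθ1 hh

/-- `b = θ (1 - a²)/(1 - θ² a²)` with `a` the cavity mean -/
lemma bf_eq {D : Finset V} {x y : V} (hx : x ∈ D) (hy : y ∈ D) (ha : G.Adj x y)
    (hxv : |mf G θ (side G D x y) h x| < 1) :
    bf G θ D h x y = θ * (1 - mf G θ (side G D y x) h y ^ 2)
      / (1 - θ ^ 2 * mf G θ (side G D y x) h y ^ 2) := by
  have hne := (abs_cut_den hT hθ0 hθ1 hh hx hy ha).ne'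
  have h1 : 1 - mf G θ (side G D x y) h x ^ 2 ≠ 0 := by
    nlinarith [abs_lt.1 hxv]
  have h2 : 1 - θ ^ 2 * mf G θ (side G D y x) h y ^ 2 ≠ 0 := by
    have := abs_le.1 (abs_mf_le (G := G) hθ0 hθ1 hh (side G D y x) y)
    have : mf G θ (side G D y x) h y ^ 2 ≤ 1 := by nlinarith
    have : θ ^ 2 < 1 := by nlinarith
    nlinarith [sq_nonneg θ]
  unfold bf
  rw [cf_far hT hθ0 hθ1 hh hx hy ha (self_mem_side hT hx ha),
    cf_self hT hθ0 hθ1 hh hx hy ha hxv.le, var_left hT hθ0 hθ1 hh hx hy ha]
  field_simp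

/-- covariances multiply along geodesics -/
lemma cf_step {D : Finset V} {o x y : V} (ho : o ∈ D) (hx : x ∈ D) (hy : y ∈ D) (ha : G.Adj x y)
    (hd : G.dist x o + 1 = G.dist y o) (hxv : |mf G θ (side G D x y) h x| < 1) :
    cf G θ D h o y = cf G θ D h o x * bf G θ D h x y := by
  have hoA : o ∈ side G D x y := (side_iff hT ha).2 ⟨ho, hd⟩
  have hne := (abs_cut_den hT hθ0 hθ1 hh hx hy ha).ne'
  have h2 : 1 - θ ^ 2 * mf G θ (side G D y x) h y ^ 2 ≠ 0 := by
    have := abs_le.1 (abs_mf_le (G := G) hθ0 hθ1 hh (side G D y x) y)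
    have : mf G θ (side G D y x) h y ^ 2 ≤ 1 := by nlinarith
    have : θ ^ 2 < 1 := by nlinarith
    nlinarith [sq_nonneg θ]
  rw [cf_far hT hθ0 hθ1 hh hx hy ha hoA, cf_left hT hθ0 hθ1 hh hx hy ha hoA,
    bf_eq hT hθ0 hθ1 hh hx hy ha hxv]
  field_simp

lemma cf_path {D : Finset V} (hV : ∀ A : Finset V, ∀ v ∈ A, |mf G θ A h v| < 1) :
    ∀ (n : ℕ) (p : ℕ → V), (∀ i ≤ n, p i ∈ D) → (∀ i < n, G.Adj (p i) (p (i + 1))) →
      G.dist (p 0) (p n) = n →
      cf G θ D h (p 0) (p n)
        = (1 - mf G θ D h (p 0) ^ 2) * ∏ i ∈ Finset.range n, bf G θ D h (p i) (p (i + 1)) := by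
  intro n
  induction n with
  | zero =>
    intro p _ _ _
    have : gf G θ D h (p 0) (p 0) = 1 := by
      unfold gf
      simp only [sp_mul_self, mul_one]
      exact div_self (Zf_pos (G := G) hθ0 hθ1 hh _).ne'
    simp [cf, this]; ring
  | succ n ih =>
    intro p hp hadj hd
    have ha := hadj n (Nat.lt_succ_self n)
    have hdn : G.dist (p 0) (p n) = n := by
      have hle : ∀ j, j ≤ n → G.dist (p 0) (p j) ≤ j := by
        intro j hj
        induction j with
        | zero => simp
        | succ j ihj =>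
          have := ihj (by omega)
          have ht : G.dist (p 0) (p (j + 1)) ≤ G.dist (p 0) (p j) + G.dist (p j) (p (j + 1)) :=
            hT.connected.dist_triangle
          rw [SimpleGraph.dist_eq_one_iff_adj.2 (hadj j (by omega))] at ht
          omega
      have h1 := hle n le_rfl
      have ht : G.dist (p 0) (p (n + 1)) ≤ G.dist (p 0) (p n) + G.dist (p n) (p (n + 1)) :=
        hT.connected.dist_triangle
      rw [SimpleGraph.dist_eq_one_iff_adj.2 ha, hd] at ht
      omega
    have hxA := self_mem_side hT (hp n (by omega)) ha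
    rw [cf_step hT hθ0 hθ1 hh (hp 0 (by omega)) (hp n (by omega)) (hp (n + 1) le_rfl) ha
      (by rw [G.dist_comm, hdn, G.dist_comm (u := p (n + 1)), hd]) (hV _ _ hxA),
      ih p (fun i hi => hp i (by omega)) (fun i hi => hadj i (by omega)) hdn,
      Finset.prod_range_succ]
    ring

end influence

/-- flipping one spin: the mean stays away from `±1` -/
lemma abs_mf_le_flip {q : ℕ} (hd : ∀ v, (G.neighborSet v).ncard = q + 1) (hθ0 : 0 ≤ θ)
    (hθ1 : θ < 1) {h : V → Bool → ℝ} (hh : ∀ v b, 0 < h v b) {D : Finset V} {v : V} (hv : v ∈ D)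
    {R : ℝ} (hR : ∀ b b', h v b ≤ R * h v b') :
    |mf G θ D h v| ≤ 1 - 2 / (1 + R * ((1 + θ) / (1 - θ)) ^ (q + 1)) := by
  set K := R * ((1 + θ) / (1 - θ)) ^ (q + 1) with hK
  have hR1 : 1 ≤ R := by
    have := hR true true
    by_contra hc
    push Not at hc
    nlinarith [hh v true]
  have hrho : 1 ≤ (1 + θ) / (1 - θ) := by rw [le_div_iff₀ (by linarith)]; linarith
  have hK1 : 1 ≤ K := one_le_mul_of_one_le_of_one_le hR1 (one_le_pow₀ hrho)
  set E := D.sym2.filter (fun e => e ∈ G.edgeSet) with hE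
  have hflip : ∀ η, wgt G θ D (symmDiff η {v}) * fprod D h (symmDiff η {v})
      ≤ K * (wgt G θ D η * fprod D h η) := by
    intro η
    have hmem : ∀ w, w ≠ v → (w ∈ symmDiff η {v} ↔ w ∈ η) := by
      intro w hw; simp [Finset.mem_symmDiff, hw]
    have hf : fprod D h (symmDiff η {v}) ≤ R * fprod D h η := by
      unfold fprod
      rw [← Finset.mul_prod_erase _ _ hv, ← Finset.mul_prod_erase _ (fun w => h w _) hv, ← mul_assoc]
      refine mul_le_mul (hR _ _) (le_of_eq ?_) (Finset.prod_nonneg (fun w _ => (hh w _).le))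
        (mul_nonneg (by linarith) (hh v _).le)
      refine Finset.prod_congr rfl (fun w hw => ?_)
      rw [decide_eq_decide.2 (hmem w (Finset.ne_of_mem_erase hw))]
    have hw : wgt G θ D (symmDiff η {v})
        ≤ ((1 + θ) / (1 - θ)) ^ (q + 1) * wgt G θ D η := by
      unfold wgt isingCylinder
      rw [← hE]
      set Ev := E.filter (fun e => v ∈ e)
      have hcard : Ev.card ≤ q + 1 := by
        have hsub : Ev ⊆ ((nb_finite hd v).toFinset).image (fun w => s(v, w)) := by
          intro e he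
          obtain ⟨he1, he2⟩ := Finset.mem_filter.1 he
          obtain ⟨w, rfl⟩ := he2
          refine Finset.mem_image.2 ⟨w, ?_, rfl⟩
          simpa using (Finset.mem_filter.1 he1).2
        refine (Finset.card_le_card hsub).trans (Finset.card_image_le.trans ?_)
        rw [← Set.ncard_eq_toFinset_card _ (nb_finite hd v), hd v]
      rw [← Finset.prod_filter_mul_prod_filter_not E (fun e => v ∈ e),
        ← Finset.prod_filter_mul_prod_filter_not E (fun e => v ∈ e) (edgeFactor θ fun w => decide (w ∈ η))]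
      have h2 : ∏ e ∈ E with ¬ v ∈ e, edgeFactor θ (fun w => decide (w ∈ symmDiff η {v})) e
          = ∏ e ∈ E with ¬ v ∈ e, edgeFactor θ (fun w => decide (w ∈ η)) e := by
        refine Finset.prod_congr rfl (fun e he => ?_)
        have hve := (Finset.mem_filter.1 he).2
        induction e using Sym2.ind with
        | _ a b =>
          simp only [Sym2.mem_iff, not_or] at hve
          rw [edgeFactor_mk, edgeFactor_mk, decide_eq_decide.2 (hmem a (Ne.symm hve.1)),
            decide_eq_decide.2 (hmem b (Ne.symm hve.2))]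
      have hb : ∀ (ξ : V → Bool) e, (1 - θ) / 2 ≤ edgeFactor θ ξ e ∧ edgeFactor θ ξ e ≤ (1 + θ) / 2 := by
        intro ξ e
        induction e using Sym2.ind with
        | _ a b => rw [edgeFactor_mk]; unfold spin; split_ifs <;> constructor <;> linarith
      have h1 : ∏ e ∈ Ev, edgeFactor θ (fun w => decide (w ∈ symmDiff η {v})) e
          ≤ ((1 + θ) / (1 - θ)) ^ (q + 1) * ∏ e ∈ Ev, edgeFactor θ (fun w => decide (w ∈ η)) e := by
        calc _ ≤ ∏ e ∈ Ev, (1 + θ) / (1 - θ) * edgeFactor θ (fun w => decide (w ∈ η)) e := by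
              refine Finset.prod_le_prod (fun e _ => (edgeFactor_pos hθ0 hθ1 _ e).le) (fun e _ => ?_)
              refine (hb _ e).2.trans ?_
              calc (1 + θ) / 2 = (1 + θ) / (1 - θ) * ((1 - θ) / 2) := by
                    have : (1 - θ) ≠ 0 := by linarith
                    field_simp
                _ ≤ _ := mul_le_mul_of_nonneg_left (hb _ e).1 (by linarith)
          _ ≤ _ := by
              rw [Finset.prod_mul_distrib, Finset.prod_const]
              exact mul_le_mul_of_nonneg_right (pow_le_pow_right₀ hrho hcard)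
                (Finset.prod_nonneg (fun e _ => (edgeFactor_pos hθ0 hθ1 _ e).le))
      rw [h2]
      calc _ ≤ 1 / 2 * ((((1 + θ) / (1 - θ)) ^ (q + 1)
            * ∏ e ∈ Ev, edgeFactor θ (fun w => decide (w ∈ η)) e)
            * ∏ e ∈ E with ¬ v ∈ e, edgeFactor θ (fun w => decide (w ∈ η)) e) :=
            mul_le_mul_of_nonneg_left (mul_le_mul_of_nonneg_right h1
              (Finset.prod_nonneg (fun e _ => (edgeFactor_pos hθ0 hθ1 _ e).le))) (by norm_num)
        _ = _ := by ring
    calc _ ≤ (((1 + θ) / (1 - θ)) ^ (q + 1) * wgt G θ D η) * (R * fprod D h η) :=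
          mul_le_mul hw hf (fprod_pos D hh _).le
            (mul_nonneg (by positivity) (wgt_pos hθ0 hθ1 D η).le)
      _ = _ := by rw [hK]; ring
  have hsum : ∀ e : ℝ, (e = 1 ∨ e = -1) →
      EI G θ D (fun η => fprod D h η * (1 - e * sp η v))
        ≤ K * EI G θ D (fun η => fprod D h η * (1 + e * sp η v)) := by
    intro e he
    unfold EI
    rw [Finset.mul_sum]
    conv_lhs => rw [Finset.sum_nbij' (fun η => symmDiff η {v}) (fun η => symmDiff η {v})
      (g := fun η => wgt G θ D (symmDiff η {v})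
        * (fprod D h (symmDiff η {v}) * (1 - e * sp (symmDiff η {v}) v)))
      (t := D.powerset)
      (fun η hη => by
        simp only [Finset.mem_coe, Finset.mem_powerset] at hη ⊢
        exact symmDiff_le (le_sup_of_le_right hη) (le_sup_of_le_right (by simpa using hv)))
      (fun η hη => by
        simp only [Finset.mem_coe, Finset.mem_powerset] at hη ⊢
        exact symmDiff_le (le_sup_of_le_right hη) (le_sup_of_le_right (by simpa using hv)))
      (fun η _ => symmDiff_symmDiff_cancel_right _ _) (fun η _ => symmDiff_symmDiff_cancel_right _ _)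
      (fun η _ => by rw [symmDiff_symmDiff_cancel_right])]
    refine Finset.sum_le_sum (fun η _ => ?_)
    have hs : sp (symmDiff η {v}) v = - sp η v := by
      by_cases hvη : v ∈ η <;> simp [sp_eq, Finset.mem_symmDiff, hvη]
    rw [hs, mul_neg, sub_neg_eq_add]
    have hnn : 0 ≤ 1 + e * sp η v := by
      rw [sp_eq]; rcases he with rfl | rfl <;> split_ifs <;> norm_num
    calc _ = (wgt G θ D (symmDiff η {v}) * fprod D h (symmDiff η {v})) * (1 + e * sp η v) := by ring
      _ ≤ (K * (wgt G θ D η * fprod D h η)) * (1 + e * sp η v) :=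
          mul_le_mul_of_nonneg_right (hflip η) hnn
      _ = _ := by ring
  have hZ := Zf_pos (G := G) hθ0 hθ1 hh D
  have hlin : ∀ c : ℝ, EI G θ D (fun η => fprod D h η * (1 + c * sp η v))
      = Zf G θ D h * (1 + c * mf G θ D h v) := by
    intro c
    rw [mul_add, mul_one, ← mul_assoc, mul_comm (Zf G θ D h) c, mul_assoc, mf,
      mul_div_cancel₀ _ hZ.ne', ← EI_const_mul, Zf, ← EI_add]
    exact EI_congr D (fun η _ => by ring)
  have h1 := hsum 1 (Or.inl rfl)
  have h2 := hsum (-1) (Or.inr rfl)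
  have e1 := hlin (-1)
  have e2 := hlin 1
  simp only [one_mul, neg_mul, sub_neg_eq_add, ← sub_eq_add_neg] at h1 h2 e1 e2
  rw [e1, e2] at h1
  rw [e1, e2] at h2
  have i1 : 1 - mf G θ D h v ≤ K * (1 + mf G θ D h v) := by
    by_contra hc; push Not at hc
    nlinarith [mul_lt_mul_of_pos_left hc hZ]
  have i2 : 1 + mf G θ D h v ≤ K * (1 - mf G θ D h v) := by
    by_contra hc; push Not at hc
    nlinarith [mul_lt_mul_of_pos_left hc hZ]
  have hK' : (0:ℝ) < 1 + K := by linarith
  rw [one_sub_div hK'.ne', abs_le]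
  constructor
  · rw [neg_div', div_le_iff₀ hK']; nlinarith
  · rw [le_div_iff₀ hK']; nlinarith

end Vale.Agent.P161.Crit
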