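import Mathlib
import Vale.Agent.P161.Uniform
import Vale.Agent.P161.Main
import Vale.Agent.P161.Crit.Pair

/-!
The observation field in continuous time: the observation `(v, k)` is revealed at time
`k + u/(1-u)` and is weak when it is revealed early.
-/

open MeasureTheory Set Function
open scoped Classical

noncomputable section

namespace Vale.Agent.P161.Crit

variable {V : Type*}

/-- replace one coordinate -/
def upd {ι : Type*} (x : ι → ℝ) (j : ι) (y : ℝ) : ι → ℝ := update x j y

lemma upd_self {ι : Type*} (x : ι → ℝ) (j : ι) (y : ℝ) : upd x j y j = y := update_self ..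

lemma upd_ne {ι : Type*} {i j : ι} (h : i ≠ j) (x : ι → ℝ) (y : ℝ) : upd x j y i = x i :=
  update_of_ne h ..

lemma upd_upd {ι : Type*} (x : ι → ℝ) (j : ι) (y y' : ℝ) : upd (upd x j y) j y' = upd x j y' :=
  update_idem ..

lemma integral_upd' {ι : Type*} (j : ι) {F : (ι → ℝ) → ℝ} (hF : BM F) :
    ∫ x, F x ∂PU ι = ∫ x, (∫ y, F (upd x j y) ∂lam) ∂PU ι := integral_upd j hF

/-- clock and observation coordinates -/
abbrev Om (V : Type*) := (V × ℕ) ⊕ (V × ℕ) → ℝ

/-- signal strength -/
def eps : ℝ := 1 / 4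

/-- revelation time from a uniform variable -/
def tim (k : ℕ) (y : ℝ) : ℝ := k + cl y / (1 - cl y)

/-- strength of an observation revealed at time `t` -/
def str (t : ℝ) : ℝ := (min 1 t) ^ 2

/-- revelation time -/
def tau (ω : Om V) (i : V × ℕ) : ℝ := tim i.2 (ω (Sum.inl i))

lemma le_tim (k : ℕ) (y : ℝ) : (k : ℝ) ≤ tim k y := by
  unfold tim
  have := div_nonneg (cl_mem y).1 (sub_nonneg.2 (cl_mem y).2)
  linarith

lemma tim_nonneg (k : ℕ) (y : ℝ) : 0 ≤ tim k y := le_trans (Nat.cast_nonneg k) (le_tim k y)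

lemma str_mem {t : ℝ} (ht : 0 ≤ t) : 0 ≤ str t ∧ str t ≤ 1 := by
  refine ⟨sq_nonneg _, ?_⟩
  unfold str
  exact pow_le_one₀ (le_min zero_le_one ht) (min_le_left _ _)

lemma str_le_sq {t : ℝ} (ht : 0 ≤ t) : str t ≤ t ^ 2 :=
  pow_le_pow_left₀ (le_min zero_le_one ht) (min_le_right _ _) 2

lemma abs_eps_str {t : ℝ} (ht : 0 ≤ t) {a : ℝ} (ha : |a| ≤ 1) : |eps * str t * a| ≤ 1 / 4 := by
  have h := str_mem ht
  rw [abs_mul, abs_mul, abs_of_nonneg h.1]
  unfold eps
  rw [abs_of_nonneg (by norm_num : (0:ℝ) ≤ 1/4)]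
  calc 1 / 4 * str t * |a| ≤ 1 / 4 * 1 * 1 := by gcongr; exact h.2
    _ = _ := by norm_num

lemma measurable_cl : Measurable cl := continuous_cl.measurable

lemma measurable_tim (k : ℕ) : Measurable (tim k) :=
  measurable_const.add (measurable_cl.div (measurable_const.sub measurable_cl))

lemma measurable_str : Measurable str := (measurable_const.min measurable_id).pow_const 2

lemma measurable_tau (i : V × ℕ) : Measurable (fun ω : Om V => tau ω i) :=
  (measurable_tim i.2).comp (measurable_pi_apply _)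

/-- likelihood factor of one observation -/
def fac (t : ℝ) (ω : Om V) (i : V × ℕ) (b : Bool) : ℝ :=
  if tau ω i < t then 1 + eps * str (tau ω i) * spin b * cc (ω (Sum.inr i)) else 1

lemma abs_spin (b : Bool) : |spin b| = 1 := by cases b <;> simp [spin]

lemma fac_bounds (t : ℝ) (ω : Om V) (i : V × ℕ) (b : Bool) :
    3 / 4 ≤ fac t ω i b ∧ fac t ω i b ≤ 5 / 4 := by
  unfold fac
  split_ifs
  · have h := abs_le.1 (abs_eps_str (tim_nonneg i.2 (ω (Sum.inl i))) (a := spin b * cc (ω (Sum.inr i)))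
      (by rw [abs_mul, abs_spin, one_mul]; exact abs_cc _))
    unfold tau at *
    rw [mul_assoc (eps * str _)]
    constructor <;> linarith [h.1, h.2]
  · norm_num

lemma fac_pos (t : ℝ) (ω : Om V) (i : V × ℕ) (b : Bool) : 0 < fac t ω i b := by
  linarith [(fac_bounds t ω i b).1]

lemma measurable_fac (i : V × ℕ) (b : Bool) :
    Measurable (fun p : ℝ × Om V => fac p.1 p.2 i b) := by
  unfold fac
  refine Measurable.ite (measurableSet_lt ((measurable_tau i).comp measurable_snd) measurable_fst)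
    (measurable_const.add ?_) measurable_const
  exact (((measurable_const.mul (measurable_str.comp ((measurable_tau i).comp measurable_snd))).mul
    measurable_const).mul (measurable_cc.comp ((measurable_pi_apply _).comp measurable_snd)))

lemma bm_fac (t : ℝ) (i : V × ℕ) (b : Bool) : BM (fun ω : Om V => fac t ω i b) :=
  ⟨(measurable_fac i b).comp (measurable_const.prodMk measurable_id), 5 / 4, fun ω => by
    rw [abs_of_pos (fac_pos t ω i b)]; exact (fac_bounds t ω i b).2⟩

/-- likelihood of the spin `b` at `v` given the observations revealed before `t` -/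
def fld (K : ℕ) (t : ℝ) (ω : Om V) (v : V) (b : Bool) : ℝ :=
  ∏ k ∈ Finset.range K, fac t ω (v, k) b

lemma fld_pos (K : ℕ) (t : ℝ) (ω : Om V) (v : V) (b : Bool) : 0 < fld K t ω v b :=
  Finset.prod_pos (fun _ _ => fac_pos _ _ _ _)

lemma fld_le (K : ℕ) (t : ℝ) (ω : Om V) (v : V) (b : Bool) : fld K t ω v b ≤ (5 / 4) ^ K :=
  (Finset.prod_le_prod (fun _ _ => (fac_pos _ _ _ _).le) (fun _ _ => (fac_bounds _ _ _ _).2)).trans
    (le_of_eq (by rw [Finset.prod_const, Finset.card_range]))

lemma fld_ratio (K : ℕ) (t : ℝ) (ω : Om V) (v : V) (b b' : Bool) :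
    fld K t ω v b ≤ (5 / 3) ^ K * fld K t ω v b' := by
  unfold fld
  calc ∏ k ∈ Finset.range K, fac t ω (v, k) b
      ≤ ∏ k ∈ Finset.range K, (5 / 3 * fac t ω (v, k) b') :=
        Finset.prod_le_prod (fun _ _ => (fac_pos _ _ _ _).le) (fun k _ => by
          linarith [(fac_bounds t ω (v, k) b).2, (fac_bounds t ω (v, k) b').1])
    _ = _ := by rw [Finset.prod_mul_distrib, Finset.prod_const, Finset.card_range]

lemma measurable_fld (K : ℕ) (v : V) (b : Bool) :
    Measurable (fun p : ℝ × Om V => fld K p.1 p.2 v b) :=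
  Finset.measurable_prod _ (fun _ _ => measurable_fac _ _)

lemma bm_fld (K : ℕ) (t : ℝ) (v : V) (b : Bool) : BM (fun ω : Om V => fld K t ω v b) :=
  BM.prod _ (fun _ _ => bm_fac _ _ _)

lemma bm_fprod (K : ℕ) (t : ℝ) (D η : Finset V) :
    BM (fun ω : Om V => fprod D (fld K t ω) η) :=
  BM.prod _ (fun _ _ => bm_fld _ _ _ _)

/-- the coordinates attached to the vertices of `A` -/
def crd (K : ℕ) (A : Finset V) : Finset ((V × ℕ) ⊕ (V × ℕ)) :=
  (A ×ˢ Finset.range K).disjSum (A ×ˢ Finset.range K)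

lemma mem_crd_inl {K : ℕ} {A : Finset V} {i : V × ℕ} :
    Sum.inl i ∈ crd K A ↔ i.1 ∈ A ∧ i.2 < K := by simp [crd]

lemma mem_crd_inr {K : ℕ} {A : Finset V} {i : V × ℕ} :
    Sum.inr i ∈ crd K A ↔ i.1 ∈ A ∧ i.2 < K := by simp [crd]

lemma crd_mono (K : ℕ) {A B : Finset V} (h : A ⊆ B) :
    (crd K A : Set ((V × ℕ) ⊕ (V × ℕ))) ⊆ crd K B := by
  rintro (i | i) hi
  · rw [Finset.mem_coe, mem_crd_inl] at hi ⊢; exact ⟨h hi.1, hi.2⟩
  · rw [Finset.mem_coe, mem_crd_inr] at hi ⊢; exact ⟨h hi.1, hi.2⟩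

lemma crd_disjoint (K : ℕ) {A B : Finset V} (h : Disjoint A B) :
    Disjoint (crd K A : Set ((V × ℕ) ⊕ (V × ℕ))) (crd K B) := by
  rw [Set.disjoint_left]
  rintro (i | i) hi hi'
  · rw [Finset.mem_coe, mem_crd_inl] at hi hi'; exact Finset.disjoint_left.1 h hi.1 hi'.1
  · rw [Finset.mem_coe, mem_crd_inr] at hi hi'; exact Finset.disjoint_left.1 h hi.1 hi'.1

lemma fld_congr {K : ℕ} {t : ℝ} {ω ω' : Om V} {A : Finset V}
    (h : ∀ c ∈ crd K A, ω c = ω' c) {v : V} (hv : v ∈ A) : fld K t ω v = fld K t ω' v := by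
  funext b
  refine Finset.prod_congr rfl (fun k hk => ?_)
  have hk' := Finset.mem_range.1 hk
  have e1 : tau ω (v, k) = tau ω' (v, k) := congrArg (tim k)
    (h _ (mem_crd_inl.2 (show (v, k).1 ∈ A ∧ (v, k).2 < K from ⟨hv, hk'⟩)))
  simp only [fac, e1, h _ (mem_crd_inr.2 (show (v, k).1 ∈ A ∧ (v, k).2 < K from ⟨hv, hk'⟩))]

lemma dep_fprod (K : ℕ) (t : ℝ) (D η : Finset V) :
    Dep (crd K D : Set _) (fun ω : Om V => fprod D (fld K t ω) η) := by
  intro ω ω' h
  exact Finset.prod_congr rfl (fun v hv => by rw [fld_congr (fun c hc => h c hc) hv])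

/-- functions of disjoint sets of coordinates are uncorrelated -/
lemma integral_mul_of_dep {ι : Type*} {S : Set ι} {F : (ι → ℝ) → ℝ} (hF : BM F) (hFd : Dep S F) :
    ∀ (T : Finset ι) (H : (ι → ℝ) → ℝ), BM H → Dep (T : Set ι) H → Disjoint S T →
      ∫ x, F x * H x ∂PU ι = (∫ x, F x ∂PU ι) * ∫ x, H x ∂PU ι := by
  intro T
  induction T using Finset.induction with
  | empty =>
    intro H _ hd _
    have h : ∀ x, H x = H (fun _ => 0) := fun x => hd x _ (by simp)
    simp only [h, integral_mul_const, integral_const, probReal_univ, one_smul]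
  | insert j T hj ih =>
    intro H hH hd hdis
    have hjS : j ∉ S := fun c => Set.disjoint_left.1 hdis c (by simp)
    set H' : (ι → ℝ) → ℝ := fun x => ∫ y, H (update x j y) ∂lam with hH'
    have hd' : Dep (T : Set ι) H' := by
      intro x x' h
      simp only [hH']
      refine integral_congr_ae (ae_of_all _ (fun y => hd _ _ (fun i hi => ?_)))
      by_cases hij : i = j
      · subst hij; simp
      · simp only [update_of_ne hij]
        exact h i (by simpa [hij] using hi)
    have e := ih H' (bm_integral_upd j hH) hd'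
      (hdis.mono_right (by simp [Finset.coe_insert]))
    rw [integral_upd j (hF.mul hH), integral_upd j hH]
    simp only [fun x y => hFd.update hjS x y, integral_const_mul]
    exact e

lemma integral_mul_crd {K : ℕ} {A B : Finset V} (hAB : Disjoint A B) {F H : Om V → ℝ}
    (hF : BM F) (hFd : Dep (crd K A : Set _) F) (hH : BM H) (hHd : Dep (crd K B : Set _) H) :
    ∫ ω, F ω * H ω ∂PU _ = (∫ ω, F ω ∂PU _) * ∫ ω, H ω ∂PU _ :=
  integral_mul_of_dep hF hFd _ H hH hHd (crd_disjoint K hAB)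

/-- `φ` does not look at the observations attached to the vertices outside `A` -/
def Blind (K : ℕ) (A : Finset V) (φ : Om V → ℝ) : Prop :=
  ∀ i : V × ℕ, i.1 ∉ A → i.2 < K → ∀ ω y, φ (upd ω (Sum.inr i) y) = φ ω

lemma Blind.of_dep {K : ℕ} {A : Finset V} {φ : Om V → ℝ} (h : Dep (crd K A : Set _) φ) :
    Blind K A φ := fun i hi _ ω y =>
  h.update (fun c => hi (mem_crd_inr.1 (Finset.mem_coe.1 c)).1) ω y

lemma fac_upd_ne (t : ℝ) (ω : Om V) {i j : V × ℕ} (hij : i ≠ j) (y : ℝ) (b : Bool) :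
    fac t (upd ω (Sum.inr i) y) j b = fac t ω j b := by
  unfold fac tau
  rw [upd_ne (by simp), upd_ne (by simpa using Ne.symm hij)]

lemma integral_mul_fac (t : ℝ) (i : V × ℕ) (b : Bool) {φ : Om V → ℝ} (hφ : BM φ)
    (hd : ∀ ω y, φ (upd ω (Sum.inr i) y) = φ ω) :
    ∫ ω, φ ω * fac t ω i b ∂PU _ = ∫ ω, φ ω ∂PU _ := by
  rw [integral_upd' (Sum.inr i) (hφ.mul (bm_fac t i b))]
  refine integral_congr_ae (ae_of_all _ (fun ω => ?_))
  simp only [hd, integral_const_mul]
  have h : ∫ y, fac t (upd ω (Sum.inr i) y) i b ∂lam = 1 := by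
    unfold fac tau
    simp only [upd_self, upd_ne (show (Sum.inl i : (V × ℕ) ⊕ (V × ℕ)) ≠ Sum.inr i by simp)]
    split_ifs
    · have i1 : Integrable cc lam :=
        Integrable.of_bound measurable_cc.aestronglyMeasurable 1
          (ae_of_all _ (fun y => (Real.norm_eq_abs _).le.trans (abs_cc y)))
      rw [integral_add (integrable_const _) (i1.const_mul _), integral_const_mul, integral_cc]
      simp
    · simp
  rw [h, mul_one]

lemma integral_mul_fac_prod (t : ℝ) (c : V × ℕ → Bool) {φ : Om V → ℝ} (hφ : BM φ) :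
    ∀ I : Finset (V × ℕ), (∀ i ∈ I, ∀ ω y, φ (upd ω (Sum.inr i) y) = φ ω) →
      ∫ ω, φ ω * ∏ i ∈ I, fac t ω i (c i) ∂PU _ = ∫ ω, φ ω ∂PU _ := by
  intro I
  induction I using Finset.induction with
  | empty => simp
  | insert j I hj ih =>
    intro hd
    have e : ∀ ω, φ ω * ∏ i ∈ insert j I, fac t ω i (c i)
        = (φ ω * ∏ i ∈ I, fac t ω i (c i)) * fac t ω j (c j) := fun ω => by
      rw [Finset.prod_insert hj]; ring
    simp only [e]
    rw [integral_mul_fac t j (c j) (hφ.mul (BM.prod I (fun i _ => bm_fac t i _)))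
      (fun ω y => by
        rw [hd j (Finset.mem_insert_self j I)]
        congr 1
        exact Finset.prod_congr rfl (fun i hi =>
          fac_upd_ne t ω (fun e => hj (by subst e; exact hi)) y _))]
    exact ih (fun i hi => hd i (Finset.mem_insert_of_mem hi))

lemma fprod_eq_fac (K : ℕ) (t : ℝ) (ω : Om V) (D η : Finset V) :
    fprod D (fld K t ω) η
      = ∏ i ∈ D ×ˢ Finset.range K, fac t ω i (decide (i.1 ∈ η)) := by
  rw [Finset.prod_product]
  rfl

lemma fprod_upd_ne (K : ℕ) (t : ℝ) (ω : Om V) (D η : Finset V) {i : V × ℕ} (hi : i.1 ∉ D) (y : ℝ) :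
    fprod D (fld K t (upd ω (Sum.inr i) y)) η = fprod D (fld K t ω) η := by
  rw [fprod_eq_fac, fprod_eq_fac]
  refine Finset.prod_congr rfl (fun j hj => fac_upd_ne t ω (fun e => hi ?_) y _)
  rw [e]; exact (Finset.mem_product.1 hj).1

/-- the likelihood of vertices that are not observed integrates out -/
lemma integral_fprod_restrict {K : ℕ} {t : ℝ} {D M : Finset V} (hDM : D ⊆ M) (η : Finset V)
    {φ : Om V → ℝ} (hφ : BM φ) (hd : Blind K D φ) :
    ∫ ω, φ ω * fprod M (fld K t ω) η ∂PU _ = ∫ ω, φ ω * fprod D (fld K t ω) η ∂PU _ := by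
  have e : ∀ ω, φ ω * fprod M (fld K t ω) η = (φ ω * fprod D (fld K t ω) η)
      * ∏ i ∈ (M \ D) ×ˢ Finset.range K, fac t ω i (decide (i.1 ∈ η)) := fun ω => by
    rw [← fprod_eq_fac, mul_assoc]
    congr 1
    unfold fprod
    rw [mul_comm, Finset.prod_sdiff hDM]
  simp only [e]
  refine integral_mul_fac_prod t _ (hφ.mul (bm_fprod K t D η)) _ (fun i hi ω y => ?_)
  obtain ⟨h1, h2⟩ := Finset.mem_product.1 hi
  have h1' := (Finset.mem_sdiff.1 h1).2
  rw [hd i h1' (Finset.mem_range.1 h2), fprod_upd_ne K t ω D η h1']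

/-- reflection of the observations -/
def refl (ω : Om V) : Om V := fun c => Sum.elim (fun _ => ω c) (fun _ => 1 - ω c) c

lemma map_one_sub_lam : lam.map (fun y : ℝ => 1 - y) = lam := by
  unfold lam
  have h := ((Measure.measurePreserving_sub_left volume (1:ℝ)).restrict_preimage
    (measurableSet_Icc (a := (0:ℝ)) (b := 1))).map_eq
  simpa using h

lemma measurePreserving_refl : MeasurePreserving (refl (V := V)) (PU _) (PU _) := by
  have e : (refl (V := V)) = fun ω c =>
      (Sum.elim (fun _ => id) (fun _ y => 1 - y) c : ℝ → ℝ) (ω c) := by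
    funext ω c; cases c <;> rfl
  have hm : ∀ c : (V × ℕ) ⊕ (V × ℕ),
      Measurable (Sum.elim (fun _ => id) (fun _ y => 1 - y) c : ℝ → ℝ) := by
    rintro (c | c)
    · exact measurable_id
    · exact measurable_const.sub measurable_id
  rw [e]
  refine ⟨measurable_pi_lambda _ (fun c => (hm c).comp (measurable_pi_apply c)), ?_⟩
  unfold PU
  rw [Measure.infinitePi_map_pi _ hm]
  congr 1
  funext c
  cases c with
  | inl i => exact Measure.map_id
  | inr i => exact map_one_sub_lam

lemma cc_one_sub (y : ℝ) : cc (1 - y) = - cc y := by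
  have : cl (1 - y) = 1 - cl y := by
    unfold cl
    rcases le_total y 0 with h | h
    · rw [min_eq_left (by linarith), max_eq_right zero_le_one, min_eq_right (by linarith),
        max_eq_left h, sub_zero]
    · rcases le_total y 1 with h' | h'
      · rw [min_eq_right (by linarith), max_eq_right (by linarith), min_eq_right h',
          max_eq_right h]
      · rw [min_eq_right (by linarith), max_eq_left (by linarith), min_eq_left h',
          max_eq_right zero_le_one, sub_self]
  simp only [cc, this]; ring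

lemma fld_refl (K : ℕ) (t : ℝ) (ω : Om V) (v : V) (b : Bool) :
    fld K t (refl ω) v b = fld K t ω v (!b) := by
  refine Finset.prod_congr rfl (fun k _ => ?_)
  have e1 : tau (refl ω) (v, k) = tau ω (v, k) := rfl
  have e2 : cc (refl ω (Sum.inr (v, k))) = - cc (ω (Sum.inr (v, k))) := cc_one_sub _
  have e3 : spin (!b) = - spin b := by cases b <;> simp [spin]
  simp only [fac, e1, e2, e3, mul_neg, neg_mul]

/-- invariance under reflection of the observations -/
def Even' (φ : Om V → ℝ) : Prop := ∀ ω, φ (refl ω) = φ ω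

lemma integral_odd {φ : Om V → ℝ} (hφ : BM φ) (h : ∀ ω, φ (refl ω) = - φ ω) :
    ∫ ω, φ ω ∂PU _ = 0 := by
  have e : ∫ ω, φ (refl ω) ∂PU _ = ∫ ω, φ ω ∂PU _ := by
    conv_rhs => rw [← (measurePreserving_refl (V := V)).map_eq]
    rw [integral_map measurePreserving_refl.measurable.aemeasurable hφ.1.aestronglyMeasurable]
  simp only [h, integral_neg] at e
  linarith

end Vale.Agent.P161.Crit
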