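import Mathlib
import Vale.Agent.P161.Crit.Field

/-!
The joint law of clocks and observations seen at a fixed time, as a density.
-/

open MeasureTheory Set Function
open scoped Classical

noncomputable section

namespace Vale.Agent.P161.Crit

variable {V : Type*} {G : SimpleGraph V} {θ : ℝ} {K : ℕ} {t : ℝ}

/-- density at time `t` -/
def Zw (G : SimpleGraph V) (θ : ℝ) (K : ℕ) (t : ℝ) (D : Finset V) (ω : Om V) : ℝ :=
  Zf G θ D (fld K t ω)

/-- posterior mean at time `t` -/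
def Xw (G : SimpleGraph V) (θ : ℝ) (K : ℕ) (t : ℝ) (D : Finset V) (v : V) (ω : Om V) : ℝ :=
  mf G θ D (fld K t ω) v

lemma EI_compl (D : Finset V) (F : Finset V → ℝ) :
    EI G θ D (fun η => F (D \ η)) = EI G θ D F := by
  unfold EI
  refine Finset.sum_nbij' (fun η => D \ η) (fun η => D \ η)
    (fun η _ => Finset.mem_powerset.2 Finset.sdiff_subset)
    (fun η _ => Finset.mem_powerset.2 Finset.sdiff_subset)
    (fun η hη => Finset.sdiff_sdiff_eq_self (Finset.mem_powerset.1 hη))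
    (fun η hη => Finset.sdiff_sdiff_eq_self (Finset.mem_powerset.1 hη)) (fun η hη => ?_)
  congr 1
  unfold wgt isingCylinder
  congr 1
  refine Finset.prod_congr rfl (fun e he => ?_)
  induction e using Sym2.ind with
  | _ a b =>
    rw [Finset.mem_filter, Finset.mk_mem_sym2_iff] at he
    rw [edgeFactor_mk, edgeFactor_mk]
    by_cases ha : a ∈ η <;> by_cases hb : b ∈ η <;> simp [spin, ha, hb, he.1.1, he.1.2]

section basic

variable (hθ0 : 0 ≤ θ) (hθ1 : θ < 1)

include hθ0 hθ1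

lemma Zw_pos (D : Finset V) (ω : Om V) : 0 < Zw G θ K t D ω :=
  Zf_pos hθ0 hθ1 (fld_pos K t ω) D

lemma abs_Xw_le (D : Finset V) (v : V) (ω : Om V) : |Xw G θ K t D v ω| ≤ 1 :=
  abs_mf_le hθ0 hθ1 (fld_pos K t ω) D v

lemma Zw_mul_Xw (D : Finset V) (v : V) (ω : Om V) : Xw G θ K t D v ω * Zw G θ K t D ω
    = EI G θ D (fun η => fprod D (fld K t ω) η * sp η v) :=
  div_mul_cancel₀ _ (Zw_pos hθ0 hθ1 D ω).ne'

omit hθ0 hθ1 in
lemma bm_Zw (D : Finset V) : BM (Zw G θ K t D) :=
  BM.sum D.powerset (fun η _ => (BM.const (wgt G θ D η)).mul (bm_fprod K t D η))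

lemma bm_Xw (D : Finset V) (v : V) : BM (Xw G θ K t D v) := by
  refine ⟨?_, 1, abs_Xw_le hθ0 hθ1 D v⟩
  refine Measurable.div ?_ (bm_Zw D).1
  exact (BM.sum D.powerset (fun η _ => (BM.const (wgt G θ D η)).mul
    ((bm_fprod K t D η).mul (BM.const (sp η v))))).1

omit hθ0 hθ1 in
lemma dep_Zw (D : Finset V) : Dep (crd K D : Set _) (Zw G θ K t D) := fun ω ω' h =>
  EI_congr D (fun η _ => dep_fprod K t D η ω ω' h)

omit hθ0 hθ1 in
lemma dep_Xw (D : Finset V) (v : V) : Dep (crd K D : Set _) (Xw G θ K t D v) := by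
  intro ω ω' h
  have h1 := dep_Zw (G := G) (θ := θ) (t := t) D ω ω' h
  have h2 : EI G θ D (fun η => fprod D (fld K t ω) η * sp η v)
      = EI G θ D (fun η => fprod D (fld K t ω') η * sp η v) :=
    EI_congr D (fun η _ => by rw [show fprod D (fld K t ω) η = fprod D (fld K t ω') η from
      dep_fprod K t D η ω ω' h])
  unfold Zw at h1
  simp only [Xw, mf, h1, h2]

omit hθ0 hθ1 in
lemma fprod_refl (D η : Finset V) (ω : Om V) :
    fprod D (fld K t (refl ω)) η = fprod D (fld K t ω) (D \ η) := by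
  refine Finset.prod_congr rfl (fun v hv => ?_)
  rw [fld_refl]
  congr 1
  by_cases h : v ∈ η <;> simp [hv, h]

omit hθ0 hθ1 in
lemma Zw_refl (D : Finset V) : Even' (Zw G θ K t D) := by
  intro ω
  simp only [Zw, Zf]
  rw [show fprod D (fld K t (refl ω)) = fun η => fprod D (fld K t ω) (D \ η) from
    funext (fun η => fprod_refl D η ω)]
  exact EI_compl D (fprod D (fld K t ω))

lemma Xw_refl {D : Finset V} {v : V} (hv : v ∈ D) (ω : Om V) :
    Xw G θ K t D v (refl ω) = - Xw G θ K t D v ω := by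
  have h := Zw_mul_Xw (G := G) (K := K) (t := t) hθ0 hθ1 D v (refl ω)
  rw [Zw_refl (G := G) (θ := θ) D ω] at h
  have e : EI G θ D (fun η => fprod D (fld K t (refl ω)) η * sp η v)
      = - EI G θ D (fun η => fprod D (fld K t ω) η * sp η v) := by
    rw [← EI_compl D (fun η => fprod D (fld K t ω) η * sp η v), ← neg_one_mul (EI G θ D _),
      ← EI_const_mul]
    refine EI_congr D (fun η _ => ?_)
    rw [fprod_refl]
    by_cases hη : v ∈ η <;> simp [sp_eq, hη, hv]
  rw [e, ← Zw_mul_Xw hθ0 hθ1 D v ω, ← neg_mul] at h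
  exact mul_right_cancel₀ (Zw_pos hθ0 hθ1 D ω).ne' h

omit hθ0 hθ1 in
lemma integral_Zw_mul {φ : Om V → ℝ} (hφ : BM φ) (D : Finset V) :
    ∫ ω, φ ω * Zw G θ K t D ω ∂PU _
      = EI G θ D (fun η => ∫ ω, φ ω * fprod D (fld K t ω) η ∂PU _) := by
  simp only [Zw, Zf, EI, Finset.mul_sum]
  rw [integral_finsetSum _ (fun η _ =>
    (hφ.mul ((BM.const _).mul (bm_fprod K t D η))).integrable _)]
  refine Finset.sum_congr rfl (fun η _ => ?_)
  rw [← integral_const_mul]
  exact integral_congr_ae (ae_of_all _ (fun ω => by ring))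

lemma integral_Nw_mul {φ : Om V → ℝ} (hφ : BM φ) (D : Finset V) (v : V) :
    ∫ ω, φ ω * (Xw G θ K t D v ω * Zw G θ K t D ω) ∂PU _
      = EI G θ D (fun η => (∫ ω, φ ω * fprod D (fld K t ω) η ∂PU _) * sp η v) := by
  simp only [Zw_mul_Xw hθ0 hθ1, EI, Finset.mul_sum]
  rw [integral_finsetSum _ (fun η _ =>
    (hφ.mul ((BM.const _).mul ((bm_fprod K t D η).mul (BM.const _)))).integrable _)]
  refine Finset.sum_congr rfl (fun η _ => ?_)
  rw [← integral_mul_const, ← integral_const_mul]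
  exact integral_congr_ae (ae_of_all _ (fun ω => by ring))

/-- reflection-invariant functions carry no information on a spin -/
lemma integral_Nw_even {φ : Om V → ℝ} (hφ : BM φ) (he : Even' φ) {D : Finset V} {v : V}
    (hv : v ∈ D) : ∫ ω, φ ω * (Xw G θ K t D v ω * Zw G θ K t D ω) ∂PU _ = 0 := by
  refine integral_odd (hφ.mul ((bm_Xw hθ0 hθ1 D v).mul (bm_Zw D))) (fun ω => ?_)
  rw [he ω, Xw_refl hθ0 hθ1 hv, Zw_refl (G := G) (θ := θ) D ω]
  ring

end basic

section laws

variable (hT : G.IsTree) (hθ0 : 0 ≤ θ) (hθ1 : θ < 1)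

include hT hθ0 hθ1

/-- the laws at time `t` in different volumes are consistent -/
lemma cons_Z {D M : Finset V} (hD : Geo G D) (hM : Geo G M) (hDM : D ⊆ M) (hne : D.Nonempty)
    {φ : Om V → ℝ} (hφ : BM φ) (hd : Dep (crd K D : Set _) φ) :
    ∫ ω, φ ω * Zw G θ K t M ω ∂PU _ = ∫ ω, φ ω * Zw G θ K t D ω ∂PU _ := by
  rw [integral_Zw_mul hφ, integral_Zw_mul hφ,
    EI_congr M (fun η _ => integral_fprod_restrict hDM η hφ (Blind.of_dep hd))]
  refine EI_consistent hT _ D M rfl hDM hD hM hne _ (fun η η' h => ?_)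
  refine integral_congr_ae (ae_of_all _ (fun ω => ?_))
  simp only [loc_fprod D (fld K t ω) η η' h]

lemma cons_N {D M : Finset V} (hD : Geo G D) (hM : Geo G M) (hDM : D ⊆ M) {v : V} (hv : v ∈ D)
    {φ : Om V → ℝ} (hφ : BM φ) (hd : Dep (crd K D : Set _) φ) :
    ∫ ω, φ ω * (Xw G θ K t M v ω * Zw G θ K t M ω) ∂PU _
      = ∫ ω, φ ω * (Xw G θ K t D v ω * Zw G θ K t D ω) ∂PU _ := by
  rw [integral_Nw_mul hθ0 hθ1 hφ, integral_Nw_mul hθ0 hθ1 hφ,
    EI_congr M (fun η _ => by rw [integral_fprod_restrict hDM η hφ (Blind.of_dep hd)])]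
  refine EI_consistent hT _ D M rfl hDM hD hM ⟨v, hv⟩ _ (fun η η' h => ?_)
  have h1 : sp η v = sp η' v := Loc.sp hv η η' h
  rw [h1]
  congr 1
  refine integral_congr_ae (ae_of_all _ (fun ω => ?_))
  simp only [loc_fprod D (fld K t ω) η η' h]

lemma integral_Zw {D : Finset V} (hD : Geo G D) (hne : D.Nonempty) :
    ∫ ω, Zw G θ K t D ω ∂PU _ = 1 := by
  obtain ⟨v, hv⟩ := hne
  have h := cons_Z (K := K) (t := t) hT hθ0 hθ1 (geo_singleton v) hD (by simpa using hv)
    (Finset.singleton_nonempty v) (BM.const 1) (fun _ _ _ => rfl)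
  have e : ∀ η : Finset V, ∫ ω, (1:ℝ) * fprod {v} (fld K t ω) η ∂PU _ = 1 := by
    intro η
    have := integral_mul_fac_prod t (fun i => decide (i.1 ∈ η)) (BM.const (1:ℝ))
      (({v} : Finset V) ×ˢ Finset.range K) (fun _ _ _ _ => rfl)
    simpa [fprod_eq_fac] using this
  rw [integral_Zw_mul (BM.const 1) {v}, EI_congr {v} (fun η _ => e η), EI_singleton] at h
  norm_num at h
  exact h

lemma integral_Nw {D : Finset V} {v : V} (hv : v ∈ D) :
    ∫ ω, Xw G θ K t D v ω * Zw G θ K t D ω ∂PU _ = 0 := by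
  have := integral_Nw_even (K := K) (t := t) (G := G) hθ0 hθ1 (BM.const (α := Om V) 1) (fun _ => rfl) hv
  simpa using this

section cut

variable {D : Finset V} {x y : V} (hx : x ∈ D) (hy : y ∈ D) (ha : G.Adj x y)

include hx hy ha

lemma cut_Z (ω : Om V) : Zw G θ K t D ω
    = Zw G θ K t (side G D x y) ω * Zw G θ K t (side G D y x) ω
      * (1 + θ * Xw G θ K t (side G D x y) x ω * Xw G θ K t (side G D y x) y ω) := by
  set A := side G D x y with hA
  set B := side G D y x with hB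
  set h := fld K t ω
  have hZA := Zf_pos (G := G) hθ0 hθ1 (fld_pos K t ω) A
  have hZB := Zf_pos (G := G) hθ0 hθ1 (fld_pos K t ω) B
  have hf : ∀ η, fprod D h η = fprod A h η * fprod B h η := by
    intro η
    unfold fprod
    conv_lhs => rw [← side_union hT D ha]
    rw [Finset.prod_union (side_disjoint hT D ha)]
  have h1 := EI_cut (θ := θ) hT hx hy ha (loc_fprod A h) (loc_fprod B h)
  have e : EI G θ D (fun η => fprod A h η * fprod B h η) = Zf G θ D h :=
    EI_congr D (fun η _ => (hf η).symm)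
  rw [e] at h1
  simp only [Zw, Xw, mf, Zf] at *
  rw [h1]
  field_simp
  ring

lemma cut_N (ω : Om V) : Xw G θ K t D x ω * Zw G θ K t D ω
    = Zw G θ K t (side G D x y) ω * Zw G θ K t (side G D y x) ω
      * (Xw G θ K t (side G D x y) x ω + θ * Xw G θ K t (side G D y x) y ω) := by
  have h := mf_left hT hθ0 hθ1 (fld_pos K t ω) hx hy ha
  have hne := (abs_cut_den hT hθ0 hθ1 (fld_pos K t ω) hx hy ha).ne'
  rw [cut_Z hT hθ0 hθ1 hx hy ha ω, show Xw G θ K t D x ω = _ from h]
  simp only [Xw]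
  generalize hd : 1 + θ * mf G θ (side G D x y) (fld K t ω) x * mf G θ (side G D y x) (fld K t ω) y = d at hne ⊢
  field_simp

/-- splitting an expectation along an edge -/
lemma cut_int {F H : Om V → ℝ} (hF : BM F) (hFd : Dep (crd K (side G D x y) : Set _) F)
    (hH : BM H) (hHd : Dep (crd K (side G D y x) : Set _) H) :
    ∫ ω, F ω * H ω * Zw G θ K t D ω ∂PU _
      = (∫ ω, F ω * Zw G θ K t (side G D x y) ω ∂PU _)
          * (∫ ω, H ω * Zw G θ K t (side G D y x) ω ∂PU _)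
        + θ * ((∫ ω, F ω * (Xw G θ K t (side G D x y) x ω * Zw G θ K t (side G D x y) ω) ∂PU _)
          * ∫ ω, H ω * (Xw G θ K t (side G D y x) y ω * Zw G θ K t (side G D y x) ω) ∂PU _) := by
  set A := side G D x y
  set B := side G D y x
  have hAB : Disjoint A B := side_disjoint hT D ha
  have bA := bm_Zw (G := G) (θ := θ) (K := K) (t := t) A
  have bB := bm_Zw (G := G) (θ := θ) (K := K) (t := t) B
  have bX := bm_Xw (G := G) (K := K) (t := t) hθ0 hθ1 A x
  have bY := bm_Xw (G := G) (K := K) (t := t) hθ0 hθ1 B y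
  rw [← integral_mul_crd hAB (hF.mul bA) (hFd.mul (dep_Zw A)) (hH.mul bB) (hHd.mul (dep_Zw B)),
    ← integral_mul_crd hAB (hF.mul (bX.mul bA)) (hFd.mul ((dep_Xw A x).mul (dep_Zw A)))
      (hH.mul (bY.mul bB)) (hHd.mul ((dep_Xw B y).mul (dep_Zw B))), ← integral_const_mul,
    ← integral_add (((hF.mul bA).mul (hH.mul bB)).integrable _)
      ((((hF.mul (bX.mul bA)).mul (hH.mul (bY.mul bB)))).integrable _ |>.const_mul θ)]
  refine integral_congr_ae (ae_of_all _ (fun ω => ?_))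
  simp only [cut_Z hT hθ0 hθ1 hx hy ha ω]
  ring

/-- splitting an expectation weighted by the spin at the endpoint -/
lemma cut_intN {F H : Om V → ℝ} (hF : BM F) (hFd : Dep (crd K (side G D x y) : Set _) F)
    (hH : BM H) (hHd : Dep (crd K (side G D y x) : Set _) H) :
    ∫ ω, F ω * H ω * (Xw G θ K t D x ω * Zw G θ K t D ω) ∂PU _
      = (∫ ω, F ω * (Xw G θ K t (side G D x y) x ω * Zw G θ K t (side G D x y) ω) ∂PU _)
          * (∫ ω, H ω * Zw G θ K t (side G D y x) ω ∂PU _)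
        + θ * ((∫ ω, F ω * Zw G θ K t (side G D x y) ω ∂PU _)
          * ∫ ω, H ω * (Xw G θ K t (side G D y x) y ω * Zw G θ K t (side G D y x) ω) ∂PU _) := by
  set A := side G D x y
  set B := side G D y x
  have hAB : Disjoint A B := side_disjoint hT D ha
  have bA := bm_Zw (G := G) (θ := θ) (K := K) (t := t) A
  have bB := bm_Zw (G := G) (θ := θ) (K := K) (t := t) B
  have bX := bm_Xw (G := G) (K := K) (t := t) hθ0 hθ1 A x
  have bY := bm_Xw (G := G) (K := K) (t := t) hθ0 hθ1 B y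
  rw [← integral_mul_crd hAB (hF.mul (bX.mul bA)) (hFd.mul ((dep_Xw A x).mul (dep_Zw A)))
      (hH.mul bB) (hHd.mul (dep_Zw B)),
    ← integral_mul_crd hAB (hF.mul bA) (hFd.mul (dep_Zw A)) (hH.mul (bY.mul bB))
      (hHd.mul ((dep_Xw B y).mul (dep_Zw B))), ← integral_const_mul,
    ← integral_add (((hF.mul (bX.mul bA)).mul (hH.mul bB)).integrable _)
      ((((hF.mul bA).mul (hH.mul (bY.mul bB)))).integrable _ |>.const_mul θ)]
  refine integral_congr_ae (ae_of_all _ (fun ω => ?_))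
  simp only [cut_N hT hθ0 hθ1 hx hy ha ω]
  ring

end cut

end laws

end Vale.Agent.P161.Crit
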