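import Mathlib
import Vale.Agent.P161.Crit.Static

/-!
The finite-volume sampler run in continuous time.
-/

open MeasureTheory Set Function
open scoped Classical

noncomputable section

namespace Vale.Agent.P161.Crit

variable {V : Type*} {G : SimpleGraph V} {θ : ℝ} {K : ℕ}

/-- observation indices of a finite volume up to the horizon -/
def box (K : ℕ) (D : Finset V) : Finset (V × ℕ) := D ×ˢ Finset.range K

lemma mem_box {K : ℕ} {D : Finset V} {i : V × ℕ} : i ∈ box K D ↔ i.1 ∈ D ∧ i.2 < K := by
  simp [box]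

/-- clocks -/
def uP (ω : Om V) : V × ℕ → ℝ := fun i => ω (Sum.inl i)

/-- sampling variables or observations -/
def xP (ω : Om V) : V × ℕ → ℝ := fun i => ω (Sum.inr i)

/-- the observation model for given clocks -/
def smdl (G : SimpleGraph V) (θ : ℝ) (D : Finset V) (u : V × ℕ → ℝ) : Model (V × ℕ) (Finset V) :=
  ⟨D.powerset, fun η => wgt G θ D η, fun i η => str (tim i.2 (u i)) * sp η i.1, eps⟩

/-- the order of revelation -/
def eord (u : V × ℕ → ℝ) (a b : V × ℕ) : Prop := tim a.2 (u a) < tim b.2 (u b)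

lemma eord_irrefl (u : V × ℕ → ℝ) (a : V × ℕ) : ¬ eord u a a := lt_irrefl _

lemma eord_trans (u : V × ℕ → ℝ) (a b c : V × ℕ) (h : eord u a b) (h' : eord u b c) : eord u a c :=
  lt_trans h h'

/-- all revelation times are distinct -/
def Distinct (ω : Om V) : Prop := Injective (fun i => tau ω i)

lemma smdl_good (hT : G.IsTree) (hθ0 : 0 ≤ θ) (hθ1 : θ < 1) {D : Finset V} (hD : Geo G D)
    (hne : D.Nonempty) (u : V × ℕ → ℝ) : (smdl G θ D u).Good where
  wnn := fun η _ => (wgt_pos hθ0 hθ1 D η).le
  wsum := by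
    obtain ⟨v, hv⟩ := hne
    have h1 := EI_consistent (θ := θ) hT _ {v} D rfl (by simpa using hv) (geo_singleton v) hD
      (Finset.singleton_nonempty v) (fun _ => 1) (fun _ _ _ => rfl)
    rw [EI_singleton] at h1
    norm_num at h1
    simpa [smdl, EI] using h1
  sgle := fun i η => by
    have h := str_mem (tim_nonneg i.2 (u i))
    simp only [smdl, abs_mul, abs_sp, mul_one, abs_of_nonneg h.1]
    exact h.2
  εnn := by norm_num [smdl, eps]
  εle := by norm_num [smdl, eps]

lemma L_filter_eq (D η : Finset V) (t : ℝ) (u x : V × ℕ → ℝ) :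
    (smdl G θ D u).L ((box K D).filter (fun i => tim i.2 (u i) < t)) x η
      = fprod D (fld K t (Sum.elim u x)) η := by
  rw [fprod_eq_fac, Model.L, Finset.prod_filter]
  refine Finset.prod_congr rfl (fun i _ => ?_)
  show _ = fac t (Sum.elim u x) i (decide (i.1 ∈ η))
  simp only [fac, tau, Sum.elim_inl, Sum.elim_inr, smdl, sp]
  by_cases h : tim i.2 (u i) < t <;> simp [h, mul_assoc]

lemma den_filter_eq (D : Finset V) (t : ℝ) (u x : V × ℕ → ℝ) :
    (smdl G θ D u).den ((box K D).filter (fun i => tim i.2 (u i) < t)) x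
      = Zw G θ K t D (Sum.elim u x) :=
  Finset.sum_congr rfl (fun η _ => by rw [L_filter_eq]; rfl)

lemma mean_pre_eq (D : Finset V) (u x : V × ℕ → ℝ) (i : V × ℕ) :
    (smdl G θ D u).mean i (Model.pre (eord u) (box K D) i) x
      = str (tim i.2 (u i)) * Xw G θ K (tim i.2 (u i)) D i.1 (Sum.elim u x) := by
  have h1 : (smdl G θ D u).num i ((box K D).filter (fun j => tim j.2 (u j) < tim i.2 (u i))) x
      = str (tim i.2 (u i))
        * EI G θ D (fun η => fprod D (fld K (tim i.2 (u i)) (Sum.elim u x)) η * sp η i.1) := by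
    unfold EI
    rw [Finset.mul_sum]
    refine Finset.sum_congr rfl (fun η _ => ?_)
    rw [L_filter_eq]
    simp only [smdl]
    ring
  have e : Model.pre (eord u) (box K D) i
      = (box K D).filter (fun j => tim j.2 (u j) < tim i.2 (u i)) := by
    ext j
    simp only [Model.pre, Finset.mem_filter, eord]
    exact ⟨fun h => Finset.mem_filter.1 h, fun h => Finset.mem_filter.2 h⟩
  rw [e]
  simp only [Model.mean, h1, den_filter_eq, Xw, mf, Zw, mul_div_assoc]

/-- the sampler: clocks are kept, sampling variables become observations -/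
def Smp (G : SimpleGraph V) (θ : ℝ) (K : ℕ) (D : Finset V) (ω : Om V) : Om V :=
  Sum.elim (uP ω) ((smdl G θ D (uP ω)).sol (eord (uP ω)) (box K D) (xP ω))

/-- posterior mean of the sampled process at time `t` -/
def mT (G : SimpleGraph V) (θ : ℝ) (K : ℕ) (D : Finset V) (t : ℝ) (v : V) (ω : Om V) : ℝ :=
  Xw G θ K t D v (Smp G θ K D ω)

lemma Smp_inl (D : Finset V) (ω : Om V) (i : V × ℕ) :
    Smp G θ K D ω (Sum.inl i) = ω (Sum.inl i) := rfl

lemma tau_Smp (D : Finset V) (ω : Om V) (i : V × ℕ) : tau (Smp G θ K D ω) i = tau ω i := rfl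

/-- the fixed-point equation -/
lemma Smp_fixed (D : Finset V) (ω : Om V) {i : V × ℕ} (hi : i ∈ box K D) :
    Smp G θ K D ω (Sum.inr i)
      = Qv (eps * (str (tau ω i) * mT G θ K D (tau ω i) i.1 ω)) (ω (Sum.inr i)) := by
  have h := Model.sol_fixed (M := smdl G θ D (uP ω)) (eord_irrefl (uP ω)) (eord_trans (uP ω))
    (box K D) (xP ω) i hi
  show (smdl G θ D (uP ω)).sol (eord (uP ω)) (box K D) (xP ω) i = _
  rw [h]
  simp only [Model.step, if_pos hi, mean_pre_eq]
  rfl

lemma Smp_mem (D : Finset V) (ω : Om V) {i : V × ℕ} (hi : i ∈ box K D) :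
    Smp G θ K D ω (Sum.inr i) ∈ Icc (0:ℝ) 1 := by
  rw [Smp_fixed D ω hi]; exact Qv_mem _ _

section image

variable (g : G ≃g G)

lemma wgt_image' (D η : Finset V) : wgt G θ (D.image g) (η.image g) = wgt G θ D η := by
  have h1 : (D.image g).sym2.filter (fun e => e ∈ G.edgeSet)
      = (D.sym2.filter (fun e => e ∈ G.edgeSet)).image (Sym2.map g) := by
    rw [Finset.sym2_image, Finset.filter_image]
    congr 1
    refine Finset.filter_congr (fun e _ => ?_)
    induction e using Sym2.ind with
    | _ a b => simp [Sym2.map_mk, g.map_adj_iff]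
  unfold wgt isingCylinder
  rw [h1, Finset.prod_image (fun a _ b _ h => Sym2.map.injective g.injective h)]
  congr 1
  refine Finset.prod_congr rfl (fun e _ => ?_)
  induction e using Sym2.ind with
  | _ a b => simp [Sym2.map_mk, edgeFactor_mk, g.injective.eq_iff]

lemma EI_image (D : Finset V) (F : Finset V → ℝ) :
    EI G θ (D.image g) F = EI G θ D (fun η => F (η.image g)) := by
  unfold EI
  rw [Finset.powerset_image, Finset.sum_image (Finset.image_injective g.injective).injOn]
  exact Finset.sum_congr rfl (fun η _ => by rw [wgt_image' g])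

/-- transport of the field functionals along an automorphism -/
lemma field_image (D : Finset V) {h h' : V → Bool → ℝ} (hh : ∀ v ∈ D, h' (g v) = h v) :
    Zf G θ (D.image g) h' = Zf G θ D h ∧
    (∀ v, mf G θ (D.image g) h' (g v) = mf G θ D h v) ∧
    (∀ v w, gf G θ (D.image g) h' (g v) (g w) = gf G θ D h v w) := by
  have hp : ∀ η, fprod (D.image g) h' (η.image g) = fprod D h η := by
    intro η
    unfold fprod
    rw [Finset.prod_image g.injective.injOn]
    refine Finset.prod_congr rfl (fun v hv => ?_)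
    rw [hh v hv]
    simp [g.injective.eq_iff]
  have hsp : ∀ η v, sp (η.image g) (g v) = sp η v := fun η v => by
    simp [sp, g.injective.eq_iff]
  have hZ : Zf G θ (D.image g) h' = Zf G θ D h := by
    unfold Zf
    rw [EI_image g]
    exact EI_congr D (fun η _ => hp η)
  refine ⟨hZ, fun v => ?_, fun v w => ?_⟩
  · unfold mf
    rw [EI_image g, hZ]
    congr 1
    exact EI_congr D (fun η _ => by rw [hp, hsp])
  · unfold gf
    rw [EI_image g, hZ]
    congr 1
    exact EI_congr D (fun η _ => by rw [hp, hsp, hsp])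

/-- inputs compared through `g` agree on everything revealed before `t` -/
def AgreeUpTo (K : ℕ) (t : ℝ) (D : Finset V) (ω ω' : Om V) : Prop :=
  ∀ i ∈ box K D, (t ≤ tau ω i ∧ t ≤ tau ω' (g i.1, i.2)) ∨
    (ω' (Sum.inl (g i.1, i.2)) = ω (Sum.inl i) ∧ ω' (Sum.inr (g i.1, i.2)) = ω (Sum.inr i))

lemma fld_transport {t : ℝ} {D : Finset V} {ξ ξ' : Om V}
    (h : ∀ i ∈ box K D, (t ≤ tau ξ i ∧ t ≤ tau ξ' (g i.1, i.2)) ∨
      (tau ξ' (g i.1, i.2) = tau ξ i ∧ ξ' (Sum.inr (g i.1, i.2)) = ξ (Sum.inr i)))
    {v : V} (hv : v ∈ D) : fld K t ξ' (g v) = fld K t ξ v := by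
  funext b
  refine Finset.prod_congr rfl (fun k hk => ?_)
  rcases h (v, k) (mem_box.2 ⟨hv, Finset.mem_range.1 hk⟩) with ⟨a, a'⟩ | ⟨a, a'⟩
  · simp only [fac, if_neg (not_lt.2 a), if_neg (not_lt.2 a')]
  · simp only [fac, a, a']

/-- the sampler commutes with automorphisms and only looks into the past -/
lemma Smp_transport {D : Finset V} {ω ω' : Om V} :
    ∀ t : ℝ, AgreeUpTo g K t D ω ω' → ∀ i ∈ box K D, tau ω i < t →
      Smp G θ K (D.image g) ω' (Sum.inr (g i.1, i.2)) = Smp G θ K D ω (Sum.inr i) := by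
  intro t hA
  suffices key : ∀ (n : ℕ) (i : V × ℕ), i ∈ box K D → tau ω i < t →
      ((box K D).filter (fun j => tau ω j < tau ω i)).card = n →
      Smp G θ K (D.image g) ω' (Sum.inr (g i.1, i.2)) = Smp G θ K D ω (Sum.inr i) from
    fun i hi ht => key _ i hi ht rfl
  intro n
  induction n using Nat.strong_induction_on with
  | _ n ih =>
    intro i hi ht hn
    obtain ⟨e1, e2⟩ := (hA i hi).resolve_left (fun c => absurd c.1 (not_le.2 ht))
    have hi' : (g i.1, i.2) ∈ box K (D.image g) := by
      rw [mem_box] at hi ⊢; exact ⟨Finset.mem_image_of_mem g hi.1, hi.2⟩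
    have eτ : tau ω' (g i.1, i.2) = tau ω i := congrArg (tim i.2) e1
    rw [Smp_fixed (D.image g) ω' hi', Smp_fixed D ω hi, e2, eτ]
    refine congrArg (fun z => Qv z (ω (Sum.inr i))) (congrArg (fun z => eps * (str (tau ω i) * z)) ?_)
    have hf : ∀ v ∈ D, fld K (tau ω i) (Smp G θ K (D.image g) ω') (g v)
        = fld K (tau ω i) (Smp G θ K D ω) v := fun v hv => by
      refine fld_transport g (fun j hj => ?_) hv
      simp only [tau_Smp]
      rcases hA j hj with ⟨a, a'⟩ | ⟨a, a'⟩
      · exact Or.inl ⟨ht.le.trans a, ht.le.trans a'⟩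
      · have eτj : tau ω' (g j.1, j.2) = tau ω j := congrArg (tim j.2) a
        rcases le_or_gt (tau ω i) (tau ω j) with c | c
        · exact Or.inl ⟨c, eτj ▸ c⟩
        · refine Or.inr ⟨eτj, ih _ ?_ j hj (c.trans ht) rfl⟩
          rw [← hn]
          refine Finset.card_lt_card ((Finset.ssubset_iff_of_subset ?_).2 ⟨j, ?_, ?_⟩)
          · intro k hk
            rw [Finset.mem_filter] at hk ⊢
            exact ⟨hk.1, hk.2.trans c⟩
          · exact Finset.mem_filter.2 ⟨hj, c⟩
          · simp
    exact (field_image (θ := θ) g D hf).2.1 i.1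

lemma Smp_fld_transport {D : Finset V} {ω ω' : Om V} {t : ℝ} (hA : AgreeUpTo g K t D ω ω') :
    ∀ v ∈ D, fld K t (Smp G θ K (D.image g) ω') (g v) = fld K t (Smp G θ K D ω) v := by
  intro v hv
  refine fld_transport g (fun i hi => ?_) hv
  simp only [tau_Smp]
  rcases hA i hi with h | ⟨a, a'⟩
  · exact Or.inl h
  · have eτ : tau ω' (g i.1, i.2) = tau ω i := congrArg (tim i.2) a
    rcases le_or_gt t (tau ω i) with c | c
    · exact Or.inl ⟨c, eτ ▸ c⟩
    · exact Or.inr ⟨eτ, Smp_transport g t hA i hi c⟩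

end image

/-- the sampled process up to time `t` only looks at what is revealed before `t` -/
lemma Smp_congr {D : Finset V} {ω ω' : Om V} {t : ℝ}
    (h : ∀ i ∈ box K D, (t ≤ tau ω i ∧ t ≤ tau ω' i) ∨
      (ω' (Sum.inl i) = ω (Sum.inl i) ∧ ω' (Sum.inr i) = ω (Sum.inr i))) :
    (∀ i ∈ box K D, tau ω i < t → Smp G θ K D ω' (Sum.inr i) = Smp G θ K D ω (Sum.inr i)) ∧
    ∀ v ∈ D, fld K t (Smp G θ K D ω') v = fld K t (Smp G θ K D ω) v := by
  have e : D.image (RelIso.refl G.Adj : G ≃g G) = D := by ext x; simp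
  refine ⟨fun i hi ht => ?_, fun v hv => ?_⟩
  · have := Smp_transport (G := G) (θ := θ) (RelIso.refl G.Adj : G ≃g G) t (D := D) (ω := ω) (ω' := ω') h i hi ht
    rw [e] at this
    exact this
  · have := Smp_fld_transport (G := G) (θ := θ) (RelIso.refl G.Adj : G ≃g G) (D := D) (ω := ω) (ω' := ω') (t := t) h v hv
    rw [e] at this
    exact this

lemma fld_horizon {K K' : ℕ} (h : K ≤ K') {t : ℝ} (ht : t ≤ K) (ω : Om V) (v : V) :
    fld K' t ω v = fld K t ω v := by
  funext b
  unfold fld
  refine (Finset.prod_subset (Finset.range_subset_range.2 h) (fun k _ hk => ?_)).symm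
  simp only [fac]
  refine if_neg (not_lt.2 (ht.trans ?_))
  refine le_trans ?_ (le_tim k (ω (Sum.inl (v, k))))
  exact_mod_cast not_lt.1 (fun c => hk (Finset.mem_range.2 c))

lemma fprod_congr_field (D : Finset V) {h h' : V → Bool → ℝ} (hh : ∀ v ∈ D, h' v = h v) :
    Zf G θ D h' = Zf G θ D h ∧ (∀ v, mf G θ D h' v = mf G θ D h v) := by
  have hp : fprod D h' = fprod D h :=
    funext (fun η => Finset.prod_congr rfl (fun v hv => by rw [hh v hv]))
  constructor
  · unfold Zf; rw [hp]
  · intro v; unfold mf Zf; rw [hp]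

/-- enlarging the horizon does not change the past -/
lemma Smp_horizon {K K' : ℕ} (hK : K ≤ K') (D : Finset V) (ω : Om V) :
    ∀ i ∈ box K D, tau ω i ≤ K →
      Smp G θ K' D ω (Sum.inr i) = Smp G θ K D ω (Sum.inr i) := by
  suffices key : ∀ (n : ℕ) (i : V × ℕ), i ∈ box K D → tau ω i ≤ K →
      ((box K D).filter (fun j => tau ω j < tau ω i)).card = n →
      Smp G θ K' D ω (Sum.inr i) = Smp G θ K D ω (Sum.inr i) from fun i hi ht => key _ i hi ht rfl
  intro n
  induction n using Nat.strong_induction_on with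
  | _ n ih =>
    intro i hi ht hn
    have hi' : i ∈ box K' D := by
      rw [mem_box] at hi ⊢; exact ⟨hi.1, lt_of_lt_of_le hi.2 hK⟩
    rw [Smp_fixed D ω hi', Smp_fixed D ω hi]
    refine congrArg (fun z => Qv z (ω (Sum.inr i))) (congrArg (fun z => eps * (str (tau ω i) * z)) ?_)
    unfold mT Xw
    refine (fprod_congr_field (θ := θ) D (fun v hv => ?_)).2 i.1
    rw [fld_horizon hK ht]
    funext b
    refine Finset.prod_congr rfl (fun k hk => ?_)
    simp only [fac, tau_Smp]
    by_cases c : tau ω (v, k) < tau ω i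
    · have hj : (v, k) ∈ box K D := mem_box.2 ⟨hv, Finset.mem_range.1 hk⟩
      simp only [c, if_true]
      rw [ih _ ?_ (v, k) hj (c.le.trans ht) rfl]
      rw [← hn]
      refine Finset.card_lt_card ((Finset.ssubset_iff_of_subset ?_).2 ⟨(v, k), ?_, ?_⟩)
      · intro j hj'
        rw [Finset.mem_filter] at hj' ⊢
        exact ⟨hj'.1, hj'.2.trans c⟩
      · exact Finset.mem_filter.2 ⟨hj, c⟩
      · simp
    · simp only [c, if_false]

section measure

lemma measurable_uP : Measurable (uP : Om V → V × ℕ → ℝ) :=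
  measurable_pi_lambda _ (fun _ => measurable_pi_apply _)

lemma measurable_xP : Measurable (xP : Om V → V × ℕ → ℝ) :=
  measurable_pi_lambda _ (fun _ => measurable_pi_apply _)

lemma measurable_Xw₂ (D : Finset V) (v : V) :
    Measurable (fun p : ℝ × Om V => Xw G θ K p.1 D v p.2) := by
  have hf : ∀ η, Measurable (fun p : ℝ × Om V => fprod D (fld K p.1 p.2) η) := fun η =>
    Finset.measurable_prod _ (fun w _ => measurable_fld K w _)
  exact (Finset.measurable_sum _ (fun η _ => measurable_const.mul ((hf η).mul measurable_const))).div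
    (Finset.measurable_sum _ (fun η _ => measurable_const.mul (hf η)))

lemma measurable_Xw_comp {α : Type*} [MeasurableSpace α] (D : Finset V) (v : V) {f : α → ℝ}
    {g : α → Om V} (hf : Measurable f) (hg : Measurable g) :
    Measurable (fun a => Xw G θ K (f a) D v (g a)) := by
  have h := (measurable_Xw₂ (G := G) (θ := θ) (K := K) D v).comp (hf.prodMk hg)
  exact h

lemma measurable_step_comp (D : Finset V) (i : V × ℕ) {X : Om V → (V × ℕ → ℝ)} (hX : Measurable X) :
    Measurable (fun ω : Om V =>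
      (smdl G θ D (uP ω)).step (eord (uP ω)) (box K D) (xP ω) (X ω) i) := by
  by_cases hi : i ∈ box K D
  · have e : (fun ω : Om V => (smdl G θ D (uP ω)).step (eord (uP ω)) (box K D) (xP ω) (X ω) i)
        = fun ω => Qv (eps * (str (tim i.2 (uP ω i))
          * Xw G θ K (tim i.2 (uP ω i)) D i.1 (Sum.elim (uP ω) (X ω)))) (xP ω i) := by
      funext ω
      simp only [Model.step, if_pos hi, mean_pre_eq]
      rfl
    rw [e]
    have ht : Measurable (fun ω : Om V => tim i.2 (uP ω i)) :=
      (measurable_tim i.2).comp (measurable_pi_apply _)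
    have hx : Measurable (fun ω : Om V => (Sum.elim (uP ω) (X ω) : Om V)) := by
      refine measurable_pi_lambda _ (fun c => ?_)
      cases c with
      | inl j => exact measurable_pi_apply (Sum.inl j)
      | inr j => exact (measurable_pi_apply j).comp hX
    have h1 : Measurable (fun ω : Om V =>
        Xw G θ K (tim i.2 (uP ω i)) D i.1 (Sum.elim (uP ω) (X ω))) :=
      measurable_Xw_comp (G := G) (θ := θ) (K := K) D i.1 ht hx
    exact measurable_Qv (measurable_const.mul ((measurable_str.comp ht).mul h1))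
      (measurable_pi_apply (Sum.inr i))
  · simp only [Model.step, if_neg hi]
    exact measurable_const

lemma measurable_Smp (D : Finset V) : Measurable (Smp G θ K D : Om V → Om V) := by
  have h : ∀ n, Measurable (fun ω : Om V =>
      ((smdl G θ D (uP ω)).step (eord (uP ω)) (box K D) (xP ω))^[n] (fun _ => 0)) := by
    intro n
    induction n with
    | zero => simp
    | succ n ih =>
      simp only [iterate_succ', comp_apply]
      exact measurable_pi_lambda _ (fun i => measurable_step_comp D i ih)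
  refine measurable_pi_lambda _ (fun c => ?_)
  cases c with
  | inl j => exact measurable_pi_apply (Sum.inl j)
  | inr j => exact (measurable_pi_apply j).comp (h (box K D).card)

lemma measurable_mT (D : Finset V) (v : V) :
    Measurable (fun p : ℝ × Om V => mT G θ K D p.1 v p.2) :=
  measurable_Xw_comp D v measurable_fst ((measurable_Smp D).comp measurable_snd)

lemma bm_mT (hθ0 : 0 ≤ θ) (hθ1 : θ < 1) (D : Finset V) (t : ℝ) (v : V) :
    BM (mT G θ K D t v) :=
  (bm_Xw hθ0 hθ1 D v).comp (measurable_Smp D)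

lemma ae_Distinct [Countable V] : ∀ᵐ ω ∂PU ((V × ℕ) ⊕ (V × ℕ)), Distinct ω := by
  have key : ∀ i j : V × ℕ, i ≠ j → ∀ᵐ ω ∂PU ((V × ℕ) ⊕ (V × ℕ)), tau ω i ≠ tau ω j := by
    intro i j hij
    set S := {ω : Om V | tau ω i = tau ω j} with hSdef
    have hS : MeasurableSet S := measurableSet_eq_fun (measurable_tau i) (measurable_tau j)
    have hind : BM (S.indicator (fun _ => (1:ℝ))) :=
      ⟨measurable_const.indicator hS, 1, fun ω => by by_cases h : ω ∈ S <;> simp [h]⟩
    have h0 : ∫ ω, S.indicator (fun _ => (1:ℝ)) ω ∂PU ((V × ℕ) ⊕ (V × ℕ)) = 0 := by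
      rw [integral_upd' (Sum.inl i) hind]
      refine integral_eq_zero_of_ae (ae_of_all _ (fun ω => ?_))
      refine integral_eq_zero_of_ae ?_
      set c := tau ω j - (i.2 : ℝ)
      have h1 : ∀ᵐ y ∂lam, y ≠ 1 ∧ y ≠ c / (1 + c) := by
        have : NullSingletonClass lam := by unfold lam; infer_instance
        filter_upwards [Countable.ae_notMem (s := ({1, c / (1 + c)} : Set ℝ))
          (Set.toFinite _).countable lam] with y hy
        simpa [not_or] using hy
      filter_upwards [ae_mem_lam, h1] with y hy hne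
      refine Set.indicator_of_notMem ?_ _
      intro hc
      have e1 : tau (upd ω (Sum.inl i) y) j = tau ω j :=
        congrArg (tim j.2) (upd_ne (by simpa using Ne.symm hij) _ _)
      have e2 : tau (upd ω (Sum.inl i) y) i = tim i.2 y := congrArg (tim i.2) (upd_self _ _ _)
      have hc' : tim i.2 y = tau ω j := by rw [← e2, ← e1]; exact hc
      have hy1 : 0 < 1 - y := by linarith [lt_of_le_of_ne hy.2 hne.1]
      have hcy : c = y / (1 - y) := by
        simp only [c, ← hc', tim, cl_of_mem hy]; ring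
      refine hne.2 ?_
      rw [hcy, one_add_div hy1.ne']
      field_simp
      ring
    have h2 : (PU ((V × ℕ) ⊕ (V × ℕ))) S = 0 := by
      rw [integral_indicator_const _ hS, smul_eq_mul, mul_one] at h0
      exact (measureReal_eq_zero_iff).1 h0
    filter_upwards [measure_eq_zero_iff_ae_notMem.1 h2] with ω hω h using hω h
  have : ∀ᵐ ω ∂PU ((V × ℕ) ⊕ (V × ℕ)), ∀ i j : V × ℕ, i ≠ j → tau ω i ≠ tau ω j := by
    rw [ae_all_iff]; intro i; rw [ae_all_iff]; intro j
    by_cases h : i = j
    · exact ae_of_all _ (fun ω c => absurd h c)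
    · exact (key i j h).mono (fun ω hω _ => hω)
  filter_upwards [this] with ω hω i j h
  by_contra c
  exact hω i j c h

end measure

/-- the law of the sampled process at time `t` -/
lemma law_Smp [Countable V] (hT : G.IsTree) (hθ0 : 0 ≤ θ) (hθ1 : θ < 1) {D : Finset V}
    (hD : Geo G D) (hne : D.Nonempty) {t : ℝ} {φ : Om V → ℝ} (hφ : BM φ)
    (hd : ∀ ω ω', (∀ i, ω (Sum.inl i) = ω' (Sum.inl i)) →
      (∀ i ∈ box K D, tau ω i < t → ω (Sum.inr i) = ω' (Sum.inr i)) → φ ω = φ ω') :
    ∫ ω, φ (Smp G θ K D ω) ∂PU _ = ∫ ω, φ ω * Zw G θ K t D ω ∂PU _ := by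
  have hm : Measurable (fun p : (V × ℕ → ℝ) × (V × ℕ → ℝ) => (Sum.elim p.1 p.2 : Om V)) := by
    refine measurable_pi_lambda _ (fun c => ?_)
    cases c with
    | inl a => exact (measurable_pi_apply a).comp measurable_fst
    | inr b => exact (measurable_pi_apply b).comp measurable_snd
  have hmap : ((PU (V × ℕ)).prod (PU (V × ℕ))).map (fun p => (Sum.elim p.1 p.2 : Om V))
      = PU _ := by
    rw [← map_split, Measure.map_map hm (by fun_prop)]
    have : ((fun p : (V × ℕ → ℝ) × (V × ℕ → ℝ) => (Sum.elim p.1 p.2 : Om V))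
        ∘ fun x : Om V => ((fun a => x (Sum.inl a)), fun b => x (Sum.inr b))) = id := by
      funext x c; cases c <;> rfl
    rw [this, Measure.map_id]
  have hS : BM (fun ω => φ (Smp G θ K D ω)) := hφ.comp (measurable_Smp D)
  have hW : BM (fun ω => φ ω * Zw G θ K t D ω) := hφ.mul (bm_Zw D)
  have hsplit : ∀ f : Om V → ℝ, BM f → ∫ ω, f ω ∂PU _
      = ∫ u, (∫ x, f (Sum.elim u x) ∂PU (V × ℕ)) ∂PU (V × ℕ) := by
    intro f hf
    conv_lhs => rw [← hmap]
    rw [integral_map hm.aemeasurable hf.1.aestronglyMeasurable,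
      integral_prod _ ((hf.comp hm).integrable _)]
  rw [hsplit _ hS, hsplit _ hW]
  have hinj : ∀ᵐ u ∂PU (V × ℕ), Injective (fun i : V × ℕ => tim i.2 (u i)) := by
    have hfst : Measurable (fun x : Om V => (fun a => x (Sum.inl a))) := by fun_prop
    have h0 : (PU ((V × ℕ) ⊕ (V × ℕ))).map (fun x : Om V => fun a => x (Sum.inl a)) = PU (V × ℕ) := by
      have := congrArg (Measure.map Prod.fst) (map_split (α := V × ℕ) (β := V × ℕ))
      rwa [Measure.map_map measurable_fst (by fun_prop), Measure.map_fst_prod, measure_univ,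
        one_smul] at this
    rw [← h0]
    refine (ae_map_iff hfst.aemeasurable ?_).2 (ae_Distinct (V := V))
    have : {u : V × ℕ → ℝ | Injective (fun i => tim i.2 (u i))}
        = ⋂ i : V × ℕ, ⋂ j : V × ℕ, {u | tim i.2 (u i) = tim j.2 (u j) → i = j} := by
      ext u; simp [Injective]
    rw [this]
    refine MeasurableSet.iInter (fun i => MeasurableSet.iInter (fun j => ?_))
    by_cases hij : i = j
    · simp [hij]
    · simp only [hij, imp_false]
      exact (measurableSet_eq_fun ((measurable_tim i.2).comp (measurable_pi_apply i))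
        ((measurable_tim j.2).comp (measurable_pi_apply j))).compl
  refine integral_congr_ae (hinj.mono (fun u hu => ?_))
  set s := (box K D).filter (fun i => tim i.2 (u i) < t) with hs
  have hgood := smdl_good hT hθ0 hθ1 hD hne u
  have hux : Measurable (fun x : V × ℕ → ℝ => (Sum.elim u x : Om V)) :=
    hm.comp measurable_prodMk_left
  have hψ : BM (fun x => φ (Sum.elim u x)) := hφ.comp hux
  have hψd : Dep (s : Set (V × ℕ)) (fun x => φ (Sum.elim u x)) := by
    intro x x' h
    refine hd _ _ (fun i => rfl) (fun i hi ht => ?_)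
    exact h i (Finset.mem_coe.2 (Finset.mem_filter.2 ⟨hi, ht⟩))
  have htot : ∀ a ∈ s, ∀ b ∈ s, a ≠ b → eord u a b ∨ eord u b a := by
    intro a _ b _ hab
    exact lt_or_gt_of_ne (fun c => hab (hu c))
  have hlaw := Model.law_sol (eord_irrefl u) (eord_trans u) hgood s.card s rfl htot _ hψ hψd
  simp only [hs, den_filter_eq] at hlaw
  refine Eq.trans ?_ hlaw
  refine integral_congr_ae (ae_of_all _ (fun x => ?_))
  refine hd _ _ (fun i => rfl) (fun i hi ht => ?_)
  have hdc := Model.sol_downclosed (M := smdl G θ D u) (eord_irrefl u) (eord_trans u)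
    (Finset.filter_subset (fun i => tim i.2 (u i) < t) (box K D))
    (fun j hj k hk hjk => Finset.mem_filter.2 ⟨hj, lt_trans hjk (Finset.mem_filter.1 hk).2⟩) x i
    (Finset.mem_filter.2 ⟨hi, ht⟩)
  exact hdc.symm

end Vale.Agent.P161.Crit
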