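import Mathlib
import Vale.Agent.P161.Crit.Sampler
import Vale.Agent.P161.Correlation

/-!
Automorphisms acting on the inputs, decoding from uniform labels, and limits along volumes.
-/

open MeasureTheory Set Function Filter
open scoped Classical Topology

noncomputable section

namespace Vale.Agent.P161.Crit

variable {V : Type*} {G : SimpleGraph V} {θ : ℝ} {K : ℕ}

/-- coordinates moved by an automorphism -/
def coordEquiv (g : G ≃g G) : (V × ℕ) ⊕ (V × ℕ) ≃ (V × ℕ) ⊕ (V × ℕ) :=
  Equiv.sumCongr (Equiv.prodCongr g.toEquiv (Equiv.refl ℕ)) (Equiv.prodCongr g.toEquiv (Equiv.refl ℕ))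

/-- the action of an automorphism on the inputs -/
def actO (g : G ≃g G) (ω : Om V) : Om V := fun c => ω ((coordEquiv g).symm c)

lemma actO_inl (g : G ≃g G) (ω : Om V) (i : V × ℕ) :
    actO g ω (Sum.inl (g i.1, i.2)) = ω (Sum.inl i) := by
  show ω (Sum.inl (g.toEquiv.symm (g.toEquiv i.1), i.2)) = ω (Sum.inl i)
  rw [Equiv.symm_apply_apply]

lemma actO_inr (g : G ≃g G) (ω : Om V) (i : V × ℕ) :
    actO g ω (Sum.inr (g i.1, i.2)) = ω (Sum.inr i) := by
  show ω (Sum.inr (g.toEquiv.symm (g.toEquiv i.1), i.2)) = ω (Sum.inr i)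
  rw [Equiv.symm_apply_apply]

lemma tau_actO (g : G ≃g G) (ω : Om V) (i : V × ℕ) :
    tau (actO g ω) (g i.1, i.2) = tau ω i := congrArg (tim i.2) (actO_inl g ω i)

lemma mp_actO (g : G ≃g G) : MeasurePreserving (actO g) (PU ((V × ℕ) ⊕ (V × ℕ))) (PU _) :=
  ⟨measurable_pi_lambda _ (fun _ => measurable_pi_apply _), map_comp_equiv (coordEquiv g).symm⟩

lemma integral_actO (g : G ≃g G) {F : Om V → ℝ} (hF : Measurable F) :
    ∫ ω, F (actO g ω) ∂PU _ = ∫ ω, F ω ∂PU _ := by
  conv_rhs => rw [← (mp_actO g).map_eq]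
  exact (integral_map (mp_actO g).measurable.aemeasurable hF.aestronglyMeasurable).symm

lemma agree_actO (g : G ≃g G) (D : Finset V) (ω : Om V) (t : ℝ) :
    AgreeUpTo g K t D ω (actO g ω) := fun i _ => Or.inr ⟨actO_inl g ω i, actO_inr g ω i⟩

lemma Smp_act (g : G ≃g G) (D : Finset V) (ω : Om V) {i : V × ℕ} (hi : i ∈ box K D) :
    Smp G θ K (D.image g) (actO g ω) (Sum.inr (g i.1, i.2)) = Smp G θ K D ω (Sum.inr i) :=
  Smp_transport g (tau ω i + 1) (agree_actO g D ω _) i hi (by linarith)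

lemma mT_act (g : G ≃g G) (D : Finset V) (ω : Om V) (t : ℝ) (v : V) :
    mT G θ K (D.image g) t (g v) (actO g ω) = mT G θ K D t v ω :=
  (field_image (θ := θ) g D (Smp_fld_transport g (agree_actO g D ω t))).2.1 v

/-- coordinates of the labels -/
def srcO (V : Type*) : (V × ℕ) ⊕ (V × ℕ) ≃ V × (ℕ ⊕ ℕ) where
  toFun := Sum.elim (fun i => (i.1, Sum.inl i.2)) (fun i => (i.1, Sum.inr i.2))
  invFun := fun p => Sum.elim (fun k => Sum.inl (p.1, k)) (fun k => Sum.inr (p.1, k)) p.2
  left_inv := by rintro (i | i) <;> rfl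
  right_inv := by rintro ⟨v, k | k⟩ <;> rfl

/-- all inputs can be read off from one uniform label per vertex, equivariantly -/
lemma exists_decodeO (G : SimpleGraph V) : ∃ Θ : (V → unitInterval) → Om V,
    MeasurePreserving Θ (iidUniform V) (PU _) ∧
    ∀ (g : G ≃g G) (U : V → unitInterval), Θ (fun x => U (g.symm x)) = actO g (Θ U) := by
  obtain ⟨h, hh, hmap⟩ := (PU (ℕ ⊕ ℕ)).exists_measurable_map_eq
  set Θ : (V → unitInterval) → Om V := fun U c => h (U (srcO V c).1) (srcO V c).2 with hΘ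
  have m1 : Measurable (fun U : V → unitInterval => fun v => h (U v)) :=
    measurable_pi_lambda _ (fun v => hh.comp (measurable_pi_apply v))
  have h1 : (iidUniform V).map (fun U v => h (U v))
      = Measure.infinitePi (fun _ : V => PU (ℕ ⊕ ℕ)) := by
    unfold iidUniform
    rw [Measure.infinitePi_map_pi _ (fun _ => hh), hmap]
  have h2 : (Measure.infinitePi (fun _ : V => PU (ℕ ⊕ ℕ))).map
      (MeasurableEquiv.curry V (ℕ ⊕ ℕ) ℝ).symm = PU (V × (ℕ ⊕ ℕ)) :=
    Measure.infinitePi_map_curry_symm (fun _ _ => lam)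
  have h3 := map_comp_equiv (srcO V)
  have m3 : Measurable (fun (x : V × (ℕ ⊕ ℕ) → ℝ) a => x (srcO V a)) :=
    measurable_pi_lambda _ (fun a => measurable_pi_apply _)
  refine ⟨Θ, ⟨measurable_pi_lambda _ (fun c =>
    ((measurable_pi_apply _).comp hh).comp (measurable_pi_apply _)), ?_⟩, fun g U => ?_⟩
  · rw [← h3, ← h2, ← h1, Measure.map_map (MeasurableEquiv.measurable _) m1,
      Measure.map_map m3 ((MeasurableEquiv.measurable _).comp m1)]
    rfl
  · funext c
    cases c with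
    | inl i => rfl
    | inr i => rfl

/-- finite convex volumes containing any prescribed finite set -/
def vol (G : SimpleGraph V) : Filter (Finset V) := atTop ⊓ 𝓟 {D | Geo G D}

lemma eventually_vol {p : Finset V → Prop} {E : Finset V}
    (h : ∀ D, Geo G D → E ⊆ D → p D) : ∀ᶠ D in vol G, p D :=
  eventually_inf_principal.2 ((eventually_ge_atTop E).mono (fun D hD hg => h D hg hD))

lemma vol_iff [Nonempty V] {p : Finset V → Prop} :
    (∀ᶠ D in vol G, p D) ↔ ∃ E : Finset V, ∀ D, Geo G D → E ⊆ D → p D := by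
  refine ⟨fun h => ?_, fun ⟨E, hE⟩ => eventually_vol hE⟩
  obtain ⟨E, hE⟩ := eventually_atTop.1 (eventually_inf_principal.1 h)
  exact ⟨E, fun D hg hD => hE D hD hg⟩

lemma vol_neBot (hT : G.IsTree) {q : ℕ} (hd : ∀ v, (G.neighborSet v).ncard = q + 1) :
    (vol G).NeBot := by
  rw [vol, inf_principal_neBot_iff]
  intro S hS
  obtain ⟨E, hE⟩ := mem_atTop_sets.1 hS
  obtain ⟨o⟩ := hT.connected.nonempty
  obtain ⟨N, hN⟩ := exists_ball_superset hT (nb_finite hd) o E
  exact ⟨ball G (nb_finite hd) o N, hE _ (hN N le_rfl), geo_ball hT _ o N⟩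

lemma geo_image' (hT : G.IsTree) (g : G ≃g G) {D : Finset V} (hD : Geo G D) :
    Geo G (D.image g) := by
  intro x hx u hu y ha hy
  obtain ⟨x', hx', rfl⟩ := Finset.mem_image.1 hx
  obtain ⟨u', hu', rfl⟩ := Finset.mem_image.1 hu
  have ha' : G.Adj x' (g.symm y) := by
    have := (g.symm.map_adj_iff).2 ha
    simpa using this
  refine Finset.mem_image.2 ⟨g.symm y, hD x' hx' u' hu' _ ha' ?_, by simp⟩
  rw [← aut_dist hT g (g.symm y) u', ← aut_dist hT g x' u']
  simpa using hy

lemma tendsto_vol_image (hT : G.IsTree) (g : G ≃g G) :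
    Tendsto (fun D : Finset V => D.image g) (vol G) (vol G) := by
  refine tendsto_inf.2 ⟨?_, tendsto_principal.2 ?_⟩
  · rw [tendsto_atTop]
    intro E
    refine eventually_vol (E := E.image g.symm) (fun D _ hD x hx => ?_)
    exact Finset.mem_image.2 ⟨g.symm x, hD (Finset.mem_image_of_mem _ hx), by simp⟩
  · exact eventually_vol (E := ∅) (fun D hD _ => geo_image' hT g hD)

/-- limits in `L¹` of uniformly bounded Cauchy families -/
lemma exists_L1_limit {α ι : Type*} [MeasurableSpace α] (μ : Measure α) [IsProbabilityMeasure μ]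
    {l : Filter ι} [l.NeBot] {F : ι → α → ℝ} (hm : ∀ D, Measurable (F D)) {C : ℝ}
    (hC : ∀ D x, |F D x| ≤ C)
    (hc : ∀ δ > 0, ∃ S ∈ l, ∀ D ∈ S, ∀ M ∈ S, ∫ x, |F D x - F M x| ∂μ ≤ δ) :
    ∃ Y : α → ℝ, Measurable Y ∧ (∀ x, |Y x| ≤ C) ∧
      Tendsto (fun D => ∫ x, |F D x - Y x| ∂μ) l (𝓝 0) := by
  obtain ⟨D0⟩ : Nonempty ι := nonempty_of_neBot l
  have hC0 : ∀ x, 0 ≤ C := fun x => (abs_nonneg _).trans (hC D0 x)
  choose S hS hS' using fun j : ℕ => hc ((1/2 : ℝ) ^ j) (by positivity)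
  set S' : ℕ → Set ι := fun j => ⋂ i ∈ Finset.range (j + 1), S i with hS'def
  have hSl : ∀ j, S' j ∈ l := fun j => (biInter_finset_mem _).2 (fun i _ => hS i)
  choose D hD using fun j => Filter.nonempty_of_mem (hSl j)
  have hDS : ∀ i j, i ≤ j → D j ∈ S i := fun i j hij => by
    have := hD j
    simp only [hS'def, mem_iInter] at this
    exact this i (Finset.mem_range.2 (Nat.lt_succ_of_le hij))
  have hb : ∀ D, BM (F D) := fun D => ⟨hm D, C, hC D⟩
  have hae : ∀ᵐ x ∂μ, ∃ c, Tendsto (fun j => F (D j) x) atTop (𝓝 c) := by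
    filter_upwards [ae_summable_of_summable_integral μ (f := fun j x => |F (D j) x - F (D (j + 1)) x|)
      (fun j => ((hb _).sub (hb _)).abs) (fun j x => abs_nonneg _)
      (summable_geometric_of_lt_one (show (0:ℝ) ≤ 1/2 by norm_num) (by norm_num))
      (fun j => hS' j _ (hDS j j le_rfl) _ (hDS j (j + 1) (Nat.le_succ j)))] with x hx
    refine cauchySeq_tendsto_of_complete (cauchySeq_of_summable_dist ?_)
    simpa only [Real.dist_eq] using hx
  set Y : α → ℝ := fun x => max (-C) (min C (limsup (fun j => F (D j) x) atTop)) with hY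
  have hYm : Measurable Y :=
    measurable_const.max (measurable_const.min (Measurable.limsup (fun j => hm (D j))))
  have hYC : ∀ x, |Y x| ≤ C := fun x => abs_le.2
    ⟨le_max_left _ _, max_le (by linarith [hC0 x]) (min_le_left _ _)⟩
  refine ⟨Y, hYm, hYC, Metric.tendsto_nhds.2 (fun δ hδ => ?_)⟩
  obtain ⟨j, hj⟩ := exists_pow_lt_of_lt_one hδ (show (1/2 : ℝ) < 1 by norm_num)
  filter_upwards [hS j] with E hE
  rw [Real.dist_eq, sub_zero, abs_of_nonneg (integral_nonneg (fun x => abs_nonneg _))]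
  have hlim : Tendsto (fun i => ∫ x, |F E x - F (D i) x| ∂μ) atTop (𝓝 (∫ x, |F E x - Y x| ∂μ)) := by
    refine tendsto_integral_of_dominated_convergence (fun _ => 2 * C)
      (fun i => ((hb E).sub (hb (D i))).abs.1.aestronglyMeasurable) (integrable_const _)
      (fun i => ae_of_all _ (fun x => ?_)) ?_
    · rw [Real.norm_eq_abs, abs_abs]
      linarith [abs_sub (F E x) (F (D i) x), hC E x, hC (D i) x]
    · filter_upwards [hae] with x hx
      obtain ⟨c, hc⟩ := hx
      have hcC : |c| ≤ C := le_of_tendsto hc.abs (Eventually.of_forall (fun i => hC _ x))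
      have e : Y x = c := by
        simp only [hY, hc.limsup_eq]
        rw [min_eq_right (abs_le.1 hcC).2, max_eq_right (abs_le.1 hcC).1]
      rw [e]
      exact (tendsto_const_nhds.sub hc).abs
  refine lt_of_le_of_lt (le_of_tendsto hlim ?_) hj
  filter_upwards [eventually_ge_atTop j] with i hi
  exact hS' j E hE _ (hDS j i hi)

end Vale.Agent.P161.Crit
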