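import Mathlib
import Vale.Agent.P161.Crit.Cut

/-!
Forward sets of a directed edge in a regular tree.
-/

open Finset
open scoped Classical

noncomputable section

namespace Vale.Agent.P161.Crit

variable {V : Type*} {G : SimpleGraph V}

/-- the neighbours of `y` -/
def nbs (G : SimpleGraph V) (y : V) : Finset V :=
  if h : (G.neighborSet y).Finite then h.toFinset else ∅

/-- the neighbours of `y` other than `x` -/
def chd (G : SimpleGraph V) (x y : V) : Finset V := (nbs G y).erase x

/-- vertices `n` steps forward of the directed edge `x → y` -/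
def fw (G : SimpleGraph V) : ℕ → V → V → Finset V
  | 0, _, y => {y}
  | n + 1, x, y => (chd G x y).biUnion (fun c => fw G n y c)

/-- `D` contains everything within distance `n` of `y` -/
def Rch (G : SimpleGraph V) (y : V) (n : ℕ) (D : Finset V) : Prop :=
  ∀ u, G.dist y u ≤ n → u ∈ D

lemma Rch.mem {y : V} {n : ℕ} {D : Finset V} (h : Rch G y n D) : y ∈ D := h y (by simp)

lemma Rch.mono {y : V} {n m : ℕ} {D : Finset V} (h : Rch G y n D) (hm : m ≤ n) : Rch G y m D :=
  fun u hu => h u (hu.trans hm)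

lemma Rch.step (hT : G.IsTree) {y c : V} {n m : ℕ} {D : Finset V} (h : Rch G y n D)
    (ha : G.Adj y c) (hm : m + 1 ≤ n) : Rch G c m D := by
  intro u hu
  refine h u ?_
  rcases adj_cases hT ha u with e | e <;> omega

lemma Rch.superset {y : V} {n : ℕ} {D M : Finset V} (h : Rch G y n D) (hDM : D ⊆ M) :
    Rch G y n M := fun u hu => hDM (h u hu)

section

variable (hT : G.IsTree) {q : ℕ} (hd : ∀ v, (G.neighborSet v).ncard = q + 1)

include hd

lemma mem_nbs {y c : V} : c ∈ nbs G y ↔ G.Adj y c := by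
  unfold nbs
  rw [dif_pos (nb_finite hd y)]
  simp

lemma mem_chd {x y c : V} : c ∈ chd G x y ↔ G.Adj y c ∧ c ≠ x := by
  rw [chd, Finset.mem_erase, mem_nbs hd]; tauto

lemma card_nbs (y : V) : (nbs G y).card = q + 1 := by
  unfold nbs
  rw [dif_pos (nb_finite hd y), ← Set.ncard_eq_toFinset_card _ (nb_finite hd y), hd]

lemma card_chd {x y : V} (ha : G.Adj x y) : (chd G x y).card = q := by
  rw [chd, Finset.card_erase_of_mem ((mem_nbs hd).2 ha.symm), card_nbs hd]
  omega

lemma exists_chd_ne {x y : V} (ha : G.Adj x y) (hq : 2 ≤ q) (c : V) :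
    ∃ z ∈ chd G x y, z ≠ c := by
  obtain ⟨z, hz, hzc⟩ := Finset.exists_mem_ne (s := chd G x y) (by rw [card_chd hd ha]; omega) c
  exact ⟨z, hz, hzc⟩

include hT

lemma chd_dist {x y c : V} (ha : G.Adj x y) (hc : c ∈ chd G x y) :
    G.dist y c + 1 = G.dist x c ∧ G.dist y x + 1 = G.dist c x := by
  obtain ⟨h1, h2⟩ := (mem_chd hd).1 hc
  have d1 := SimpleGraph.dist_eq_one_iff_adj.2 h1
  have d2 := SimpleGraph.dist_eq_one_iff_adj.2 ha.symm
  constructor
  · rcases adj_cases hT ha c with e | e
    · exact e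
    · have : G.dist x c = 0 := by omega
      exact absurd (hT.connected.dist_eq_zero_iff.1 this).symm h2
  · rcases adj_cases hT h1 x with e | e
    · have : G.dist c x = 0 := by omega
      exact absurd (hT.connected.dist_eq_zero_iff.1 this) h2
    · exact e

lemma side_chd_subset {D : Finset V} {x y c : V} (ha : G.Adj x y) (hc : c ∈ chd G x y) :
    side G D c y ⊆ side G D y x := by
  intro u hu
  have h1 := ((mem_chd hd).1 hc).1
  rw [side_iff hT h1.symm] at hu
  rw [side_iff hT ha.symm]
  refine ⟨hu.1, ?_⟩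
  rcases adj_cases hT ha u with e | e
  · exact e
  · have := toward_unique hT h1 ha.symm hu.2 e
    exact absurd this ((mem_chd hd).1 hc).2

lemma side_side {D : Finset V} {x y c : V} (ha : G.Adj x y) (hc : c ∈ chd G x y) :
    side G (side G D y x) c y = side G D c y := by
  have h1 := ((mem_chd hd).1 hc).1
  ext u
  rw [side_iff hT h1.symm, side_iff hT h1.symm]
  constructor
  · exact fun h => ⟨side_subset _ _ _ h.1, h.2⟩
  · exact fun h => ⟨side_chd_subset hT hd ha hc ((side_iff hT h1.symm).2 h), h.2⟩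

omit hd in
/-- branches at `y` in different directions are disjoint -/
lemma side_other_subset {D : Finset V} {y c c' : V} (h : G.Adj y c) (h' : G.Adj y c') (hne : c ≠ c') :
    side G D c' y ⊆ side G D y c := by
  intro u hu
  rw [side_iff hT h'.symm] at hu
  rw [side_iff hT h]
  refine ⟨hu.1, ?_⟩
  rcases adj_cases hT h u with e | e
  · exact absurd (toward_unique hT h h' e hu.2) hne
  · exact e

lemma fw_dist : ∀ (n : ℕ) (x y : V), G.Adj x y → ∀ u,
    (u ∈ fw G n x y ↔ G.dist y u = n ∧ G.dist x u = n + 1) := by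
  intro n
  induction n with
  | zero =>
    intro x y ha u
    simp only [fw, Finset.mem_singleton]
    constructor
    · rintro rfl; exact ⟨by simp, SimpleGraph.dist_eq_one_iff_adj.2 ha⟩
    · rintro ⟨h, -⟩; exact ((hT.connected.dist_eq_zero_iff).1 h).symm
  | succ n ih =>
    intro x y ha u
    simp only [fw, Finset.mem_biUnion]
    constructor
    · rintro ⟨c, hc, hu⟩
      have h1 := ((mem_chd hd).1 hc).1
      obtain ⟨e1, e2⟩ := (ih y c h1 u).1 hu
      refine ⟨e2, ?_⟩
      have hs : u ∈ side G ({u} : Finset V) c y := (side_iff hT h1.symm).2 ⟨by simp, by omega⟩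
      have := ((side_iff hT ha.symm).1 (side_chd_subset hT hd ha hc hs)).2
      omega
    · rintro ⟨e1, e2⟩
      have hne : y ≠ u := by rintro rfl; simp at e1
      obtain ⟨c, hc, hcu⟩ := exists_toward hT hne
      refine ⟨c, (mem_chd hd).2 ⟨hc, ?_⟩, (ih y c hc u).2 ⟨by omega, e1⟩⟩
      rintro rfl
      omega

lemma fw_pairwise {x y : V} (n : ℕ) :
    ((chd G x y : Finset V) : Set V).PairwiseDisjoint (fun c => fw G n y c) := by
  intro c hc c' hc' hne
  rw [Function.onFun, Finset.disjoint_left]
  intro u hu hu'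
  have h1 := ((mem_chd hd).1 hc).1
  have h2 := ((mem_chd hd).1 hc').1
  obtain ⟨a1, a2⟩ := (fw_dist hT hd n y c h1 u).1 hu
  obtain ⟨b1, b2⟩ := (fw_dist hT hd n y c' h2 u).1 hu'
  exact hne (toward_unique hT h1 h2 (u := u) (by omega) (by omega))

lemma card_fw : ∀ (n : ℕ) (x y : V), G.Adj x y → (fw G n x y).card = q ^ n := by
  intro n
  induction n with
  | zero => intro x y _; simp [fw]
  | succ n ih =>
    intro x y ha
    rw [fw, Finset.card_biUnion (fw_pairwise hT hd n),
      Finset.sum_congr rfl (fun c hc => ih y c ((mem_chd hd).1 hc).1), Finset.sum_const,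
      card_chd hd ha, smul_eq_mul, pow_succ, mul_comm]

/-- the vertices at distance `n + 1` from `o` split according to the first step -/
lemma sphere_eq_fw (o : V) (n : ℕ) (u : V) :
    G.dist o u = n + 1 ↔ ∃ y ∈ nbs G o, u ∈ fw G n o y := by
  constructor
  · intro h
    have hne : o ≠ u := by rintro rfl; simp at h
    obtain ⟨y, hy, hyu⟩ := exists_toward hT hne
    exact ⟨y, (mem_nbs hd).2 hy, (fw_dist hT hd n o y hy u).2 ⟨by omega, h⟩⟩
  · rintro ⟨y, hy, hu⟩
    exact ((fw_dist hT hd n o y ((mem_nbs hd).1 hy) u).1 hu).2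

end

end Vale.Agent.P161.Crit
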