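import Mathlib
import Vale.Agent.P161.Crit.Static
import Vale.Agent.P161.Crit.Forward

/-!
A linear estimator of a spin from the earliest observations in one branch.
-/

open MeasureTheory Set Function
open scoped Classical

noncomputable section

namespace Vale.Agent.P161.Crit

variable {V : Type*} {G : SimpleGraph V} {θ : ℝ} {K : ℕ} {t : ℝ}

/-- information carried by the first observation of a vertex at time `t` -/
def w0 (t : ℝ) : ℝ := ∫ y, (if tim 0 y < t then str (tim 0 y) ^ 2 else 0) ∂lam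

/-- the first observation of a vertex, as seen at time `t` -/
def obs0 (t : ℝ) (u : V) (ω : Om V) : ℝ :=
  if tau ω (u, 0) < t then str (tau ω (u, 0)) * cc (ω (Sum.inr (u, 0))) else 0

/-- linear estimator built from `L` levels of descendants of the edge `x → y` -/
def est (G : SimpleGraph V) (θ t : ℝ) : ℕ → V → V → Om V → ℝ
  | 0, _, y => obs0 t y
  | L + 1, x, y => fun ω => obs0 t y ω + θ * ∑ c ∈ chd G x y, est G θ t L y c ω

lemma bm_obs0 (u : V) : BM (obs0 t u : Om V → ℝ) := by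
  refine ⟨Measurable.ite (measurableSet_lt (measurable_tau _) measurable_const)
    ((measurable_str.comp (measurable_tau _)).mul (measurable_cc.comp (measurable_pi_apply _)))
    measurable_const, 1, fun ω => ?_⟩
  unfold obs0
  split_ifs
  · have h := str_mem (tim_nonneg 0 (ω (Sum.inl (u, 0))))
    rw [abs_mul, show |str (tau ω (u, 0))| = str (tau ω (u, 0)) from abs_of_nonneg h.1]
    exact mul_le_one₀ h.2 (abs_nonneg _) (abs_cc _)
  · simp

lemma dep_obs0 (hK : 1 ≤ K) {A : Finset V} {u : V} (hu : u ∈ A) :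
    Dep (crd K A : Set _) (obs0 t u : Om V → ℝ) := by
  intro ω ω' h
  have e1 := h (Sum.inl (u, 0)) (mem_crd_inl.2 ⟨hu, hK⟩)
  have e2 := h (Sum.inr (u, 0)) (mem_crd_inr.2 ⟨hu, hK⟩)
  have e3 : tau ω (u, 0) = tau ω' (u, 0) := congrArg (tim 0) e1
  simp only [obs0, e3, e2]

lemma obs0_refl (u : V) (ω : Om V) : obs0 t u (refl ω) = - obs0 t u ω := by
  have e1 : tau (refl ω) (u, 0) = tau ω (u, 0) := rfl
  have e2 : cc (refl ω (Sum.inr (u, 0))) = - cc (ω (Sum.inr (u, 0))) := cc_one_sub _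
  simp only [obs0, e1, e2]
  split_ifs <;> ring

lemma bm_str_if : BM (fun y : ℝ => if tim 0 y < t then str (tim 0 y) ^ 2 else 0) := by
  refine ⟨Measurable.ite (measurableSet_lt (measurable_tim 0) measurable_const)
    ((measurable_str.comp (measurable_tim 0)).pow_const 2) measurable_const, 1, fun y => ?_⟩
  dsimp only
  split_ifs
  · have h := str_mem (tim_nonneg 0 y)
    rw [abs_pow, abs_of_nonneg h.1]
    exact pow_le_one₀ h.1 h.2
  · simp

lemma w0_nonneg : 0 ≤ w0 t :=
  integral_nonneg (fun y => by dsimp only; split_ifs <;> positivity)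

lemma w0_le_one : w0 t ≤ 1 := by
  refine (le_abs_self _).trans (abs_integral_lam_le (fun y => ?_))
  split_ifs
  · have h := str_mem (tim_nonneg 0 y)
    rw [abs_pow, abs_of_nonneg h.1]
    exact pow_le_one₀ h.1 h.2
  · simp

lemma integral_comp_eval {ι : Type*} (i : ι) {f : ℝ → ℝ} (hf : BM f) :
    ∫ x, f (x i) ∂PU ι = ∫ y, f y ∂lam := by
  rw [integral_upd' i (hf.comp (measurable_pi_apply i))]
  simp only [upd_self, integral_const, probReal_univ, one_smul]

/-- moments of the first observation given the spin -/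
lemma integral_obs0_fac (u : V) (b : Bool) :
    ∫ ω, obs0 t u ω * fac t ω (u, 0) b ∂PU _ = eps * spin b / 3 * w0 t ∧
    ∫ ω, obs0 t u ω ^ 2 * fac t ω (u, 0) b ∂PU _ ≤ w0 t / 2 := by
  have h1 : ∀ ω : Om V, ∫ y, obs0 t u (upd ω (Sum.inr (u, 0)) y)
      * fac t (upd ω (Sum.inr (u, 0)) y) (u, 0) b ∂lam
      = eps * spin b / 3 * (if tau ω (u, 0) < t then str (tau ω (u, 0)) ^ 2 else 0) := by
    intro ω
    have e : ∀ y, tau (upd ω (Sum.inr (u, 0)) y) (u, 0) = tau ω (u, 0) := fun y =>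
      congrArg (tim 0) (upd_ne (by simp) _ _)
    simp only [obs0, fac, e, upd_self]
    split_ifs
    · have i1 : BM cc := ⟨measurable_cc, 1, abs_cc⟩
      have : ∀ y, str (tau ω (u, 0)) * cc y * (1 + eps * str (tau ω (u, 0)) * spin b * cc y)
          = str (tau ω (u, 0)) * cc y + eps * str (tau ω (u, 0)) ^ 2 * spin b * cc y ^ 2 := fun y => by
        ring
      simp only [this]
      rw [integral_add ((i1.integrable _).const_mul _) ((i1.sq.integrable _).const_mul _),
        integral_const_mul, integral_const_mul, integral_cc, integral_cc_sq]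
      ring
    · simp
  have hb := (bm_obs0 (t := t) u).mul (bm_fac t (u, 0) b)
  constructor
  · rw [integral_upd' (Sum.inr (u, 0)) hb]
    simp only [h1, integral_const_mul]
    congr 1
    exact integral_comp_eval (Sum.inl (u, 0)) (f := fun y => if tim 0 y < t then str (tim 0 y) ^ 2 else 0)
      bm_str_if
  · have hb2 := (bm_obs0 (t := t) u).sq.mul (bm_fac t (u, 0) b)
    rw [integral_upd' (Sum.inr (u, 0)) hb2]
    have h2 : ∀ ω : Om V, ∫ y, obs0 t u (upd ω (Sum.inr (u, 0)) y) ^ 2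
        * fac t (upd ω (Sum.inr (u, 0)) y) (u, 0) b ∂lam
        ≤ 1 / 2 * (if tau ω (u, 0) < t then str (tau ω (u, 0)) ^ 2 else 0) := by
      intro ω
      have e : ∀ y, tau (upd ω (Sum.inr (u, 0)) y) (u, 0) = tau ω (u, 0) := fun y =>
        congrArg (tim 0) (upd_ne (by simp) _ _)
      simp only [obs0, fac, e, upd_self]
      split_ifs
      · have i1 : BM cc := ⟨measurable_cc, 1, abs_cc⟩
        set s := str (tau ω (u, 0))
        have hle : ∀ y, (s * cc y) ^ 2 * (1 + eps * s * spin b * cc y)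
            ≤ 5 / 4 * s ^ 2 * cc y ^ 2 := fun y => by
          have h := (abs_le.1 (abs_eps_str (tim_nonneg 0 (ω (Sum.inl (u, 0))))
            (a := spin b * cc y) (by rw [abs_mul, abs_spin, one_mul]; exact abs_cc _))).2
          have h' : eps * s * spin b * cc y ≤ 1 / 4 := by rw [mul_assoc]; exact h
          calc _ ≤ (s * cc y) ^ 2 * (5 / 4) :=
                mul_le_mul_of_nonneg_left (by linarith) (sq_nonneg _)
            _ = _ := by ring
        refine (integral_mono ((((BM.const s).mul i1).sq.mul ((BM.const 1).add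
          ((BM.const (eps * s * spin b)).mul i1))).integrable _)
          (((BM.const (5 / 4 * s ^ 2)).mul i1.sq).integrable _) hle).trans ?_
        rw [integral_const_mul, integral_cc_sq]
        nlinarith [sq_nonneg s]
      · simp
    refine (integral_mono ((bm_integral_upd _ hb2).integrable _)
      ((((BM.const (1/2 : ℝ)).mul (bm_str_if.comp (g := fun ω : Om V => ω (Sum.inl (u, 0)))
        (measurable_pi_apply _))).integrable _)) h2).trans (le_of_eq ?_)
    rw [integral_const_mul, integral_comp_eval (Sum.inl (u, 0))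
      (f := fun y => if tim 0 y < t then str (tim 0 y) ^ 2 else 0) bm_str_if]
    unfold w0
    ring

lemma integral_obs0_fprod (hK : 1 ≤ K) (u : V) (η : Finset V) (p : ℕ) (hp : 1 ≤ p) :
    ∫ ω, obs0 t u ω ^ p * fprod {u} (fld K t ω) η ∂PU _
      = ∫ ω, obs0 t u ω ^ p * fac t ω (u, 0) (decide (u ∈ η)) ∂PU _ := by
  have hb : BM (fun ω : Om V => obs0 t u ω ^ p) := by
    obtain ⟨C, hC⟩ := (bm_obs0 (t := t) u).2
    exact ⟨(bm_obs0 u).1.pow_const p, C ^ p, fun ω => by
      rw [abs_pow]; exact pow_le_pow_left₀ (abs_nonneg _) (hC ω) p⟩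
  have h : (({u} : Finset V) ×ˢ Finset.range K) = insert (u, 0) (({u} : Finset V) ×ˢ Finset.Ico 1 K) := by
    ext ⟨a, k⟩
    simp only [Finset.mem_product, Finset.mem_singleton, Finset.mem_range, Finset.mem_insert,
      Finset.mem_Ico, Prod.mk.injEq]
    constructor
    · rintro ⟨rfl, hk⟩
      rcases Nat.eq_zero_or_pos k with h | h
      · exact Or.inl ⟨rfl, h⟩
      · exact Or.inr ⟨rfl, h, hk⟩
    · rintro (⟨rfl, rfl⟩ | ⟨rfl, -, hk⟩)
      · exact ⟨rfl, hK⟩
      · exact ⟨rfl, hk⟩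
  have e : ∀ ω : Om V, obs0 t u ω ^ p * fprod {u} (fld K t ω) η
      = (obs0 t u ω ^ p * fac t ω (u, 0) (decide (u ∈ η)))
        * ∏ i ∈ ({u} : Finset V) ×ˢ Finset.Ico 1 K, fac t ω i (decide (i.1 ∈ η)) := fun ω => by
    rw [fprod_eq_fac, h, Finset.prod_insert (by simp)]
    ring
  simp only [e]
  refine integral_mul_fac_prod t (fun i => decide (i.1 ∈ η)) (hb.mul (bm_fac t _ _)) _ (fun i hi ω y => ?_)
  obtain ⟨-, h2⟩ := Finset.mem_product.1 hi
  have hne : i ≠ (u, 0) := fun e => by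
    rw [e] at h2; simp at h2
  have e2 : obs0 t u (upd ω (Sum.inr i) y) = obs0 t u ω := by
    have et : tau (upd ω (Sum.inr i) y) (u, 0) = tau ω (u, 0) :=
      congrArg (tim 0) (upd_ne (by simp) _ _)
    simp only [obs0, et, 
      upd_ne (show (Sum.inr (u, 0) : (V × ℕ) ⊕ (V × ℕ)) ≠ Sum.inr i by simp [Ne.symm hne])]
  rw [e2, fac_upd_ne t ω hne]

lemma est_refl : ∀ (L : ℕ) (x y : V) (ω : Om V), est G θ t L x y (refl ω) = - est G θ t L x y ω := by
  intro L
  induction L with
  | zero => intro x y ω; exact obs0_refl y ω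
  | succ L ih =>
    intro x y ω
    simp only [est, obs0_refl, ih, Finset.sum_neg_distrib]
    ring

lemma bm_est : ∀ (L : ℕ) (x y : V), BM (est G θ t L x y) := by
  intro L
  induction L with
  | zero => intro x y; exact bm_obs0 y
  | succ L ih =>
    intro x y
    exact (bm_obs0 y).add ((BM.const θ).mul (BM.sum _ (fun c _ => ih y c)))

section

variable (hT : G.IsTree) {q : ℕ} (hd : ∀ v, (G.neighborSet v).ncard = q + 1) (hK : 1 ≤ K)
  (hθ0 : 0 ≤ θ) (hθ1 : θ < 1) (hq : (q : ℝ) * θ ^ 2 ≤ 1)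

include hT hd hK

lemma dep_est : ∀ (L : ℕ) (D : Finset V) (x y : V), G.Adj x y → Rch G y L D →
    Dep (crd K (side G D y x) : Set _) (est G θ t L x y) := by
  intro L
  induction L with
  | zero =>
    intro D x y ha hR
    exact dep_obs0 hK (self_mem_side hT hR.mem ha.symm)
  | succ L ih =>
    intro D x y ha hR ω ω' h
    have h0 := dep_obs0 (t := t) hK (self_mem_side hT hR.mem ha.symm) ω ω' h
    simp only [est]
    rw [h0]
    congr 2
    refine Finset.sum_congr rfl (fun c hc => ?_)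
    have h1 := ((mem_chd hd).1 hc).1
    exact (ih D y c h1 (hR.step hT h1 (by omega))).mono
      (crd_mono K (side_chd_subset hT hd ha hc)) ω ω' h

include hθ0 hθ1

lemma integral_est_zero {D : Finset V} (L : ℕ) (x y : V) :
    ∫ ω, est G θ t L x y ω * Zw G θ K t D ω ∂PU _ = 0 := by
  refine integral_odd ((bm_est L x y).mul (bm_Zw D)) (fun ω => ?_)
  rw [est_refl, Zw_refl (G := G) (θ := θ) D ω]
  ring

lemma integral_obs0_N {D : Finset V} (hD : Geo G D) {u : V} (hu : u ∈ D) :
    ∫ ω, obs0 t u ω * (Xw G θ K t D u ω * Zw G θ K t D ω) ∂PU _ = eps / 3 * w0 t := by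
  rw [cons_N hT hθ0 hθ1 (geo_singleton u) hD (by simpa using hu) (Finset.mem_singleton_self u)
    (bm_obs0 u) (dep_obs0 hK (Finset.mem_singleton_self u)), integral_Nw_mul hθ0 hθ1 (bm_obs0 u),
    EI_singleton]
  have e1 := integral_obs0_fprod (t := t) hK u {u} 1 le_rfl
  have e2 := integral_obs0_fprod (t := t) hK u ∅ 1 le_rfl
  simp only [pow_one] at e1 e2
  rw [e1, e2]
  simp only [Finset.mem_singleton, decide_true, Finset.notMem_empty, decide_false,
    (integral_obs0_fac u _).1]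
  simp [spin, sp_eq]
  ring

lemma integral_obs0_sq {D : Finset V} (hD : Geo G D) {u : V} (hu : u ∈ D) :
    ∫ ω, obs0 t u ω ^ 2 * Zw G θ K t D ω ∂PU _ ≤ w0 t / 2 := by
  rw [cons_Z hT hθ0 hθ1 (geo_singleton u) hD (by simpa using hu) (Finset.singleton_nonempty u)
    (bm_obs0 u).sq (fun ω ω' h => by
      simp only [dep_obs0 (t := t) hK (Finset.mem_singleton_self u) ω ω' h]),
    integral_Zw_mul (bm_obs0 u).sq, EI_singleton, integral_obs0_fprod (t := t) hK u {u} 2 (by norm_num),
    integral_obs0_fprod (t := t) hK u ∅ 2 (by norm_num)]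
  linarith [(integral_obs0_fac (t := t) u (decide (u ∈ ({u} : Finset V)))).2,
    (integral_obs0_fac (t := t) u (decide (u ∈ (∅ : Finset V)))).2]

/-- the correlation of the estimator with its root spin -/
lemma est_signal : ∀ (L : ℕ) (D : Finset V) (x y : V), Geo G D → G.Adj x y → Rch G y L D →
    ∫ ω, est G θ t L x y ω * (Xw G θ K t D y ω * Zw G θ K t D ω) ∂PU _
      = eps / 3 * w0 t * ∑ l ∈ Finset.range (L + 1), ((q : ℝ) * θ ^ 2) ^ l := by
  intro L
  induction L with
  | zero =>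
    intro D x y hD ha hR
    simp only [est, integral_obs0_N hT hd hK hθ0 hθ1 hD hR.mem, zero_add, Finset.sum_range_one,
      pow_zero, mul_one]
  | succ L ih =>
    intro D x y hD ha hR
    have hb := bm_Zw (G := G) (θ := θ) (K := K) (t := t) D
    have hN := (bm_Xw (G := G) (K := K) (t := t) hθ0 hθ1 D y).mul hb
    have e : ∀ ω, est G θ t (L + 1) x y ω * (Xw G θ K t D y ω * Zw G θ K t D ω)
        = obs0 t y ω * (Xw G θ K t D y ω * Zw G θ K t D ω)
          + θ * ∑ c ∈ chd G x y, est G θ t L y c ω * (Xw G θ K t D y ω * Zw G θ K t D ω) := by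
      intro ω; simp only [est, add_mul, mul_assoc, Finset.sum_mul]
    simp only [e]
    have hc : ∀ c ∈ chd G x y,
        ∫ ω, est G θ t L y c ω * (Xw G θ K t D y ω * Zw G θ K t D ω) ∂PU _
          = θ * (eps / 3 * w0 t * ∑ l ∈ Finset.range (L + 1), ((q : ℝ) * θ ^ 2) ^ l) := by
      intro c hc
      have h1 := ((mem_chd hd).1 hc).1
      have hRc : Rch G c L D := hR.step hT h1 (by omega)
      have hS := dep_est (θ := θ) (t := t) hT hd hK L D y c h1 hRc
      have := cut_intN (K := K) (t := t) hT hθ0 hθ1 hR.mem hRc.mem h1 (F := fun _ => 1)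
        (BM.const 1) (fun _ _ _ => rfl) (bm_est (θ := θ) (t := t) L y c) hS
      simp only [one_mul] at this
      rw [this, integral_Nw hT hθ0 hθ1 (self_mem_side hT hR.mem h1),
        integral_Zw hT hθ0 hθ1 (geo_side hT hD h1) ⟨y, self_mem_side hT hR.mem h1⟩, zero_mul,
        zero_add, one_mul,
        ← cons_N hT hθ0 hθ1 (geo_side hT hD h1.symm) hD (side_subset _ _ _)
          (self_mem_side hT hRc.mem h1.symm) (bm_est L y c) hS, ih D y c hD h1 hRc]
    rw [integral_add (((bm_obs0 y).mul hN).integrable _)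
      (((BM.sum _ (fun c _ => (bm_est L y c).mul hN)).integrable _).const_mul θ), integral_const_mul,
      integral_finsetSum _ (fun c _ => ((bm_est L y c).mul hN).integrable _), Finset.sum_congr rfl hc,
      integral_obs0_N hT hd hK hθ0 hθ1 hD hR.mem, Finset.sum_const, card_chd hd ha, nsmul_eq_mul,
      Finset.sum_range_succ' (fun l => ((q : ℝ) * θ ^ 2) ^ l) (L + 1)]
    simp only [pow_succ, ← Finset.sum_mul]
    ring

include hq

/-- second moment of the estimator -/
lemma est_noise : ∀ (L : ℕ) (D : Finset V) (x y : V), Geo G D → G.Adj x y → Rch G y L D →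
    ∫ ω, est G θ t L x y ω ^ 2 * Zw G θ K t D ω ∂PU _
      ≤ ((L : ℝ) + 1) * (w0 t / 2) + ((L : ℝ) + 1) ^ 3 * (eps / 3 * w0 t) ^ 2 := by
  intro L
  induction L with
  | zero =>
    intro D x y hD ha hR
    have := integral_obs0_sq (θ := θ) (t := t) hT hd hK hθ0 hθ1 hD hR.mem
    simp only [est, Nat.cast_zero]
    nlinarith [sq_nonneg (eps / 3 * w0 t)]
  | succ L ih =>
    intro D x y hD ha hR
    set a := eps / 3 * w0 t with hadef
    have ha0 : 0 ≤ a := mul_nonneg (by norm_num [eps]) w0_nonneg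
    set M := a * ∑ l ∈ Finset.range (L + 1), ((q : ℝ) * θ ^ 2) ^ l with hM
    set ρ := (q : ℝ) * θ ^ 2 with hρ
    have hρ0 : 0 ≤ ρ := by positivity
    have hM0 : 0 ≤ M := mul_nonneg ha0 (Finset.sum_nonneg (fun l _ => by positivity))
    have hM1 : M ≤ ((L : ℝ) + 1) * a := by
      rw [hM, mul_comm ((L : ℝ) + 1) a]
      refine mul_le_mul_of_nonneg_left ?_ ha0
      exact (Finset.sum_le_sum (fun l _ => pow_le_one₀ hρ0 hq)).trans (by simp)
    set J := chd G x y with hJ
    have hb := bm_Zw (G := G) (θ := θ) (K := K) (t := t) D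
    -- the cross terms
    have cross : ∀ c ∈ J, ∀ F : Om V → ℝ, BM F → Dep (crd K (side G D y c) : Set _) F →
        ∫ ω, F ω * est G θ t L y c ω * Zw G θ K t D ω ∂PU _
          = θ * M * ∫ ω, F ω * (Xw G θ K t D y ω * Zw G θ K t D ω) ∂PU _ := by
      intro c hc F hF hFd
      have h1 := ((mem_chd hd).1 hc).1
      have hRc : Rch G c L D := hR.step hT h1 (by omega)
      have hS := dep_est (θ := θ) (t := t) hT hd hK L D y c h1 hRc
      rw [cut_int hT hθ0 hθ1 hR.mem hRc.mem h1 hF hFd (bm_est L y c) hS,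
        integral_est_zero hT hd hK hθ0 hθ1, mul_zero, zero_add,
        ← cons_N hT hθ0 hθ1 (geo_side hT hD h1.symm) hD (side_subset _ _ _)
          (self_mem_side hT hRc.mem h1.symm) (bm_est L y c) hS,
        ← cons_N hT hθ0 hθ1 (geo_side hT hD h1) hD (side_subset _ _ _)
          (self_mem_side hT hR.mem h1) hF hFd, est_signal hT hd hK hθ0 hθ1 L D y c hD h1 hRc]
      ring
    have hobs : ∀ c ∈ J, ∫ ω, obs0 t y ω * est G θ t L y c ω * Zw G θ K t D ω ∂PU _ = θ * M * a := by
      intro c hc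
      have h1 := ((mem_chd hd).1 hc).1
      rw [cross c hc _ (bm_obs0 y) (dep_obs0 hK (self_mem_side hT hR.mem h1)),
        integral_obs0_N hT hd hK hθ0 hθ1 hD hR.mem]
    have hcc : ∀ c ∈ J, ∀ c' ∈ J, c ≠ c' →
        ∫ ω, est G θ t L y c' ω * est G θ t L y c ω * Zw G θ K t D ω ∂PU _ = θ ^ 2 * M ^ 2 := by
      intro c hc c' hc' hne
      have h1 := ((mem_chd hd).1 hc).1
      have h2 := ((mem_chd hd).1 hc').1
      have hRc' : Rch G c' L D := hR.step hT h2 (by omega)
      have hS' := dep_est (θ := θ) (t := t) hT hd hK L D y c' h2 hRc'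
      rw [cross c hc _ (bm_est L y c') (hS'.mono (crd_mono K (side_other_subset hT h1 h2 hne)))]
      have := cut_intN (K := K) (t := t) hT hθ0 hθ1 hR.mem hRc'.mem h2 (F := fun _ => 1)
        (BM.const 1) (fun _ _ _ => rfl) (bm_est (θ := θ) (t := t) L y c') hS'
      simp only [one_mul] at this
      rw [this, integral_Nw hT hθ0 hθ1 (self_mem_side hT hR.mem h2),
        integral_Zw hT hθ0 hθ1 (geo_side hT hD h2) ⟨y, self_mem_side hT hR.mem h2⟩,
        ← cons_N hT hθ0 hθ1 (geo_side hT hD h2.symm) hD (side_subset _ _ _)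
          (self_mem_side hT hRc'.mem h2.symm) (bm_est L y c') hS',
        est_signal hT hd hK hθ0 hθ1 L D y c' hD h2 hRc']
      ring
    have e : ∀ ω, est G θ t (L + 1) x y ω ^ 2 * Zw G θ K t D ω
        = obs0 t y ω ^ 2 * Zw G θ K t D ω
          + 2 * θ * ∑ c ∈ J, obs0 t y ω * est G θ t L y c ω * Zw G θ K t D ω
          + θ ^ 2 * ∑ c ∈ J, ∑ c' ∈ J, est G θ t L y c' ω * est G θ t L y c ω * Zw G θ K t D ω := by
      intro ω
      simp only [est, ← Finset.sum_mul, ← Finset.mul_sum]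
      ring
    simp only [e]
    have i0 : Integrable (fun ω => obs0 t y ω ^ 2 * Zw G θ K t D ω) (PU _) :=
      ((bm_obs0 y).sq.mul hb).integrable _
    have i1 : Integrable (fun ω => 2 * θ * ∑ c ∈ J, obs0 t y ω * est G θ t L y c ω * Zw G θ K t D ω)
        (PU _) :=
      ((BM.sum J (fun c _ => ((bm_obs0 y).mul (bm_est L y c)).mul hb)).integrable _).const_mul _
    have i2' : ∀ c ∈ J, BM (fun ω => ∑ c' ∈ J, est G θ t L y c' ω * est G θ t L y c ω
        * Zw G θ K t D ω) := fun c _ => BM.sum J (fun c' _ => ((bm_est L y c').mul (bm_est L y c)).mul hb)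
    rw [integral_add (by exact i0.add i1) (((BM.sum J i2').integrable _).const_mul _),
      integral_add i0 i1, integral_const_mul, integral_const_mul,
      integral_finsetSum _ (fun c _ => (((bm_obs0 y).mul (bm_est L y c)).mul hb).integrable _),
      integral_finsetSum _ (fun c hc => (i2' c hc).integrable _), Finset.sum_congr rfl hobs,
      Finset.sum_const, card_chd hd ha, nsmul_eq_mul]
    set Bd := ((L : ℝ) + 1) * (w0 t / 2) + ((L : ℝ) + 1) ^ 3 * a ^ 2 with hBd
    have hBd0 : 0 ≤ Bd := by have := w0_nonneg (t := t); positivity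
    have hrow : ∀ c ∈ J, ∫ ω, ∑ c' ∈ J, est G θ t L y c' ω * est G θ t L y c ω * Zw G θ K t D ω ∂PU _
        ≤ Bd + (q : ℝ) * (θ ^ 2 * M ^ 2) := by
      intro c hc
      have h1 := ((mem_chd hd).1 hc).1
      rw [integral_finsetSum _ (fun c' _ => (((bm_est L y c').mul (bm_est L y c)).mul hb).integrable _),
        ← Finset.add_sum_erase _ _ hc,
        Finset.sum_congr rfl (fun c' hc' => hcc c hc c' (Finset.mem_of_mem_erase hc')
          (Finset.ne_of_mem_erase hc').symm), Finset.sum_const, nsmul_eq_mul]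
      refine add_le_add ?_ (mul_le_mul_of_nonneg_right ?_ (by positivity))
      · simp only [← pow_two]
        exact ih D y c hD h1 (hR.step hT h1 (by omega))
      · have := Finset.card_erase_le (s := J) (a := c)
        rw [hJ, card_chd hd ha, ← hJ] at this
        exact_mod_cast this
    have hsum := Finset.sum_le_sum hrow
    rw [Finset.sum_const, card_chd hd ha, nsmul_eq_mul] at hsum
    have h0 := integral_obs0_sq (θ := θ) (t := t) hT hd hK hθ0 hθ1 hD hR.mem
    have h2 := mul_le_mul_of_nonneg_left hsum (sq_nonneg θ)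
    have k1 : 2 * θ * ((q : ℝ) * (θ * M * a)) ≤ 2 * (((L : ℝ) + 1) * a) * a := by
      rw [show 2 * θ * ((q : ℝ) * (θ * M * a)) = ρ * (2 * M * a) by rw [hρ]; ring]
      refine (mul_le_of_le_one_left (by positivity) hq).trans ?_
      gcongr
    have k2 : θ ^ 2 * ((q : ℝ) * (Bd + (q : ℝ) * (θ ^ 2 * M ^ 2))) ≤ Bd + ((L : ℝ) + 1) ^ 2 * a ^ 2 := by
      rw [show θ ^ 2 * ((q : ℝ) * (Bd + (q : ℝ) * (θ ^ 2 * M ^ 2))) = ρ * Bd + ρ ^ 2 * M ^ 2 by
        rw [hρ]; ring]
      refine add_le_add (mul_le_of_le_one_left hBd0 hq) ?_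
      refine (mul_le_of_le_one_left (sq_nonneg _) (pow_le_one₀ hρ0 hq)).trans ?_
      rw [← mul_pow]
      exact pow_le_pow_left₀ hM0 hM1 2
    push_cast
    nlinarith [Nat.cast_nonneg (α := ℝ) L, sq_nonneg a, mul_nonneg (Nat.cast_nonneg (α := ℝ) L) (sq_nonneg a),
      mul_nonneg (mul_nonneg (Nat.cast_nonneg (α := ℝ) L) (Nat.cast_nonneg (α := ℝ) L)) (sq_nonneg a)]

/-- a branch carries at least the information of the estimator -/
lemma branch_info (L : ℕ) {D A : Finset V} {y c : V} (hD : Geo G D) (hA : Geo G A) (hAD : A ⊆ D)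
    (h1 : G.Adj y c) (hR : Rch G c L D) (hy : y ∈ A) (hs : side G D c y ⊆ A) :
    θ ^ 2 * (eps / 3 * w0 t * ∑ l ∈ Finset.range (L + 1), ((q : ℝ) * θ ^ 2) ^ l) ^ 2
      ≤ (((L : ℝ) + 1) * (w0 t / 2) + ((L : ℝ) + 1) ^ 3 * (eps / 3 * w0 t) ^ 2)
        * ∫ ω, Xw G θ K t A y ω ^ 2 * Zw G θ K t A ω ∂PU _ := by
  set S := est G θ t L y c with hSdef
  have hS := dep_est (θ := θ) (t := t) hT hd hK L D y c h1 hR
  have hSA : Dep (crd K A : Set _) S := hS.mono (crd_mono K hs)
  have hbS : BM S := bm_est L y c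
  have hyD : y ∈ D := hAD hy
  have hsig : ∫ ω, S ω * (Xw G θ K t A y ω * Zw G θ K t A ω) ∂PU _
      = θ * (eps / 3 * w0 t * ∑ l ∈ Finset.range (L + 1), ((q : ℝ) * θ ^ 2) ^ l) := by
    rw [← cons_N hT hθ0 hθ1 hA hD hAD hy hbS hSA]
    have := cut_intN (K := K) (t := t) hT hθ0 hθ1 hyD hR.mem h1 (F := fun _ => 1)
      (BM.const 1) (fun _ _ _ => rfl) hbS hS
    simp only [one_mul] at this
    rw [this, integral_Nw hT hθ0 hθ1 (self_mem_side hT hyD h1),
      integral_Zw hT hθ0 hθ1 (geo_side hT hD h1) ⟨y, self_mem_side hT hyD h1⟩,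
      ← cons_N hT hθ0 hθ1 (geo_side hT hD h1.symm) hD (side_subset _ _ _)
        (self_mem_side hT hR.mem h1.symm) hbS hS, est_signal hT hd hK hθ0 hθ1 L D y c hD h1 hR]
    ring
  have hVA : ∫ ω, S ω ^ 2 * Zw G θ K t A ω ∂PU _
      ≤ ((L : ℝ) + 1) * (w0 t / 2) + ((L : ℝ) + 1) ^ 3 * (eps / 3 * w0 t) ^ 2 := by
    rw [← cons_Z hT hθ0 hθ1 hA hD hAD ⟨y, hy⟩ hbS.sq (fun ω ω' h => by simp only [hSA ω ω' h])]
    exact est_noise hT hd hK hθ0 hθ1 hq L D y c hD h1 hR
  have bX := bm_Xw (G := G) (K := K) (t := t) hθ0 hθ1 A y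
  have bZ := bm_Zw (G := G) (θ := θ) (K := K) (t := t) A
  set P := ∫ ω, Xw G θ K t A y ω ^ 2 * Zw G θ K t A ω ∂PU _
  set Q := ∫ ω, S ω ^ 2 * Zw G θ K t A ω ∂PU _
  set R := ∫ ω, S ω * (Xw G θ K t A y ω * Zw G θ K t A ω) ∂PU _
  have key : ∀ s : ℝ, 0 ≤ P * (s * s) + (-2 * R) * s + Q := by
    intro s
    have h : 0 ≤ ∫ ω, (S ω - s * Xw G θ K t A y ω) ^ 2 * Zw G θ K t A ω ∂PU _ :=
      integral_nonneg (fun ω => mul_nonneg (sq_nonneg _) (Zw_pos hθ0 hθ1 A ω).le)
    have e : ∀ ω, (S ω - s * Xw G θ K t A y ω) ^ 2 * Zw G θ K t A ω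
        = S ω ^ 2 * Zw G θ K t A ω
          + ((-2 * s) * (S ω * (Xw G θ K t A y ω * Zw G θ K t A ω))
            + (s * s) * (Xw G θ K t A y ω ^ 2 * Zw G θ K t A ω)) := fun ω => by ring
    simp only [e] at h
    rw [integral_add ((hbS.sq.mul bZ).integrable _)
      (by exact ((((hbS.mul (bX.mul bZ)).integrable _).const_mul _).add
        (((bX.sq.mul bZ).integrable _).const_mul _))),
      integral_add (((hbS.mul (bX.mul bZ)).integrable _).const_mul _)
        (((bX.sq.mul bZ).integrable _).const_mul _), integral_const_mul, integral_const_mul] at h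
    linarith
  have hd' := discrim_le_zero key
  have hP : 0 ≤ P := integral_nonneg (fun ω => mul_nonneg (sq_nonneg _) (Zw_pos hθ0 hθ1 A ω).le)
  rw [← mul_pow, ← hsig]
  calc R ^ 2 ≤ Q * P := by unfold discrim at hd'; nlinarith
    _ ≤ _ := mul_le_mul_of_nonneg_right hVA hP

end

end Vale.Agent.P161.Crit
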