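import Mathlib
import Vale.Agent.P161.Crit.Estimator

/-!
Decay of squared influences along forward paths, with exponential concentration.
-/

open MeasureTheory Set Function
open scoped Classical

noncomputable section

namespace Vale.Agent.P161.Crit

variable {V : Type*} {G : SimpleGraph V} {θ : ℝ} {K : ℕ} {t : ℝ}

/-- influence divided by `θ`, as a function of the branch magnetization -/
def wX (θ X : ℝ) : ℝ := (1 - X ^ 2) / (1 - θ ^ 2 * X ^ 2)

lemma wX_den_pos (hθ0 : 0 ≤ θ) (hθ1 : θ < 1) {X : ℝ} (hX : |X| ≤ 1) : 0 < 1 - θ ^ 2 * X ^ 2 := by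
  have h1 : X ^ 2 ≤ 1 := (sq_le_one_iff_abs_le_one X).2 hX
  have h2 : θ ^ 2 < 1 := pow_lt_one₀ hθ0 hθ1 two_ne_zero
  nlinarith [sq_nonneg X, sq_nonneg θ]

lemma wX_mem (hθ0 : 0 ≤ θ) (hθ1 : θ < 1) {X : ℝ} (hX : |X| ≤ 1) :
    0 ≤ wX θ X ∧ wX θ X ≤ 1 - (1 - θ ^ 2) * X ^ 2 := by
  have hp := wX_den_pos hθ0 hθ1 hX
  have h1 : X ^ 2 ≤ 1 := (sq_le_one_iff_abs_le_one X).2 hX
  have h2 : θ ^ 2 < 1 := pow_lt_one₀ hθ0 hθ1 two_ne_zero
  refine ⟨div_nonneg (by linarith) hp.le, ?_⟩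
  unfold wX
  rw [div_le_iff₀ hp]
  nlinarith [mul_nonneg (mul_nonneg (sub_nonneg.2 h2.le) (sq_nonneg θ)) (mul_nonneg (sq_nonneg X) (sq_nonneg X)),
    sq_nonneg X, sq_nonneg θ]

lemma wX_le_one (hθ0 : 0 ≤ θ) (hθ1 : θ < 1) {X : ℝ} (hX : |X| ≤ 1) : wX θ X ≤ 1 := by
  have h2 : θ ^ 2 < 1 := pow_lt_one₀ hθ0 hθ1 two_ne_zero
  nlinarith [(wX_mem hθ0 hθ1 hX).2, sq_nonneg X]

/-- influence of `x` on its neighbour `y`, divided by `θ` -/
def wv (G : SimpleGraph V) (θ : ℝ) (K : ℕ) (t : ℝ) (D : Finset V) (x y : V) (ω : Om V) : ℝ :=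
  wX θ (Xw G θ K t (side G D y x) y ω)

/-- normalised squared influence summed over the forward paths of length `n` -/
def Zs (G : SimpleGraph V) (θ : ℝ) (K : ℕ) (t : ℝ) (D : Finset V) : ℕ → V → V → Om V → ℝ
  | 0, _, _ => fun _ => 1
  | n + 1, x, y => fun ω => θ ^ 2 * wv G θ K t D x y ω ^ 2 * ∑ c ∈ chd G x y, Zs G θ K t D n y c ω

/-- pointwise splitting at the threshold `Λ μ` -/
lemma mul_le_split {z g M μ Λ : ℝ} (hz : 0 ≤ z) (hμ : 0 < μ) (hg : 0 ≤ g) (hgM : g ≤ M) :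
    g * z ≤ Λ * μ * g + 2 * M * μ * Real.exp (-(Λ / 2)) * Real.exp (z / μ) := by
  have hM : 0 ≤ M := hg.trans hgM
  rcases le_or_gt z (Λ * μ) with h | h
  · have : 0 ≤ 2 * M * μ * Real.exp (-(Λ / 2)) * Real.exp (z / μ) := by positivity
    nlinarith
  · set u := z / μ with hu
    have hzu : z = u * μ := by rw [hu]; field_simp
    have huΛ : Λ ≤ u := by rw [hu, le_div_iff₀ hμ]; exact h.le
    have h1 : u ≤ 2 * Real.exp (u / 2) := by linarith [Real.add_one_le_exp (u / 2)]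
    have h2 : Real.exp (u / 2) ≤ Real.exp (-(Λ / 2)) * Real.exp u := by
      rw [← Real.exp_add]; exact Real.exp_le_exp.2 (by linarith)
    rcases le_or_gt 0 (Λ * μ * g) with hp | hp
    · calc g * z ≤ M * (2 * (Real.exp (-(Λ / 2)) * Real.exp u) * μ) := by
            refine mul_le_mul hgM ?_ hz hM
            rw [hzu]
            exact mul_le_mul_of_nonneg_right (h1.trans (by linarith)) hμ.le
        _ ≤ _ := by linarith
    · have hΛ : Λ < 0 := by
        by_contra hc; push Not at hc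
        have := mul_nonneg (mul_nonneg hc hμ.le) hg
        linarith
      have h3 : g * z ≤ M * (2 * (Real.exp (-(Λ / 2)) * Real.exp u) * μ) := by
        refine mul_le_mul hgM ?_ hz hM
        rw [hzu]
        exact mul_le_mul_of_nonneg_right (h1.trans (by linarith)) hμ.le
      have h4 : (Λ * μ) * g ≥ (Λ * μ) * M := by nlinarith [mul_nonpos_of_nonpos_of_nonneg hΛ.le hμ.le]
      have h5 : -Λ * μ * M ≤ 2 * M * μ * Real.exp (-(Λ / 2)) := by
        have := Real.add_one_le_exp (-(Λ / 2))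
        have hMμ : 0 ≤ M * μ := by positivity
        nlinarith
      have h6 : 1 ≤ Real.exp u := Real.one_le_exp (div_nonneg hz hμ.le)
      have h7 : g * z ≤ M * z := mul_le_mul_of_nonneg_right hgM hz
      have h8 : M * z = M * (u * μ) := by rw [hzu]
      have h9 : u + 1 ≤ Real.exp u := Real.add_one_le_exp u
      have hMμ : 0 ≤ M * μ := by positivity
      have h10 : (1:ℝ) ≤ Real.exp (-(Λ / 2)) := Real.one_le_exp (by linarith)
      have h11 : (-Λ) * 1 + u ≤ 2 * Real.exp (-(Λ / 2)) * Real.exp u := by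
        nlinarith [Real.add_one_le_exp (-(Λ / 2))]
      nlinarith

section

variable (hT : G.IsTree) {q : ℕ} (hd : ∀ v, (G.neighborSet v).ncard = q + 1)
  (hθ0 : 0 ≤ θ) (hθ1 : θ < 1)

include hθ0 hθ1

lemma bm_wv (D : Finset V) (x y : V) : BM (wv G θ K t D x y) := by
  have h := bm_Xw (G := G) (K := K) (t := t) hθ0 hθ1 (side G D y x) y
  refine ⟨((measurable_const.sub (h.1.pow_const 2)).div
    (measurable_const.sub (measurable_const.mul (h.1.pow_const 2)))), 1, fun ω => ?_⟩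
  have hX := abs_Xw_le (G := G) (K := K) (t := t) hθ0 hθ1 (side G D y x) y ω
  rw [show wv G θ K t D x y ω = wX θ (Xw G θ K t (side G D y x) y ω) from rfl,
    abs_of_nonneg (wX_mem hθ0 hθ1 hX).1]
  exact wX_le_one hθ0 hθ1 hX

lemma wv_mem (D : Finset V) (x y : V) (ω : Om V) :
    0 ≤ wv G θ K t D x y ω ∧ wv G θ K t D x y ω ≤ 1 :=
  ⟨(wX_mem hθ0 hθ1 (abs_Xw_le hθ0 hθ1 _ _ ω)).1, wX_le_one hθ0 hθ1 (abs_Xw_le hθ0 hθ1 _ _ ω)⟩

lemma bm_Zs (D : Finset V) : ∀ (n : ℕ) (x y : V), BM (Zs G θ K t D n x y) := by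
  intro n
  induction n with
  | zero => intro x y; exact BM.const 1
  | succ n ih =>
    intro x y
    exact ((BM.const _).mul (bm_wv hθ0 hθ1 D x y).sq).mul (BM.sum _ (fun c _ => ih y c))

lemma Zs_nonneg (D : Finset V) : ∀ (n : ℕ) (x y : V) (ω : Om V), 0 ≤ Zs G θ K t D n x y ω := by
  intro n
  induction n with
  | zero => intro x y ω; exact zero_le_one
  | succ n ih =>
    intro x y ω
    exact mul_nonneg (mul_nonneg (sq_nonneg _) (sq_nonneg _)) (Finset.sum_nonneg (fun c _ => ih y c ω))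

include hd

lemma Zs_succ_le (hq : (q : ℝ) * θ ^ 2 ≤ 1) (hq0 : 0 < q) (D : Finset V) (n : ℕ) {x y : V} (ω : Om V) :
    Zs G θ K t D (n + 1) x y ω ≤ ∑ c ∈ chd G x y, 1 / (q : ℝ) * Zs G θ K t D n y c ω := by
  rw [← Finset.mul_sum]
  refine mul_le_mul_of_nonneg_right ?_ (Finset.sum_nonneg (fun c _ => Zs_nonneg hθ0 hθ1 D n y c ω))
  refine (mul_le_of_le_one_right (sq_nonneg θ) ?_).trans ?_
  · exact pow_le_one₀ (wv_mem hθ0 hθ1 D x y ω).1 (wv_mem hθ0 hθ1 D x y ω).2
  · rw [le_div_iff₀ (by exact_mod_cast hq0)]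
    linarith

lemma Zs_le_one (hq : (q : ℝ) * θ ^ 2 ≤ 1) (hq0 : 0 < q) (D : Finset V) :
    ∀ (n : ℕ) (x y : V), G.Adj x y → ∀ ω : Om V, Zs G θ K t D n x y ω ≤ 1 := by
  intro n
  induction n with
  | zero => intro x y _ ω; exact le_rfl
  | succ n ih =>
    intro x y ha ω
    refine (Zs_succ_le hd hθ0 hθ1 hq hq0 D n ω).trans ?_
    calc ∑ c ∈ chd G x y, 1 / (q : ℝ) * Zs G θ K t D n y c ω
        ≤ ∑ _c ∈ chd G x y, 1 / (q : ℝ) * 1 := Finset.sum_le_sum (fun c hc =>
          mul_le_mul_of_nonneg_left (ih y c ((mem_chd hd).1 hc).1 ω) (by positivity))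
      _ = 1 := by
        rw [Finset.sum_const, card_chd hd ha, nsmul_eq_mul]
        have : (q : ℝ) ≠ 0 := by exact_mod_cast hq0.ne'
        field_simp

include hT

lemma dep_Zs (D : Finset V) : ∀ (n : ℕ) (x y : V), G.Adj x y →
    Dep (crd K (side G D y x) : Set _) (Zs G θ K t D n x y) := by
  intro n
  induction n with
  | zero => intro x y _; exact fun _ _ _ => rfl
  | succ n ih =>
    intro x y ha ω ω' h
    have e : wv G θ K t D x y ω = wv G θ K t D x y ω' :=
      congrArg (wX θ) (dep_Xw (G := G) (θ := θ) (t := t) (side G D y x) y ω ω' h)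
    simp only [Zs, e]
    congr 1
    refine Finset.sum_congr rfl (fun c hc => ?_)
    exact (ih y c ((mem_chd hd).1 hc).1).mono (crd_mono K (side_chd_subset hT hd ha hc)) ω ω' h

lemma even_Zs (D : Finset V) : ∀ (n : ℕ) (x y : V), G.Adj x y → Rch G y n D →
    Even' (Zs G θ K t D n x y) := by
  intro n
  induction n with
  | zero => intro x y _ _ ω; rfl
  | succ n ih =>
    intro x y ha hR ω
    have e : wv G θ K t D x y (refl ω) = wv G θ K t D x y ω := by
      simp only [wv, wX, Xw_refl hθ0 hθ1 (self_mem_side hT hR.mem ha.symm), neg_sq]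
    simp only [Zs, e]
    congr 1
    refine Finset.sum_congr rfl (fun c hc => ?_)
    exact ih y c ((mem_chd hd).1 hc).1 (hR.step hT ((mem_chd hd).1 hc).1 (by omega)) ω

/-- one step of decay: a side branch with information `Q` damps the influence -/
lemma step_decay {D : Finset V} (hD : Geo G D) {x y z : V} (ha : G.Adj x y) (hz : z ∈ chd G x y)
    (hy : y ∈ D) (hzD : z ∈ D) {H : Om V → ℝ} (hH : BM H) (hH0 : ∀ ω, 0 ≤ H ω)
    (hHd : Dep (crd K (side G D z y) : Set _) H) {Q : ℝ}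
    (hQ : Q ≤ ∫ ω, Xw G θ K t (side G (side G D y x) y z) y ω ^ 2
      * Zw G θ K t (side G (side G D y x) y z) ω ∂PU _) :
    ∫ ω, wv G θ K t D x y ω * H ω * Zw G θ K t D ω ∂PU _
      ≤ (1 - (1 - θ ^ 2) / 2 * Q) * ∫ ω, H ω * Zw G θ K t D ω ∂PU _ := by
  have haz := ((mem_chd hd).1 hz).1
  set B0 := side G D y x with hB0
  set A := side G B0 y z with hA
  set B := side G B0 z y with hB
  have hBe : B = side G D z y := side_side hT hd ha hz
  have hgB0 : Geo G B0 := geo_side hT hD ha.symm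
  have hyB0 : y ∈ B0 := self_mem_side hT hy ha.symm
  have hzB0 : z ∈ B0 := side_chd_subset hT hd ha hz (self_mem_side hT hzD haz.symm)
  have hB0D : B0 ⊆ D := side_subset _ _ _
  have hdB0 : Dep (crd K B0 : Set _) H :=
    hHd.mono (crd_mono K (hBe ▸ side_subset B0 z y))
  have hHB : Dep (crd K B : Set _) H := hBe.symm ▸ hHd
  have bw := bm_wv (G := G) (K := K) (t := t) hθ0 hθ1 D x y
  have bX0 := bm_Xw (G := G) (K := K) (t := t) hθ0 hθ1 B0 y
  have bZ0 := bm_Zw (G := G) (θ := θ) (K := K) (t := t) B0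
  have dw : Dep (crd K B0 : Set _) (wv G θ K t D x y) := fun ω ω' h =>
    congrArg (wX θ) (dep_Xw (G := G) (θ := θ) (t := t) B0 y ω ω' h)
  rw [cons_Z hT hθ0 hθ1 hgB0 hD hB0D ⟨y, hyB0⟩ (bw.mul hH) (dw.mul hdB0),
    cons_Z hT hθ0 hθ1 hgB0 hD hB0D ⟨y, hyB0⟩ hH hdB0]
  have h1 : ∫ ω, wv G θ K t D x y ω * H ω * Zw G θ K t B0 ω ∂PU _
      ≤ (∫ ω, H ω * Zw G θ K t B0 ω ∂PU _)
        - (1 - θ ^ 2) * ∫ ω, Xw G θ K t B0 y ω ^ 2 * H ω * Zw G θ K t B0 ω ∂PU _ := by
    rw [← integral_const_mul, ← integral_sub ((hH.mul bZ0).integrable _)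
      ((((bX0.sq.mul hH).mul bZ0)).integrable _ |>.const_mul _)]
    refine integral_mono (((bw.mul hH).mul bZ0).integrable _) (((hH.mul bZ0).integrable _).sub
      ((((bX0.sq.mul hH).mul bZ0)).integrable _ |>.const_mul _)) (fun ω => ?_)
    have hw := (wX_mem hθ0 hθ1 (abs_Xw_le (G := G) (K := K) (t := t) hθ0 hθ1 B0 y ω)).2
    calc _ ≤ (1 - (1 - θ ^ 2) * Xw G θ K t B0 y ω ^ 2) * H ω * Zw G θ K t B0 ω :=
          mul_le_mul_of_nonneg_right (mul_le_mul_of_nonneg_right hw (hH0 ω))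
            (Zw_pos hθ0 hθ1 _ ω).le
      _ = _ := by ring
  have bXA := bm_Xw (G := G) (K := K) (t := t) hθ0 hθ1 A y
  have bXB := bm_Xw (G := G) (K := K) (t := t) hθ0 hθ1 B z
  have bZA := bm_Zw (G := G) (θ := θ) (K := K) (t := t) A
  have bZB := bm_Zw (G := G) (θ := θ) (K := K) (t := t) B
  have hAB : Disjoint A B := side_disjoint hT B0 haz
  have hyA : y ∈ A := self_mem_side hT hyB0 haz
  have pt : ∀ ω, 1 / 2 * (H ω * Zw G θ K t B ω * (Xw G θ K t A y ω ^ 2 * Zw G θ K t A ω)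
        + 2 * θ * ((Xw G θ K t A y ω * Zw G θ K t A ω) * (H ω * (Xw G θ K t B z ω * Zw G θ K t B ω))))
      ≤ Xw G θ K t B0 y ω ^ 2 * H ω * Zw G θ K t B0 ω := by
    intro ω
    set X := Xw G θ K t A y ω with hX
    set Y := Xw G θ K t B z ω with hY
    have e1 := cut_Z (K := K) (t := t) hT hθ0 hθ1 hyB0 hzB0 haz ω
    have e2 := cut_N (K := K) (t := t) hT hθ0 hθ1 hyB0 hzB0 haz ω
    rw [← hX, ← hY] at e1 e2
    have hZA := Zw_pos (G := G) (K := K) (t := t) hθ0 hθ1 A ω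
    have hZB := Zw_pos (G := G) (K := K) (t := t) hθ0 hθ1 B ω
    have aX : |X| ≤ 1 := abs_Xw_le hθ0 hθ1 A y ω
    have aY : |Y| ≤ 1 := abs_Xw_le hθ0 hθ1 B z ω
    have hd1 : |θ * X * Y| ≤ θ := by
      rw [abs_mul, abs_mul, abs_of_nonneg hθ0]
      calc θ * |X| * |Y| ≤ θ * 1 * 1 := by gcongr
        _ = θ := by ring
    set d := 1 + θ * X * Y
    have d0 : 0 < d := by linarith [(abs_le.1 hd1).1]
    have d2 : d ≤ 2 := by linarith [(abs_le.1 hd1).2]
    set P := Zw G θ K t A ω * Zw G θ K t B ω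
    have hP : 0 < P := mul_pos hZA hZB
    have e3 : Xw G θ K t B0 y ω = (X + θ * Y) / d := by
      rw [eq_div_iff d0.ne']
      have : Xw G θ K t B0 y ω * (P * d) = P * (X + θ * Y) := by rw [← e1, e2]
      exact mul_right_cancel₀ hP.ne' (by linear_combination this)
    rw [e3, e1]
    have e4 : ((X + θ * Y) / d) ^ 2 * H ω * (P * d) = (X + θ * Y) ^ 2 * H ω * P / d := by
      field_simp
    rw [e4, le_div_iff₀ d0]
    have hL : H ω * Zw G θ K t B ω * (X ^ 2 * Zw G θ K t A ω)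
        + 2 * θ * ((X * Zw G θ K t A ω) * (H ω * (Y * Zw G θ K t B ω)))
        ≤ (X + θ * Y) ^ 2 * H ω * P := by
      have : 0 ≤ θ ^ 2 * Y ^ 2 * H ω * P :=
        mul_nonneg (mul_nonneg (by positivity) (hH0 ω)) hP.le
      nlinarith
    have hR : 0 ≤ (X + θ * Y) ^ 2 * H ω * P := mul_nonneg (mul_nonneg (sq_nonneg _) (hH0 ω)) hP.le
    calc 1 / 2 * _ * d ≤ 1 / 2 * ((X + θ * Y) ^ 2 * H ω * P) * d := by gcongr
      _ ≤ _ := by nlinarith
  have b1 := (hH.mul bZB).mul (bXA.sq.mul bZA)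
  have b2 := (bXA.mul bZA).mul (hH.mul (bXB.mul bZB))
  have h2 : 1 / 2 * (Q * ∫ ω, H ω * Zw G θ K t B0 ω ∂PU _)
      ≤ ∫ ω, Xw G θ K t B0 y ω ^ 2 * H ω * Zw G θ K t B0 ω ∂PU _ := by
    refine le_trans ?_ (integral_mono (((b1.integrable _).add ((b2.integrable _).const_mul _)).const_mul _)
      (((bX0.sq.mul hH).mul bZ0).integrable _) pt)
    simp only [Pi.add_apply]
    rw [integral_const_mul, integral_add (b1.integrable _) ((b2.integrable _).const_mul _),
      integral_const_mul]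
    have f1 : ∫ ω, H ω * Zw G θ K t B ω * (Xw G θ K t A y ω ^ 2 * Zw G θ K t A ω) ∂PU _
        = (∫ ω, H ω * Zw G θ K t B ω ∂PU _) * ∫ ω, Xw G θ K t A y ω ^ 2 * Zw G θ K t A ω ∂PU _ :=
      integral_mul_crd hAB.symm (hH.mul bZB) (hHB.mul (dep_Zw B)) (bXA.sq.mul bZA)
        (fun ω ω' h => by
          simp only [dep_Xw (G := G) (θ := θ) (t := t) A y ω ω' h, dep_Zw (G := G) (θ := θ) (t := t) A ω ω' h])
    have f2 : ∫ ω, (Xw G θ K t A y ω * Zw G θ K t A ω)
        * (H ω * (Xw G θ K t B z ω * Zw G θ K t B ω)) ∂PU _ = 0 := by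
      rw [integral_mul_crd hAB (bXA.mul bZA) ((dep_Xw A y).mul (dep_Zw A)) (hH.mul (bXB.mul bZB))
        (hHB.mul ((dep_Xw B z).mul (dep_Zw B))), integral_Nw hT hθ0 hθ1 hyA, zero_mul]
    rw [f1, f2, mul_zero, add_zero,
      cons_Z hT hθ0 hθ1 (geo_side hT hgB0 haz.symm) hgB0 (side_subset _ _ _)
        ⟨z, self_mem_side hT hzB0 haz.symm⟩ hH hHB, mul_comm Q]
    refine mul_le_mul_of_nonneg_left (mul_le_mul_of_nonneg_left hQ ?_) (by norm_num)
    exact integral_nonneg (fun ω => mul_nonneg (hH0 ω) (Zw_pos hθ0 hθ1 _ ω).le)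
  have h3 : 0 ≤ 1 - θ ^ 2 := by nlinarith
  nlinarith [mul_le_mul_of_nonneg_left h2 h3]

section rate

variable (hK : 1 ≤ K) (hq : (q : ℝ) * θ ^ 2 ≤ 1) (hq2 : 2 ≤ q) (L : ℕ) {δ r : ℝ}
  (hδ : δ * (((L : ℝ) + 1) * (w0 t / 2) + ((L : ℝ) + 1) ^ 3 * (eps / 3 * w0 t) ^ 2)
    ≤ θ ^ 2 * (eps / 3 * w0 t * ∑ l ∈ Finset.range (L + 1), ((q : ℝ) * θ ^ 2) ^ l) ^ 2)
  (hVpos : 0 < w0 t)
  (hr : (q : ℝ) * θ ^ 2 * (1 - (1 - θ ^ 2) / 2 * δ) ≤ r)

include hK hq hq2 hδ hVpos hr

/-- expected squared influence along `n` forward steps -/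
lemma integral_Zs_le {D : Finset V} (hD : Geo G D) : ∀ (n : ℕ) (x y : V), G.Adj x y →
    Rch G y (n + L + 1) D → 0 ≤ r →
    ∫ ω, Zs G θ K t D n x y ω * Zw G θ K t D ω ∂PU _ ≤ r ^ n := by
  intro n
  induction n with
  | zero =>
    intro x y _ hR _
    simp only [Zs, one_mul, pow_zero]
    exact (integral_Zw hT hθ0 hθ1 hD ⟨y, hR.mem⟩).le
  | succ n ih =>
    intro x y ha hR hr0
    have bw := bm_wv (G := G) (K := K) (t := t) hθ0 hθ1 D x y
    have bz := fun c => bm_Zs (G := G) (K := K) (t := t) hθ0 hθ1 D n y c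
    have bZ := bm_Zw (G := G) (θ := θ) (K := K) (t := t) D
    have pt : ∀ ω, Zs G θ K t D (n + 1) x y ω * Zw G θ K t D ω
        ≤ ∑ c ∈ chd G x y, θ ^ 2 * (wv G θ K t D x y ω * Zs G θ K t D n y c ω * Zw G θ K t D ω) := by
      intro ω
      obtain ⟨w1, w2⟩ := wv_mem (G := G) (K := K) (t := t) hθ0 hθ1 D x y ω
      simp only [Zs, Finset.mul_sum, Finset.sum_mul]
      refine Finset.sum_le_sum (fun c hc => ?_)
      have hz := Zs_nonneg (G := G) (K := K) (t := t) hθ0 hθ1 D n y c ω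
      have hZ := Zw_pos (G := G) (K := K) (t := t) hθ0 hθ1 D ω
      calc _ ≤ θ ^ 2 * wv G θ K t D x y ω * Zs G θ K t D n y c ω * Zw G θ K t D ω := by
            gcongr
            nlinarith
        _ = _ := by ring
    refine (integral_mono (((bm_Zs hθ0 hθ1 D (n + 1) x y).mul bZ).integrable _)
      ((BM.sum _ (fun c _ => (BM.const (θ ^ 2)).mul ((bw.mul (bz c)).mul bZ))).integrable _) pt).trans ?_
    rw [integral_finsetSum _ (fun c _ => (((bw.mul (bz c)).mul bZ).integrable _).const_mul _)]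
    have hc : ∀ c ∈ chd G x y,
        ∫ ω, θ ^ 2 * (wv G θ K t D x y ω * Zs G θ K t D n y c ω * Zw G θ K t D ω) ∂PU _
          ≤ θ ^ 2 * ((1 - (1 - θ ^ 2) / 2 * δ) * r ^ n) := by
      intro c hc
      rw [integral_const_mul]
      refine mul_le_mul_of_nonneg_left ?_ (sq_nonneg θ)
      have h1 := ((mem_chd hd).1 hc).1
      have hRc : Rch G c (n + L + 1) D := hR.step hT h1 (by omega)
      have hs : 0 ≤ 1 - (1 - θ ^ 2) / 2 * δ := by
        by_contra hneg
        push Not at hneg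
        have h2 : θ ^ 2 < 1 := pow_lt_one₀ hθ0 hθ1 two_ne_zero
        have hsum1 : (eps / 3 * w0 t * ∑ l ∈ Finset.range (L + 1), ((q : ℝ) * θ ^ 2) ^ l) ^ 2
            ≤ (eps / 3 * w0 t * ((L : ℝ) + 1)) ^ 2 := by
          have hnn : 0 ≤ eps / 3 * w0 t := mul_nonneg (by norm_num [eps]) w0_nonneg
          refine pow_le_pow_left₀ (mul_nonneg hnn (Finset.sum_nonneg (fun l _ => by positivity))) ?_ 2
          exact mul_le_mul_of_nonneg_left
            ((Finset.sum_le_sum (fun l _ => pow_le_one₀ (by positivity) hq)).trans (by simp)) hnn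
        have hL : (1:ℝ) ≤ (L : ℝ) + 1 := by linarith [Nat.cast_nonneg (α := ℝ) L]
        have hV : (eps / 3 * w0 t * ((L : ℝ) + 1)) ^ 2
            < ((L : ℝ) + 1) * (w0 t / 2) + ((L : ℝ) + 1) ^ 3 * (eps / 3 * w0 t) ^ 2 := by
          have : 0 < ((L : ℝ) + 1) * (w0 t / 2) := by positivity
          nlinarith [mul_le_mul_of_nonneg_left hL (show 0 ≤ ((L:ℝ) + 1) ^ 2 * (eps / 3 * w0 t) ^ 2 by positivity)]
        have hδ1 : 1 < δ := by nlinarith
        nlinarith [mul_le_mul_of_nonneg_left hsum1 (sq_nonneg θ), mul_lt_mul_of_pos_left hV (by linarith : (0:ℝ) < δ)]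
      have hQ : δ ≤ ∫ ω, Xw G θ K t (side G (side G D y x) y c) y ω ^ 2
          * Zw G θ K t (side G (side G D y x) y c) ω ∂PU _ := by
        obtain ⟨z, hz, hzc⟩ := exists_chd_ne hd ha hq2 c
        have h3 := ((mem_chd hd).1 hz).1
        have hyD := hR.mem
        have hg := geo_side hT (geo_side hT hD ha.symm) h1
        have hRz : Rch G z L D := hR.step hT h3 (by omega)
        have hb := branch_info (θ := θ) (t := t) hT hd hK hθ0 hθ1 hq L hD hg
          ((side_subset _ _ _).trans (side_subset _ _ _)) h3 hRz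
          (self_mem_side hT (self_mem_side hT hyD ha.symm) h1)
          (by rw [← side_side hT hd ha hz]
              exact side_other_subset hT h1 h3 hzc.symm)
        refine le_of_mul_le_mul_left ?_ (show (0:ℝ) < ((L : ℝ) + 1) * (w0 t / 2)
          + ((L : ℝ) + 1) ^ 3 * (eps / 3 * w0 t) ^ 2 by positivity)
        linarith
      refine (step_decay hT hd hθ0 hθ1 hD ha hc hR.mem hRc.mem (bz c)
        (Zs_nonneg hθ0 hθ1 D n y c) (dep_Zs hT hd hθ0 hθ1 D n y c h1) hQ).trans ?_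
      exact mul_le_mul_of_nonneg_left (ih y c h1 hRc hr0) hs
    refine (Finset.sum_le_sum hc).trans ?_
    rw [Finset.sum_const, card_chd hd ha, nsmul_eq_mul, pow_succ]
    calc (q : ℝ) * (θ ^ 2 * ((1 - (1 - θ ^ 2) / 2 * δ) * r ^ n))
        = ((q : ℝ) * θ ^ 2 * (1 - (1 - θ ^ 2) / 2 * δ)) * r ^ n := by ring
      _ ≤ r * r ^ n := mul_le_mul_of_nonneg_right hr (by positivity)
      _ = _ := mul_comm _ _

omit hK hq hq2 hδ hVpos hr in
/-- reflection-invariant functions of different branches are independent -/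
lemma integral_prod_branches {D : Finset V} (hD : Geo G D) {y : V} (hy : y ∈ D)
    {F : V → Om V → ℝ} (hF : ∀ c, BM (F c)) :
    ∀ J : Finset V, (∀ c ∈ J, G.Adj y c ∧ c ∈ D ∧ Dep (crd K (side G D c y) : Set _) (F c)
      ∧ Even' (F c)) →
      ∫ ω, (∏ c ∈ J, F c ω) * Zw G θ K t D ω ∂PU _
        = ∏ c ∈ J, ∫ ω, F c ω * Zw G θ K t D ω ∂PU _ := by
  intro J
  induction J using Finset.induction with
  | empty => intro _; simp [integral_Zw hT hθ0 hθ1 hD ⟨y, hy⟩]
  | insert c J hc ih =>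
    intro h
    obtain ⟨h1, hcD, hdc, hec⟩ := h c (Finset.mem_insert_self c J)
    have hP : BM (fun ω => ∏ c' ∈ J, F c' ω) := BM.prod J (fun c' _ => hF c')
    have hPd : Dep (crd K (side G D y c) : Set _) (fun ω => ∏ c' ∈ J, F c' ω) := by
      intro ω ω' he
      refine Finset.prod_congr rfl (fun c' hc' => ?_)
      obtain ⟨h2, -, hd', -⟩ := h c' (Finset.mem_insert_of_mem hc')
      exact hd'.mono (crd_mono K (side_other_subset hT h1 h2 (fun e => hc (e ▸ hc')))) ω ω' he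
    have e : ∀ ω, (∏ c' ∈ insert c J, F c' ω) = (∏ c' ∈ J, F c' ω) * F c ω := fun ω => by
      rw [Finset.prod_insert hc, mul_comm]
    simp only [e]
    rw [cut_int hT hθ0 hθ1 hy hcD h1 hP hPd (hF c) hdc,
      integral_Nw_even (G := G) (K := K) (t := t) hθ0 hθ1 (hF c) hec
        (self_mem_side hT hcD h1.symm), mul_zero, mul_zero, add_zero,
      ← cons_Z hT hθ0 hθ1 (geo_side hT hD h1) hD (side_subset _ _ _)
        ⟨y, self_mem_side hT hy h1⟩ hP hPd,
      ← cons_Z hT hθ0 hθ1 (geo_side hT hD h1.symm) hD (side_subset _ _ _)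
        ⟨c, self_mem_side hT hcD h1.symm⟩ (hF c) hdc,
      ih (fun c' hc' => h c' (Finset.mem_insert_of_mem hc')), Finset.prod_insert hc, mul_comm]

/-- exponential moments of the forward sums -/
lemma integral_exp_Zs {D : Finset V} (hD : Geo G D) (n : ℕ) (hr0 : 0 ≤ r) :
    ∀ (m : ℕ) (x y : V), G.Adj x y → Rch G y (n + m + L + 1) D → ∀ lam' : ℝ, 0 ≤ lam' →
    ∫ ω, Real.exp (lam' * Zs G θ K t D (n + m) x y ω) * Zw G θ K t D ω ∂PU _
      ≤ Real.exp ((Real.exp (lam' / (q : ℝ) ^ m) - 1) * ((q : ℝ) ^ m * r ^ n)) := by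
  have hq0 : 0 < q := by omega
  have bexp : ∀ (k : ℕ) (x y : V), G.Adj x y → ∀ l : ℝ, 0 ≤ l →
      BM (fun ω : Om V => Real.exp (l * Zs G θ K t D k x y ω)) := fun k x y ha l hl =>
    ⟨(measurable_const.mul (bm_Zs hθ0 hθ1 D k x y).1).exp, Real.exp l, fun ω => by
      rw [abs_of_pos (Real.exp_pos _)]
      exact Real.exp_le_exp.2 (mul_le_of_le_one_right hl (Zs_le_one hd hθ0 hθ1 hq hq0 D k x y ha ω))⟩
  have bZ := bm_Zw (G := G) (θ := θ) (K := K) (t := t) D
  intro m
  induction m with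
  | zero =>
    intro x y ha hR l hl
    simp only [add_zero, pow_zero, div_one, one_mul]
    have hR' : Rch G y (n + L + 1) D := hR.mono (by omega)
    have bs := bm_Zs (G := G) (K := K) (t := t) hθ0 hθ1 D n x y
    calc ∫ ω, Real.exp (l * Zs G θ K t D n x y ω) * Zw G θ K t D ω ∂PU _
        ≤ ∫ ω, (Zw G θ K t D ω + (Real.exp l - 1) * (Zs G θ K t D n x y ω * Zw G θ K t D ω)) ∂PU _ := by
          refine integral_mono (((bexp n x y ha l hl).mul bZ).integrable _)
            ((bZ.integrable _).add (((bs.mul bZ).integrable _).const_mul _)) (fun ω => ?_)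
          set z := Zs G θ K t D n x y ω
          have z0 : 0 ≤ z := Zs_nonneg hθ0 hθ1 D n x y ω
          have z1 : z ≤ 1 := Zs_le_one hd hθ0 hθ1 hq hq0 D n x y ha ω
          have hc := convexOn_exp.2 (Set.mem_univ (0:ℝ)) (Set.mem_univ l) (sub_nonneg.2 z1) z0 (by ring)
          simp only [smul_eq_mul, mul_zero, zero_add, Real.exp_zero, mul_one] at hc
          have hZ := Zw_pos (G := G) (K := K) (t := t) hθ0 hθ1 D ω
          have := mul_le_mul_of_nonneg_right hc hZ.le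
          rw [mul_comm l z]
          linarith
      _ ≤ 1 + (Real.exp l - 1) * r ^ n := by
          rw [integral_add (bZ.integrable _) (((bs.mul bZ).integrable _).const_mul _),
            integral_const_mul, integral_Zw hT hθ0 hθ1 hD ⟨y, hR.mem⟩]
          gcongr
          · linarith [Real.one_le_exp hl]
          · exact integral_Zs_le hT hd hθ0 hθ1 hK hq hq2 L hδ hVpos hr hD n x y ha hR' hr0
      _ ≤ _ := by linarith [Real.add_one_le_exp ((Real.exp l - 1) * r ^ n)]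
  | succ m ih =>
    intro x y ha hR l hl
    have hl' : 0 ≤ l / (q : ℝ) := by positivity
    calc ∫ ω, Real.exp (l * Zs G θ K t D (n + (m + 1)) x y ω) * Zw G θ K t D ω ∂PU _
        ≤ ∫ ω, (∏ c ∈ chd G x y, Real.exp (l / q * Zs G θ K t D (n + m) y c ω))
            * Zw G θ K t D ω ∂PU _ := by
          refine integral_mono (((bexp _ x y ha l hl).mul bZ).integrable _)
            (((BM.prod _ (fun c hc => bexp _ y c ((mem_chd hd).1 hc).1 _ hl')).mul bZ).integrable _)
            (fun ω => mul_le_mul_of_nonneg_right ?_ (Zw_pos hθ0 hθ1 D ω).le)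
          rw [← Real.exp_sum]
          refine Real.exp_le_exp.2 ?_
          calc l * Zs G θ K t D (n + (m + 1)) x y ω
              ≤ l * ∑ c ∈ chd G x y, 1 / (q : ℝ) * Zs G θ K t D (n + m) y c ω :=
                mul_le_mul_of_nonneg_left (Zs_succ_le hd hθ0 hθ1 hq hq0 D _ ω) hl
            _ = _ := by rw [Finset.mul_sum]; exact Finset.sum_congr rfl (fun c _ => by ring)
      _ = ∏ c ∈ chd G x y, ∫ ω, Real.exp (l / q * Zs G θ K t D (n + m) y c ω)
            * Zw G θ K t D ω ∂PU _ := by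
          set F : V → Om V → ℝ := fun c ω =>
            if G.Adj y c then Real.exp (l / q * Zs G θ K t D (n + m) y c ω) else 1 with hF
          have hFe : ∀ c ∈ chd G x y, F c = fun ω =>
              Real.exp (l / q * Zs G θ K t D (n + m) y c ω) := fun c hc => by
            simp only [hF, if_pos ((mem_chd hd).1 hc).1]
          have hFb : ∀ c, BM (F c) := fun c => by
            by_cases hc : G.Adj y c
            · simpa only [hF, if_pos hc] using bexp _ y c hc _ hl'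
            · simpa only [hF, if_neg hc] using BM.const (α := Om V) 1
          have hp := integral_prod_branches (K := K) (t := t) hT hd hθ0 hθ1 hD hR.mem hFb
            (chd G x y) (fun c hc => by
              have h1 := ((mem_chd hd).1 hc).1
              have hRc : Rch G c (n + m + L + 1) D := hR.step hT h1 (by omega)
              refine ⟨h1, hRc.mem, ?_, ?_⟩ <;> rw [hFe c hc]
              · intro ω ω' he
                simp only [dep_Zs (K := K) (t := t) hT hd hθ0 hθ1 D (n + m) y c h1 ω ω' he]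
              · intro ω
                simp only [even_Zs (K := K) (t := t) hT hd hθ0 hθ1 D (n + m) y c h1
                  (hRc.mono (by omega)) ω])
          calc _ = ∫ ω, (∏ c ∈ chd G x y, F c ω) * Zw G θ K t D ω ∂PU _ := by
                refine integral_congr_ae (ae_of_all _ (fun ω => ?_))
                simp only
                rw [Finset.prod_congr rfl (fun c hc => congrFun (hFe c hc) ω)]
            _ = _ := hp
            _ = _ := Finset.prod_congr rfl (fun c hc => by rw [hFe c hc])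
      _ ≤ ∏ _c ∈ chd G x y, Real.exp ((Real.exp (l / q / (q : ℝ) ^ m) - 1) * ((q : ℝ) ^ m * r ^ n)) := by
          refine Finset.prod_le_prod (fun c _ => integral_nonneg (fun ω =>
            mul_nonneg (Real.exp_pos _).le (Zw_pos hθ0 hθ1 D ω).le)) (fun c hc => ?_)
          have h1 := ((mem_chd hd).1 hc).1
          exact ih y c h1 (hR.step hT h1 (by omega)) _ hl'
      _ = _ := by
          rw [Finset.prod_const, card_chd hd ha, ← Real.exp_nat_mul, pow_succ, div_div,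
            mul_comm ((q : ℝ) ^ m) (q : ℝ)]
          congr 1
          ring

/-- the exponential moment at the scale of the mean -/
lemma integral_exp_Zs_scale {D : Finset V} (hD : Geo G D) (hr0 : 0 < r) (hrq : 1 ≤ r * q)
    (N : ℕ) {x y : V} (ha : G.Adj x y) (hR : Rch G y (N + L + 1) D) :
    ∫ ω, Real.exp (Zs G θ K t D N x y ω / r ^ (N / 2)) * Zw G θ K t D ω ∂PU _ ≤ Real.exp 2 := by
  set n := N / 2 with hn
  obtain ⟨m, hm, hnm⟩ : ∃ m, n + m = N ∧ n ≤ m := ⟨N - n, by omega, by omega⟩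
  have hμ : 0 < r ^ n := pow_pos hr0 n
  have h := integral_exp_Zs hT hd hθ0 hθ1 hK hq hq2 L hδ hVpos hr hD n hr0.le m x y ha
    (hR.mono (by omega)) (1 / r ^ n) (by positivity)
  rw [hm] at h
  have e : ∀ z : ℝ, 1 / r ^ n * z = z / r ^ n := fun z => by ring
  simp only [e] at h
  refine h.trans (Real.exp_le_exp.2 ?_)
  have hq1 : (1:ℝ) ≤ q := by exact_mod_cast (by omega : 1 ≤ q)
  have hP : 1 ≤ (q : ℝ) ^ m * r ^ n := by
    calc (1:ℝ) ≤ (r * q) ^ n := one_le_pow₀ hrq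
      _ = (q : ℝ) ^ n * r ^ n := by rw [mul_pow]; ring
      _ ≤ _ := mul_le_mul_of_nonneg_right (pow_le_pow_right₀ hq1 hnm) hμ.le
  set P := (q : ℝ) ^ m * r ^ n with hPdef
  have hu : 1 / r ^ n / (q : ℝ) ^ m = 1 / P := by rw [hPdef, div_div, mul_comm]
  rw [hu]
  set u := 1 / P with hu'
  have hu1 : u ≤ 1 := by rw [hu', div_le_one (by linarith)]; exact hP
  have hu0 : 0 ≤ u := by positivity
  have hexp : Real.exp u - 1 ≤ 2 * u := by
    have := Real.abs_exp_sub_one_le (x := u) (by rwa [abs_of_nonneg hu0])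
    rw [abs_of_nonneg hu0] at this
    linarith [(abs_le.1 this).2]
  calc (Real.exp u - 1) * P ≤ 2 * u * P := mul_le_mul_of_nonneg_right hexp (by linarith)
    _ = 2 := by rw [hu']; field_simp

end rate

end

end Vale.Agent.P161.Crit
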