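import Mathlib
import Vale.Agent.P161.Crit.Decay
import Vale.Agent.P161.Crit.Algebra

/-!
Influences inside a finite volume at a fixed time, and their dependence on the local means.
-/

open MeasureTheory Set Function
open scoped Classical

noncomputable section

namespace Vale.Agent.P161.Crit

variable {V : Type*} {G : SimpleGraph V} {θ : ℝ} {K : ℕ} {t : ℝ}

/-- lower bound on `1 - m²` for `θ ≤ θ1` and horizon `K` -/
def kapK (q K : ℕ) (θ1 : ℝ) : ℝ := 2 / (1 + (5 / 3) ^ K * ((1 + θ1) / (1 - θ1)) ^ (q + 1))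

/-- influence of `x` on `u` at time `t` -/
def bw (G : SimpleGraph V) (θ : ℝ) (K : ℕ) (t : ℝ) (D : Finset V) (x u : V) (ω : Om V) : ℝ :=
  bf G θ D (fld K t ω) x u

/-- minus the logarithm of the normalised influence along an edge -/
def phi (G : SimpleGraph V) (θ : ℝ) (K : ℕ) (t : ℝ) (D : Finset V) (x y : V) (ω : Om V) : ℝ :=
  - Real.log (wv G θ K t D x y ω)

lemma kapK_pos {θ1 : ℝ} (h0 : 0 ≤ θ1) (h1 : θ1 < 1) (q K : ℕ) : 0 < kapK q K θ1 := by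
  have : 0 < 1 - θ1 := by linarith
  unfold kapK
  positivity

lemma kapK_le_one {θ1 : ℝ} (h0 : 0 ≤ θ1) (h1 : θ1 < 1) (q K : ℕ) : kapK q K θ1 ≤ 1 := by
  unfold kapK
  have e1 : (1:ℝ) ≤ ((1 + θ1) / (1 - θ1)) ^ (q + 1) :=
    one_le_pow₀ (by rw [le_div_iff₀ (by linarith)]; linarith)
  have e2 : (1:ℝ) ≤ (5 / 3) ^ K := one_le_pow₀ (by norm_num)
  have := one_le_mul_of_one_le_of_one_le e2 e1
  rw [div_le_one (by linarith)]
  linarith

section

variable (hT : G.IsTree) {q : ℕ} (hd : ∀ v, (G.neighborSet v).ncard = q + 1)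
  (hθ0 : 0 ≤ θ) {θ1 : ℝ} (hle : θ ≤ θ1) (hθ1 : θ1 < 1)

include hd hθ0 hle hθ1

lemma Xw_flip_bound {A : Finset V} {v : V} (hv : v ∈ A) (ω : Om V) :
    |Xw G θ K t A v ω| ≤ 1 - kapK q K θ1 ∧ kapK q K θ1 ≤ 1 - Xw G θ K t A v ω ^ 2 := by
  have h := abs_mf_le_flip (G := G) hd hθ0 (lt_of_le_of_lt hle hθ1) (fld_pos K t ω) hv
    (R := (5 / 3) ^ K) (fun b b' => fld_ratio K t ω v b b')
  have hp : (1 + θ) / (1 - θ) ≤ (1 + θ1) / (1 - θ1) := by
    rw [div_le_div_iff₀ (by linarith) (by linarith)]; nlinarith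
  have h0 : 0 ≤ (1 + θ) / (1 - θ) := div_nonneg (by linarith) (by linarith)
  have hmono : kapK q K θ1 ≤ 2 / (1 + (5 / 3) ^ K * ((1 + θ) / (1 - θ)) ^ (q + 1)) := by
    unfold kapK
    refine div_le_div_of_nonneg_left (by norm_num) (by positivity) ?_
    gcongr
  have hX : |Xw G θ K t A v ω| ≤ 1 - kapK q K θ1 := h.trans (by linarith)
  refine ⟨hX, ?_⟩
  have hk := kapK_pos (hθ0.trans hle) hθ1 q K
  rw [← sq_abs]
  nlinarith [abs_nonneg (Xw G θ K t A v ω)]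

lemma kapK_le_wv {D : Finset V} {x y : V} (hy : y ∈ side G D y x) (ω : Om V) :
    kapK q K θ1 ≤ wv G θ K t D x y ω := by
  have h := (Xw_flip_bound (K := K) (t := t) hd hθ0 hle hθ1 hy ω).2
  have hθ : θ < 1 := lt_of_le_of_lt hle hθ1
  have hX := abs_Xw_le (G := G) (K := K) (t := t) hθ0 hθ (side G D y x) y ω
  refine h.trans ?_
  unfold wv wX
  rw [le_div_iff₀ (wX_den_pos hθ0 hθ hX)]
  have hk := kapK_pos (hθ0.trans hle) hθ1 q K
  nlinarith [mul_nonneg (show 0 ≤ 1 - Xw G θ K t (side G D y x) y ω ^ 2 by linarith)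
    (mul_nonneg (sq_nonneg θ) (sq_nonneg (Xw G θ K t (side G D y x) y ω)))]

include hT

lemma bw_edge {D : Finset V} {x y : V} (hx : x ∈ D) (hy : y ∈ D) (ha : G.Adj x y) (ω : Om V) :
    bw G θ K t D x y ω = θ * wv G θ K t D x y ω := by
  have hxA := self_mem_side hT hx ha
  have hX := (Xw_flip_bound (K := K) (t := t) hd hθ0 hle hθ1 hxA ω).1
  have hk := kapK_pos (hθ0.trans hle) hθ1 q K
  have hxv : |mf G θ (side G D x y) (fld K t ω) x| < 1 := by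
    change |Xw G θ K t (side G D x y) x ω| < 1
    linarith
  rw [bw, bf_eq hT hθ0 (lt_of_le_of_lt hle hθ1) (fld_pos K t ω) hx hy ha hxv]
  simp only [wv, wX, Xw, mul_div_assoc]

/-- influences multiply: first step first -/
lemma bw_mul {D : Finset V} {x y u : V} (hx : x ∈ D) (hy : y ∈ D) (hu : u ∈ D) (ha : G.Adj x y)
    (hd' : G.dist y u + 1 = G.dist x u) (ω : Om V) :
    bw G θ K t D x u ω = bw G θ K t D x y ω * bw G θ K t D y u ω := by
  have hθ : θ < 1 := lt_of_le_of_lt hle hθ1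
  have hk := kapK_pos (hθ0.trans hle) hθ1 q K
  have hyA := self_mem_side hT hy ha.symm
  have hxv : |mf G θ (side G D y x) (fld K t ω) y| < 1 := by
    have := (Xw_flip_bound (K := K) (t := t) hd hθ0 hle hθ1 hyA ω).1
    change |Xw G θ K t (side G D y x) y ω| < 1
    linarith
  have h := cf_step hT hθ0 hθ (fld_pos K t ω) hu hy hx ha.symm hd' hxv
  have hvx := (Xw_flip_bound (K := K) (t := t) hd hθ0 hle hθ1 hx ω).2
  have hvy := (Xw_flip_bound (K := K) (t := t) hd hθ0 hle hθ1 hy ω).2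
  unfold Xw at hvx hvy
  simp only [bw, bf] at *
  rw [cf_comm (G := G) (θ := θ) D _ x u, h, cf_comm (G := G) (θ := θ) D _ u y,
    cf_comm (G := G) (θ := θ) D _ y x]
  have e1 : 1 - mf G θ D (fld K t ω) x ^ 2 ≠ 0 := by linarith
  have e2 : 1 - mf G θ D (fld K t ω) y ^ 2 ≠ 0 := by linarith
  field_simp

omit hθ0 hle hθ1 in
lemma bw_self {D : Finset V} {x : V} (hθ0 : 0 ≤ θ) (hle : θ ≤ θ1) (hθ1 : θ1 < 1) (hx : x ∈ D)
    (ω : Om V) : bw G θ K t D x x ω = 1 := by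
  have hg : gf G θ D (fld K t ω) x x = 1 := by
    unfold gf
    simp only [sp_mul_self, mul_one]
    exact div_self (Zf_pos (G := G) hθ0 (lt_of_le_of_lt hle hθ1) (fld_pos K t ω) _).ne'
  have hvx := (Xw_flip_bound (K := K) (t := t) hd hθ0 hle hθ1 hx ω).2
  have hk := kapK_pos (hθ0.trans hle) hθ1 q K
  unfold Xw at hvx
  simp only [bw, bf, cf, hg, ← pow_two]
  exact div_self (by linarith : (0:ℝ) < 1 - mf G θ D (fld K t ω) x ^ 2).ne'

/-- the forward sum is a sum of squared influences -/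
lemma Zs_eq_sum {D : Finset V} : ∀ (n : ℕ) (x y : V), G.Adj x y → x ∈ D → Rch G y n D → ∀ ω : Om V,
    Zs G θ K t D (n + 1) x y ω = (q : ℝ) * ∑ u ∈ fw G n x y, bw G θ K t D x u ω ^ 2 := by
  intro n
  induction n with
  | zero =>
    intro x y ha hx hR ω
    simp only [Zs, fw, Finset.sum_singleton, Finset.sum_const, card_chd hd ha, nsmul_eq_mul,
      mul_one, bw_edge hT hd hθ0 hle hθ1 hx hR.mem ha]
    ring
  | succ n ih =>
    intro x y ha hx hR ω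
    rw [fw, Finset.sum_biUnion (fw_pairwise hT hd n)]
    show θ ^ 2 * wv G θ K t D x y ω ^ 2 * ∑ c ∈ chd G x y, Zs G θ K t D (n + 1) y c ω = _
    rw [Finset.mul_sum, Finset.mul_sum]
    refine Finset.sum_congr rfl (fun c hc => ?_)
    have h1 := ((mem_chd hd).1 hc).1
    rw [ih y c h1 hR.mem (hR.step hT h1 (by omega)) ω, Finset.mul_sum, Finset.mul_sum, Finset.mul_sum]
    refine Finset.sum_congr rfl (fun u hu => ?_)
    obtain ⟨a1, a2⟩ := (fw_dist hT hd n y c h1 u).1 hu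
    have hus : u ∈ fw G (n + 1) x y := by
      rw [fw, Finset.mem_biUnion]; exact ⟨c, hc, hu⟩
    obtain ⟨b1, b2⟩ := (fw_dist hT hd (n + 1) x y ha u).1 hus
    rw [bw_mul hT hd hθ0 hle hθ1 hx hR.mem (hR u b1.le) ha (by omega) ω,
      bw_edge hT hd hθ0 hle hθ1 hx hR.mem ha]
    ring

omit hT in
lemma bw_reverse {D : Finset V} {x u : V} (hx : x ∈ D) (hu : u ∈ D) (ω : Om V) :
    kapK q K θ1 * |bw G θ K t D x u ω| ≤ |bw G θ K t D u x ω| := by
  have hθ : θ < 1 := lt_of_le_of_lt hle hθ1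
  have hk := kapK_pos (hθ0.trans hle) hθ1 q K
  have hvx := (Xw_flip_bound (K := K) (t := t) hd hθ0 hle hθ1 hx ω).2
  have hvu := (Xw_flip_bound (K := K) (t := t) hd hθ0 hle hθ1 hu ω).2
  unfold Xw at hvx hvu
  simp only [bw, bf, cf_comm (G := G) (θ := θ) D _ u x, abs_div]
  have p1 : 0 < 1 - mf G θ D (fld K t ω) x ^ 2 := by linarith
  have p2 : 0 < 1 - mf G θ D (fld K t ω) u ^ 2 := by linarith
  rw [abs_of_pos p1, abs_of_pos p2, ← mul_div_assoc, div_le_div_iff₀ p1 p2]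
  have h1 : 1 - mf G θ D (fld K t ω) u ^ 2 ≤ 1 := by nlinarith
  have h0 := abs_nonneg (cf G θ D (fld K t ω) x u)
  calc kapK q K θ1 * |cf G θ D (fld K t ω) x u| * (1 - mf G θ D (fld K t ω) u ^ 2)
      ≤ kapK q K θ1 * |cf G θ D (fld K t ω) x u| * 1 := by gcongr
    _ = |cf G θ D (fld K t ω) x u| * kapK q K θ1 := by ring
    _ ≤ _ := by gcongr

lemma wv_eq_wfun {D : Finset V} {x y : V} (hθp : 0 < θ) (hx : x ∈ D) (hy : y ∈ D) (ha : G.Adj x y)
    (ω : Om V) : wv G θ K t D x y ω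
      = wfun θ (Xw G θ K t D x ω) (Xw G θ K t D y ω) (gf G θ D (fld K t ω) x y) := by
  have h := bw_edge (K := K) (t := t) hT hd hθ0 hle hθ1 hx hy ha ω
  unfold wfun
  rw [show gf G θ D (fld K t ω) x y - Xw G θ K t D x ω * Xw G θ K t D y ω
    = cf G θ D (fld K t ω) x y from rfl, ← div_div, show cf G θ D (fld K t ω) x y
      / (1 - Xw G θ K t D x ω ^ 2) = bw G θ K t D x y ω from rfl, h]
  field_simp

lemma abs_phi_le {D : Finset V} {x y : V} (hy : y ∈ D) (ha : G.Adj x y) (ω : Om V) :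
    0 ≤ phi G θ K t D x y ω ∧ phi G θ K t D x y ω ≤ 1 / kapK q K θ1 := by
  have hθ : θ < 1 := lt_of_le_of_lt hle hθ1
  have hk := kapK_pos (hθ0.trans hle) hθ1 q K
  have h1 := kapK_le_wv (K := K) (t := t) hd hθ0 hle hθ1 (self_mem_side hT hy ha.symm) ω
  have h2 := (wv_mem (G := G) (K := K) (t := t) hθ0 hθ D x y ω).2
  have hp : 0 < wv G θ K t D x y ω := lt_of_lt_of_le hk h1
  refine ⟨neg_nonneg.2 (Real.log_nonpos hp.le h2), ?_⟩
  have := Real.one_sub_inv_le_log_of_pos hp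
  have h3 : (wv G θ K t D x y ω)⁻¹ ≤ 1 / kapK q K θ1 := by
    rw [one_div]; exact inv_anti₀ hk h1
  unfold phi
  linarith

end

/-- the constant in the Lipschitz bounds for `phi` -/
def lipC (q K : ℕ) (θ0 θ1 : ℝ) : ℝ :=
  ((6 / (1 - θ1) ^ 2 + 1) / (kapK q K θ1 * θ0) + 4 / (kapK q K θ1 * θ0) ^ 2) / kapK q K θ1

lemma lipC_nonneg {θ0 θ1 : ℝ} (h0 : 0 < θ0) (h01 : θ0 ≤ θ1) (h1 : θ1 < 1) (q K : ℕ) :
    0 ≤ lipC q K θ0 θ1 := by
  have hk := kapK_pos (h0.le.trans h01) h1 q K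
  unfold lipC
  positivity

/-- `phi` is Lipschitz in the endpoint means, with a small constant near the origin -/
lemma phi_diff (hT : G.IsTree) {q : ℕ} (hd : ∀ v, (G.neighborSet v).ncard = q + 1)
    {θ0 θ1 θ' : ℝ} (hθ0 : 0 < θ0) (h0 : θ0 ≤ θ) (h1 : θ ≤ θ1) (h0' : θ0 ≤ θ') (h1' : θ' ≤ θ1)
    (hθ1 : θ1 < 1) {t' : ℝ} {D D' : Finset V} {x y : V} (hx : x ∈ D) (hy : y ∈ D) (hx' : x ∈ D')
    (hy' : y ∈ D') (ha : G.Adj x y) (ω ω' : Om V) :
    |phi G θ K t D x y ω - phi G θ' K t' D' x y ω'| ≤ lipC q K θ0 θ1 *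
      ((|Xw G θ K t D x ω - Xw G θ' K t' D' x ω'| + |Xw G θ K t D y ω - Xw G θ' K t' D' y ω'|)
        * (|Xw G θ K t D x ω| + |Xw G θ K t D y ω| + |Xw G θ' K t' D' x ω'| + |Xw G θ' K t' D' y ω'|)
        + |θ - θ'|) := by
  have p : 0 ≤ θ := hθ0.le.trans h0
  have p' : 0 ≤ θ' := hθ0.le.trans h0'
  have hk := kapK_pos (p.trans h1) hθ1 q K
  have l1 := kapK_le_wv (K := K) (t := t) hd p h1 hθ1 (self_mem_side hT hy ha.symm) ω
  have l2 := kapK_le_wv (K := K) (t := t') hd p' h1' hθ1 (self_mem_side hT hy' ha.symm) ω'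
  unfold phi
  rw [neg_sub_neg, abs_sub_comm]
  refine (abs_log_sub_le hk l1 l2).trans ?_
  rw [lipC, div_mul_eq_mul_div]
  refine div_le_div_of_nonneg_right ?_ hk.le
  rw [wv_eq_wfun hT hd p h1 hθ1 (lt_of_lt_of_le hθ0 h0) hx hy ha,
    wv_eq_wfun hT hd p' h1' hθ1 (lt_of_lt_of_le hθ0 h0') hx' hy' ha]
  exact wfun_diff hθ0 h0 h1 h0' h1' hθ1 hk
    (Xw_flip_bound (K := K) (t := t) hd p h1 hθ1 hx ω).2
    (Xw_flip_bound (K := K) (t := t') hd p' h1' hθ1 hx' ω').2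
    (abs_Xw_le p (lt_of_le_of_lt h1 hθ1) _ _ _) (abs_Xw_le p' (lt_of_le_of_lt h1' hθ1) _ _ _)
    (abs_gf_le p (lt_of_le_of_lt h1 hθ1) (fld_pos K t ω) _ _ _)
    (abs_gf_le p' (lt_of_le_of_lt h1' hθ1) (fld_pos K t' ω') _ _ _)
    (edge_quad hT p (lt_of_le_of_lt h1 hθ1) (fld_pos K t ω) hx hy ha)
    (edge_quad hT p' (lt_of_le_of_lt h1' hθ1) (fld_pos K t' ω') hx' hy' ha)

/-- `phi` is quadratically small near the origin -/
lemma phi_small (hT : G.IsTree) {q : ℕ} (hd : ∀ v, (G.neighborSet v).ncard = q + 1)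
    {θ0 θ1 : ℝ} (hθ0 : 0 < θ0) (h0 : θ0 ≤ θ) (h1 : θ ≤ θ1) (hθ1 : θ1 < 1) {D : Finset V} {x y : V}
    (hx : x ∈ D) (hy : y ∈ D) (ha : G.Adj x y) (ω : Om V) :
    phi G θ K t D x y ω ≤ lipC q K θ0 θ1 * (|Xw G θ K t D x ω| + |Xw G θ K t D y ω|) ^ 2 := by
  have p : 0 ≤ θ := hθ0.le.trans h0
  have hk := kapK_pos (p.trans h1) hθ1 q K
  have l1 := kapK_le_wv (K := K) (t := t) hd p h1 hθ1 (self_mem_side hT hy ha.symm) ω
  have h := abs_log_sub_le hk l1 (kapK_le_one (p.trans h1) hθ1 q K)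
  rw [Real.log_one, sub_zero] at h
  refine (neg_le_abs _).trans (h.trans ?_)
  rw [lipC, div_mul_eq_mul_div]
  refine div_le_div_of_nonneg_right ?_ hk.le
  rw [wv_eq_wfun hT hd p h1 hθ1 (lt_of_lt_of_le hθ0 h0) hx hy ha]
  exact wfun_sub_one hθ0 h0 h1 hθ1 hk (Xw_flip_bound (K := K) (t := t) hd p h1 hθ1 hx ω).2
    (abs_Xw_le p (lt_of_le_of_lt h1 hθ1) _ _ _)
    (abs_gf_le p (lt_of_le_of_lt h1 hθ1) (fld_pos K t ω) _ _ _)
    (edge_quad hT p (lt_of_le_of_lt h1 hθ1) (fld_pos K t ω) hx hy ha)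

end Vale.Agent.P161.Crit
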