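import Mathlib
import Vale.Agent.P161.Crit.Sampler

/-!
Posterior means as martingales: pointwise increments and isometries.
-/

open MeasureTheory Set Function
open scoped Classical

noncomputable section

namespace Vale.Agent.P161.Crit

variable {V : Type*} {G : SimpleGraph V} {θ θ' : ℝ} {K : ℕ}

/-- normalised innovation of one observation -/
def psi (s m z : ℝ) : ℝ :=
  eps * s * cc (Qv (eps * (s * m)) z) / (1 + eps * (s * m) * cc (Qv (eps * (s * m)) z))

/-- covariance between `v` and `u` in the state at time `t`, zero outside the volume -/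
def cT (G : SimpleGraph V) (θ : ℝ) (K : ℕ) (D : Finset V) (t : ℝ) (v u : V) (ω : Om V) : ℝ :=
  if u ∈ D then cf G θ D (fld K t (Smp G θ K D ω)) v u else 0

/-- jump of the mean at `v` caused by the observation `i` -/
def inc (G : SimpleGraph V) (θ : ℝ) (K : ℕ) (D : Finset V) (v : V) (i : V × ℕ) (ω : Om V) : ℝ :=
  cT G θ K D (tau ω i) v i.1 ω
    * psi (str (tau ω i)) (mT G θ K D (tau ω i) i.1 ω) (ω (Sum.inr i))

lemma abs_arg {s m : ℝ} (hs : 0 ≤ s ∧ s ≤ 1) (hm : |m| ≤ 1) : |eps * (s * m)| ≤ 1 / 4 := by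
  rw [abs_mul, abs_mul, abs_of_nonneg hs.1]
  unfold eps
  rw [abs_of_nonneg (by norm_num : (0:ℝ) ≤ 1/4)]
  calc 1 / 4 * (s * |m|) ≤ 1 / 4 * (1 * 1) := by gcongr; exact hs.2
    _ = _ := by norm_num

lemma psi_den {s m : ℝ} (hs : 0 ≤ s ∧ s ≤ 1) (hm : |m| ≤ 1) (x : ℝ) :
    3 / 4 ≤ 1 + eps * (s * m) * cc x := by
  have : |eps * (s * m) * cc x| ≤ 1 / 4 := by
    rw [abs_mul]
    calc |eps * (s * m)| * |cc x| ≤ 1 / 4 * 1 :=
          mul_le_mul (abs_arg hs hm) (abs_cc _) (abs_nonneg _) (by norm_num)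
      _ = _ := by norm_num
  linarith [(abs_le.1 this).1]

lemma abs_psi_le {s m : ℝ} (hs : 0 ≤ s ∧ s ≤ 1) (hm : |m| ≤ 1) (z : ℝ) : |psi s m z| ≤ s / 2 := by
  have hd := psi_den hs hm (Qv (eps * (s * m)) z)
  unfold psi
  have hd0 : (0:ℝ) < 1 + eps * (s * m) * cc (Qv (eps * (s * m)) z) := by linarith
  rw [abs_div, abs_of_pos hd0, div_le_iff₀ hd0, abs_mul, abs_mul,
    abs_of_nonneg hs.1]
  unfold eps at *
  rw [abs_of_nonneg (by norm_num : (0:ℝ) ≤ 1/4)]
  calc 1 / 4 * s * |cc (Qv (1 / 4 * (s * m)) z)| ≤ 1 / 4 * s * 1 :=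
        mul_le_mul_of_nonneg_left (abs_cc _) (by linarith [hs.1])
    _ ≤ s / 2 * (3 / 4) := by linarith [hs.1]
    _ ≤ _ := mul_le_mul_of_nonneg_left hd (by linarith [hs.1])

lemma abs_psi_sub_le {s m m' : ℝ} (hs : 0 ≤ s ∧ s ≤ 1) (hm : |m| ≤ 1) (hm' : |m'| ≤ 1) (z : ℝ) :
    |psi s m z - psi s m' z| ≤ s / 2 * |m - m'| := by
  set a := eps * (s * m)
  set a' := eps * (s * m')
  set c := cc (Qv a z)
  set c' := cc (Qv a' z)
  have hd : 3 / 4 ≤ 1 + a * c := psi_den hs hm _
  have hd' : 3 / 4 ≤ 1 + a' * c' := psi_den hs hm' _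
  have hq : |Qv a z - Qv a' z| ≤ |a - a'| / 2 := by
    have := Qv_lip a a' z z
    simpa using this
  have hc : |c - c'| ≤ |a - a'| := by
    rw [show c - c' = 2 * (cl (Qv a z) - cl (Qv a' z)) from cc_sub _ _, abs_mul, abs_two]
    linarith [abs_cl_sub_le (Qv a z) (Qv a' z)]
  have ha : |a - a'| ≤ |m - m'| / 4 := by
    rw [show a - a' = eps * (s * (m - m')) by simp only [a, a']; ring, abs_mul, abs_mul,
      abs_of_nonneg hs.1]
    unfold eps
    rw [abs_of_nonneg (by norm_num : (0:ℝ) ≤ 1/4)]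
    nlinarith [abs_nonneg (m - m'), hs.2]
  have e : psi s m z - psi s m' z
      = eps * s * ((c - c') + c * c' * (a' - a)) / ((1 + a * c) * (1 + a' * c')) := by
    show eps * s * c / (1 + a * c) - eps * s * c' / (1 + a' * c') = _
    rw [div_sub_div _ _ (by linarith) (by linarith)]
    congr 1
    ring
  rw [e, abs_div, abs_of_pos (mul_pos (show (0:ℝ) < 1 + a * c by linarith)
    (show (0:ℝ) < 1 + a' * c' by linarith)), div_le_iff₀ (mul_pos (by linarith) (by linarith)),
    abs_mul, abs_mul, abs_of_nonneg hs.1]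
  have hn : |(c - c') + c * c' * (a' - a)| ≤ |m - m'| / 2 := by
    refine (abs_add_le _ _).trans ?_
    rw [abs_mul, abs_mul, abs_sub_comm a' a]
    have : |c| * |c'| ≤ 1 := mul_le_one₀ (abs_cc _) (abs_nonneg _) (abs_cc _)
    nlinarith [abs_nonneg (a - a')]
  have hp : 9 / 16 ≤ (1 + a * c) * (1 + a' * c') := by
    have := mul_le_mul hd hd' (by norm_num) (by linarith)
    linarith
  unfold eps
  rw [abs_of_nonneg (by norm_num : (0:ℝ) ≤ 1/4)]
  calc 1 / 4 * s * |(c - c') + c * c' * (a' - a)| ≤ 1 / 4 * s * (|m - m'| / 2) :=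
        mul_le_mul_of_nonneg_left hn (by linarith [hs.1])
    _ ≤ s / 2 * |m - m'| * (9 / 16) := by nlinarith [mul_nonneg hs.1 (abs_nonneg (m - m'))]
    _ ≤ _ := mul_le_mul_of_nonneg_left hp (mul_nonneg (by linarith [hs.1]) (abs_nonneg _))

lemma measurable_psi {α : Type*} [MeasurableSpace α] {s m z : α → ℝ} (hs : Measurable s)
    (hm : Measurable m) (hz : Measurable z) : Measurable (fun a => psi (s a) (m a) (z a)) := by
  have ha : Measurable (fun a => eps * (s a * m a)) := measurable_const.mul (hs.mul hm)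
  have hc := measurable_cc.comp (measurable_Qv ha hz)
  exact ((measurable_const.mul hs).mul hc).div (measurable_const.add (ha.mul hc))

/-- the innovation has mean zero -/
lemma integral_psi {s m : ℝ} (hs : 0 ≤ s ∧ s ≤ 1) (hm : |m| ≤ 1) : ∫ z, psi s m z ∂lam = 0 := by
  set a := eps * (s * m) with ha
  have h := integral_Qv (a := a) ((abs_arg hs hm).trans (by norm_num))
    (fun x => eps * s * cc x / (1 + a * cc x))
  refine h.trans ?_
  have e : ∀ x, eps * s * cc x / (1 + a * cc x) * (1 + a * cc x) = eps * s * cc x := fun x =>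
    div_mul_cancel₀ _ (by linarith [psi_den hs hm x] : (0:ℝ) < 1 + a * cc x).ne'
  simp only [e, integral_const_mul, integral_cc, mul_zero]

/-- tilting the field at one vertex -/
lemma mf_tilt (hθ0 : 0 ≤ θ) (hθ1 : θ < 1) {D : Finset V} {h h' : V → Bool → ℝ}
    (hh : ∀ v b, 0 < h v b) {u : V} (hu : u ∈ D) {a : ℝ} (ha : |a| < 1)
    (he : ∀ w ∈ D, w ≠ u → h' w = h w) (hu' : ∀ b, h' u b = h u b * (1 + a * spin b)) (v : V) :
    mf G θ D h' v = mf G θ D h v + cf G θ D h v u * (a / (1 + a * mf G θ D h u)) := by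
  have hp : ∀ η, fprod D h' η = fprod D h η * (1 + a * sp η u) := by
    intro η
    unfold fprod
    rw [← Finset.mul_prod_erase _ _ hu, ← Finset.mul_prod_erase _ (fun w => h w _) hu, hu']
    rw [Finset.prod_congr rfl (fun w hw =>
      congrFun (he w (Finset.mem_of_mem_erase hw) (Finset.ne_of_mem_erase hw)) (decide (w ∈ η)))]
    unfold sp
    ring
  have hZ := Zf_pos (G := G) hθ0 hθ1 hh D
  have hm := abs_mf_le (G := G) hθ0 hθ1 hh D u
  have hden : 0 < 1 + a * mf G θ D h u := by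
    have : |a * mf G θ D h u| ≤ |a| := by
      rw [abs_mul]; exact mul_le_of_le_one_right (abs_nonneg _) hm
    linarith [(abs_le.1 this).1]
  have eZ : Zf G θ D h' = Zf G θ D h * (1 + a * mf G θ D h u) := by
    rw [mul_add, mul_one, mul_left_comm, mf, mul_div_cancel₀ _ hZ.ne', ← EI_const_mul, Zf, Zf, ← EI_add]
    exact EI_congr D (fun η _ => by rw [hp]; ring)
  have eN : EI G θ D (fun η => fprod D h' η * sp η v)
      = Zf G θ D h * (mf G θ D h v + a * gf G θ D h v u) := by
    rw [mul_add, mf, mul_div_cancel₀ _ hZ.ne', mul_left_comm, gf, mul_div_cancel₀ _ hZ.ne',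
      ← EI_const_mul, ← EI_add]
    exact EI_congr D (fun η _ => by rw [hp]; ring)
  rw [mf, eN, eZ, mul_div_mul_left _ _ hZ.ne', cf]
  field_simp
  ring

lemma mf_trivial (hT : G.IsTree) {D : Finset V} (hD : Geo G D) {h : V → Bool → ℝ} {v : V}
    (hv : v ∈ D) (he : ∀ w ∈ D, h w = fun _ => 1) : mf G θ D h v = 0 := by
  have hp : ∀ η, fprod D h η = 1 := fun η => Finset.prod_eq_one (fun w hw => by rw [he w hw])
  have h1 : EI G θ D (fun η => fprod D h η * sp η v) = 0 := by
    rw [EI_congr D (fun η _ => by rw [hp, one_mul]),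
      EI_consistent hT _ {v} D rfl (by simpa using hv) (geo_singleton v) hD
        (Finset.singleton_nonempty v) _ (Loc.sp (Finset.mem_singleton_self v)), EI_singleton]
    simp [sp_eq]
  rw [mf, h1, zero_div]

section path

variable (hT : G.IsTree) (hθ0 : 0 ≤ θ) (hθ1 : θ < 1)

include hθ0 hθ1

lemma abs_mT_le (D : Finset V) (t : ℝ) (v : V) (ω : Om V) : |mT G θ K D t v ω| ≤ 1 :=
  abs_Xw_le hθ0 hθ1 D v _

lemma bm_cT (hT : G.IsTree) {D : Finset V} (hD : Geo G D) {v : V} (hv : v ∈ D) (t : ℝ) (u : V) :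
    BM (cT G θ K D t v u) := by
  by_cases hu : u ∈ D
  · rw [show cT G θ K D t v u = fun ω => cf G θ D (fld K t (Smp G θ K D ω)) v u from
      funext (fun ω => if_pos hu)]
    refine ⟨?_, 1, fun ω => (abs_cf_le hθ0 hθ1 (fld_pos K t _) hT hD hv hu).trans
      (pow_le_one₀ hθ0 hθ1.le)⟩
    have hm : ∀ η, Measurable (fun ω : Om V => fprod D (fld K t (Smp G θ K D ω)) η) := fun η =>
      ((bm_fprod K t D η).comp (measurable_Smp D)).1
    have hg : Measurable (fun ω : Om V => gf G θ D (fld K t (Smp G θ K D ω)) v u) :=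
      (Finset.measurable_sum _ (fun η _ => measurable_const.mul ((hm η).mul measurable_const))).div
        (Finset.measurable_sum _ (fun η _ => measurable_const.mul (hm η)))
    exact hg.sub ((bm_mT (K := K) hθ0 hθ1 D t v).1.mul (bm_mT (K := K) hθ0 hθ1 D t u).1)
  · rw [show cT G θ K D t v u = fun _ => (0:ℝ) from funext (fun ω => if_neg hu)]
    exact BM.const 0

lemma measurable_cT (D : Finset V) (v u : V) :
    Measurable (fun p : ℝ × Om V => cT G θ K D p.1 v u p.2) := by
  by_cases hu : u ∈ D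
  · simp only [cT, if_pos hu]
    have hm : ∀ η, Measurable (fun p : ℝ × Om V => fprod D (fld K p.1 (Smp G θ K D p.2)) η) := fun η =>
      Finset.measurable_prod _ (fun w _ => (measurable_fld K w _).comp
        (measurable_fst.prodMk ((measurable_Smp D).comp measurable_snd)))
    have hg : Measurable (fun p : ℝ × Om V => gf G θ D (fld K p.1 (Smp G θ K D p.2)) v u) :=
      (Finset.measurable_sum _ (fun η _ => measurable_const.mul ((hm η).mul measurable_const))).div
        (Finset.measurable_sum _ (fun η _ => measurable_const.mul (hm η)))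
    exact hg.sub ((measurable_mT D v).mul (measurable_mT D u))
  · simp only [cT, if_neg hu]
    exact measurable_const

omit hθ0 hθ1 in
lemma measurable_at_tau (i : V × ℕ) (F : ℝ → Om V → ℝ)
    (hF : Measurable (fun p : ℝ × Om V => F p.1 p.2)) : Measurable (fun ω : Om V => F (tau ω i) ω) := by
  have h := hF.comp ((measurable_tau i).prodMk (measurable_id (α := Om V)))
  exact h

lemma measurable_inc (D : Finset V) (v : V) (i : V × ℕ) : Measurable (inc G θ K D v i) := by
  have h1 : Measurable (fun ω : Om V => cT G θ K D (tau ω i) v i.1 ω) :=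
    measurable_at_tau i (fun r ω => cT G θ K D r v i.1 ω) (measurable_cT hθ0 hθ1 D v i.1)
  have h2 : Measurable (fun ω : Om V => mT G θ K D (tau ω i) i.1 ω) :=
    measurable_at_tau i (fun r ω => mT G θ K D r i.1 ω) (measurable_mT D i.1)
  exact h1.mul (measurable_psi (measurable_str.comp (measurable_tau i)) h2 (measurable_pi_apply _))

lemma abs_inc_le (hT : G.IsTree) {D : Finset V} (hD : Geo G D) {v : V} (hv : v ∈ D) (i : V × ℕ)
    (ω : Om V) : |inc G θ K D v i ω| ≤ str (tau ω i) / 2 := by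
  have hs := str_mem (tim_nonneg i.2 (ω (Sum.inl i)))
  unfold inc
  rw [abs_mul]
  refine (mul_le_of_le_one_left (abs_nonneg _) ?_).trans
    (abs_psi_le hs (abs_mT_le hθ0 hθ1 D _ _ ω) _)
  unfold cT
  split_ifs with hu
  · exact (abs_cf_le hθ0 hθ1 (fld_pos K _ _) hT hD hv hu).trans (pow_le_one₀ hθ0 hθ1.le)
  · simp

lemma bm_inc (hT : G.IsTree) {D : Finset V} (hD : Geo G D) {v : V} (hv : v ∈ D) (i : V × ℕ) :
    BM (inc G θ K D v i) :=
  ⟨measurable_inc hθ0 hθ1 D v i, 1, fun ω => (abs_inc_le hθ0 hθ1 hT hD hv i ω).trans (by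
    have h : str (tau ω i) ≤ 1 := (str_mem (tim_nonneg i.2 (ω (Sum.inl i)))).2
    linarith)⟩

/-- one observation at a time -/
lemma mT_step {D I : Finset V} (hDI : D ⊆ I) {ω : Om V} (hω : Distinct ω) {t : ℝ} {j : V × ℕ}
    (hj : j ∈ box K I) (hjt : tau ω j < t) (hmax : ∀ i ∈ box K I, tau ω i < t → tau ω i ≤ tau ω j)
    (v : V) : mT G θ K D t v ω = mT G θ K D (tau ω j) v ω + inc G θ K D v j ω := by
  set ξ := Smp G θ K D ω with hξ
  have hrest : ∀ w ∈ D, ∀ k < K, (w, k) ≠ j → ∀ b,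
      fac t ξ (w, k) b = fac (tau ω j) ξ (w, k) b := by
    intro w hw k hk hne b
    have hb : (w, k) ∈ box K I := mem_box.2 ⟨hDI hw, hk⟩
    have : tau ξ (w, k) = tau ω (w, k) := rfl
    simp only [fac, this]
    by_cases c : tau ω (w, k) < t
    · have : tau ω (w, k) < tau ω j := lt_of_le_of_ne (hmax _ hb c) (fun e => hne (hω e))
      simp [c, this]
    · have : ¬ tau ω (w, k) < tau ω j := fun h => c (h.trans hjt)
      simp [c, this]
  have hoth : ∀ w ∈ D, w ≠ j.1 → fld K t ξ w = fld K (tau ω j) ξ w := by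
    intro w hw hne
    funext b
    exact Finset.prod_congr rfl (fun k hk => hrest w hw k (Finset.mem_range.1 hk)
      (fun e => hne (congrArg Prod.fst e)) b)
  by_cases hu : j.1 ∈ D
  · have hjb : j ∈ box K D := mem_box.2 ⟨hu, (mem_box.1 hj).2⟩
    set a := eps * str (tau ω j) * cc (ξ (Sum.inr j)) with ha
    have hs := str_mem (tim_nonneg j.2 (ω (Sum.inl j)))
    have ha1 : |a| < 1 := by
      have := abs_eps_str (tim_nonneg j.2 (ω (Sum.inl j))) (abs_cc (ξ (Sum.inr j)))
      calc |a| ≤ 1 / 4 := this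
        _ < 1 := by norm_num
    have hu' : ∀ b, fld K t ξ j.1 b = fld K (tau ω j) ξ j.1 b * (1 + a * spin b) := by
      intro b
      unfold fld
      rw [← Finset.mul_prod_erase _ _ (Finset.mem_range.2 (mem_box.1 hj).2),
        ← Finset.mul_prod_erase _ (fun k => fac (tau ω j) ξ (j.1, k) b)
          (Finset.mem_range.2 (mem_box.1 hj).2)]
      rw [Finset.prod_congr rfl (fun k hk => hrest j.1 hu k
        (Finset.mem_range.1 (Finset.mem_of_mem_erase hk))
        (fun e => Finset.ne_of_mem_erase hk (congrArg Prod.snd e)) b)]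
      have e1 : fac t ξ (j.1, j.2) b = 1 + a * spin b := by
        show fac t ξ j b = _
        have : tau ξ j = tau ω j := rfl
        simp only [fac, this, hjt, if_true, ha]
        ring
      have e2 : fac (tau ω j) ξ (j.1, j.2) b = 1 := by
        show fac (tau ω j) ξ j b = _
        have : tau ξ j = tau ω j := rfl
        simp only [fac, this, lt_irrefl, if_false]
      rw [e1, e2]
      ring
    have h := mf_tilt (G := G) hθ0 hθ1 (fld_pos K (tau ω j) ξ) hu ha1 hoth hu' v
    refine h.trans ?_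
    unfold inc cT psi
    rw [if_pos hu]
    congr 2
    rw [← Smp_fixed D ω hjb, ← hξ]
    simp only [mT, Xw, ha, ← hξ]
    ring
  · have e : inc G θ K D v j ω = 0 := by simp [inc, cT, hu]
    rw [e, add_zero]
    exact (fprod_congr_field (θ := θ) D (fun w hw => hoth w hw (fun c => hu (c ▸ hw)))).2 v

include hT in
lemma mT_initial {D I : Finset V} (hD : Geo G D) (hDI : D ⊆ I) {v : V} (hv : v ∈ D) {ω : Om V}
    {t : ℝ} (h : ∀ i ∈ box K I, t ≤ tau ω i) : mT G θ K D t v ω = 0 := by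
  refine mf_trivial hT hD hv (fun w hw => funext (fun b => Finset.prod_eq_one (fun k hk => ?_)))
  have := h (w, k) (mem_box.2 ⟨hDI hw, Finset.mem_range.1 hk⟩)
  have e : tau (Smp G θ K D ω) (w, k) = tau ω (w, k) := rfl
  simp [fac, e, not_lt.2 this]

end path

/-- telescoping of any function of two posterior means -/
lemma telescope (hT : G.IsTree) (hθ0 : 0 ≤ θ) (hθ1 : θ < 1) (hθ0' : 0 ≤ θ') (hθ1' : θ' < 1)
    {D D' I : Finset V} (hD : Geo G D) (hD' : Geo G D') (hDI : D ⊆ I) (hDI' : D' ⊆ I) {v : V}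
    (hv : v ∈ D) (hv' : v ∈ D') (f : ℝ → ℝ → ℝ) {ω : Om V} (hω : Distinct ω) (t : ℝ) :
    f (mT G θ K D t v ω) (mT G θ' K D' t v ω) = f 0 0
      + ∑ i ∈ (box K I).filter (fun i => tau ω i < t),
          (f (mT G θ K D (tau ω i) v ω + inc G θ K D v i ω)
              (mT G θ' K D' (tau ω i) v ω + inc G θ' K D' v i ω)
            - f (mT G θ K D (tau ω i) v ω) (mT G θ' K D' (tau ω i) v ω)) := by
  suffices key : ∀ (n : ℕ) (t : ℝ), ((box K I).filter (fun i => tau ω i < t)).card = n →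
      f (mT G θ K D t v ω) (mT G θ' K D' t v ω) = f 0 0
      + ∑ i ∈ (box K I).filter (fun i => tau ω i < t),
          (f (mT G θ K D (tau ω i) v ω + inc G θ K D v i ω)
              (mT G θ' K D' (tau ω i) v ω + inc G θ' K D' v i ω)
            - f (mT G θ K D (tau ω i) v ω) (mT G θ' K D' (tau ω i) v ω)) from key _ t rfl
  intro n
  induction n using Nat.strong_induction_on with
  | _ n ih =>
    intro t hn
    set S := (box K I).filter (fun i => tau ω i < t) with hS
    rcases S.eq_empty_or_nonempty with he | hne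
    · have h : ∀ i ∈ box K I, t ≤ tau ω i := fun i hi => not_lt.1 (fun c => by
        have : i ∈ S := Finset.mem_filter.2 ⟨hi, c⟩
        rw [he] at this
        exact absurd this (Finset.notMem_empty i))
      rw [he, Finset.sum_empty, add_zero, mT_initial hT hθ0 hθ1 hD hDI hv h,
        mT_initial hT hθ0' hθ1' hD' hDI' hv' h]
    · obtain ⟨j, hj, hmax⟩ := S.exists_max_image (fun i => tau ω i) hne
      obtain ⟨hjI, hjt⟩ := Finset.mem_filter.1 hj
      have hmax' : ∀ i ∈ box K I, tau ω i < t → tau ω i ≤ tau ω j := fun i hi ht =>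
        hmax i (Finset.mem_filter.2 ⟨hi, ht⟩)
      have hSe : (box K I).filter (fun i => tau ω i < tau ω j) = S.erase j := by
        ext i
        rw [Finset.mem_erase, hS, Finset.mem_filter, Finset.mem_filter]
        constructor
        · rintro ⟨h1, h2⟩
          exact ⟨fun e => lt_irrefl _ (e ▸ h2), h1, h2.trans hjt⟩
        · rintro ⟨h1, h2, h3⟩
          exact ⟨h2, lt_of_le_of_ne (hmax' i h2 h3) (fun e => h1 (hω e))⟩
      have h1 := ih (S.erase j).card (by rw [← hn]; exact Finset.card_erase_lt_of_mem hj)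
        (tau ω j) (by rw [hSe])
      rw [hSe] at h1
      rw [mT_step hθ0 hθ1 hDI hω hjI hjt hmax' v, mT_step hθ0' hθ1' hDI' hω hjI hjt hmax' v,
        ← Finset.add_sum_erase S _ hj]
      linarith

/-- quantities at the revelation time of an observation do not see its sampling variable -/
lemma indep_own (D : Finset V) (i : V × ℕ) (ω : Om V) (y : ℝ) {s : ℝ} (hs : s ≤ tau ω i) :
    tau (upd ω (Sum.inr i) y) i = tau ω i ∧
    (∀ w, mT G θ K D s w (upd ω (Sum.inr i) y) = mT G θ K D s w ω) ∧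
    (∀ v u, cT G θ K D s v u (upd ω (Sum.inr i) y) = cT G θ K D s v u ω) := by
  have ht : ∀ l, tau (upd ω (Sum.inr i) y) l = tau ω l := fun l =>
    congrArg (tim l.2) (upd_ne (by simp) _ _)
  have hf := (Smp_congr (G := G) (θ := θ) (K := K) (D := D) (ω := ω) (ω' := upd ω (Sum.inr i) y)
    (t := s) (fun l _ => by
      by_cases hl : l = i
      · subst hl; exact Or.inl ⟨hs, (ht l).symm ▸ hs⟩
      · exact Or.inr ⟨upd_ne (by simp) _ _, upd_ne (by simpa using hl) _ _⟩)).2
  have hz := fprod_congr_field (G := G) (θ := θ) D hf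
  refine ⟨ht i, fun w => hz.2 w, fun v u => ?_⟩
  unfold cT
  split_ifs with hu
  · have hg : gf G θ D (fld K s (Smp G θ K D (upd ω (Sum.inr i) y))) v u
        = gf G θ D (fld K s (Smp G θ K D ω)) v u := by
      unfold gf
      rw [hz.1]
      congr 1
      refine EI_congr D (fun η _ => ?_)
      unfold fprod
      rw [Finset.prod_congr rfl (fun w hw => by rw [hf w hw])]
    unfold cf
    rw [hg, hz.2 v, hz.2 u]
  · rfl

section isometry

variable [Countable V] (hT : G.IsTree) (hθ0 : 0 ≤ θ) (hθ1 : θ < 1) (hθ0' : 0 ≤ θ') (hθ1' : θ' < 1)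

omit [Countable V] in
lemma bm_if_tau (t : ℝ) (i : V × ℕ) {f : Om V → ℝ} (hf : BM f) :
    BM (fun ω : Om V => if tau ω i < t then f ω else 0) := by
  obtain ⟨C, hC⟩ := hf.2
  refine ⟨Measurable.ite (measurableSet_lt (measurable_tau i) measurable_const) hf.1 measurable_const,
    C, fun ω => ?_⟩
  dsimp only
  split_ifs
  · exact hC ω
  · simpa using (abs_nonneg _).trans (hC ω)

omit [Countable V] in
lemma bm_at_tau (i : V × ℕ) (f : ℝ → Om V → ℝ) (hf : Measurable (fun p : ℝ × Om V => f p.1 p.2))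
    {C : ℝ} (hC : ∀ s ω, |f s ω| ≤ C) : BM (fun ω : Om V => f (tau ω i) ω) :=
  ⟨measurable_at_tau i f hf, C, fun ω => hC _ ω⟩

omit [Countable V] in
/-- an innovation is orthogonal to what was known before -/
lemma integral_inc_mul (hT : G.IsTree) (hθ0 : 0 ≤ θ) (hθ1 : θ < 1) {D : Finset V} (hD : Geo G D)
    {v : V} (hv : v ∈ D) (i : V × ℕ) {k : Om V → ℝ} (hk : BM k)
    (hki : ∀ ω y, k (upd ω (Sum.inr i) y) = k ω) :
    ∫ ω, k ω * inc G θ K D v i ω ∂PU _ = 0 := by
  rw [integral_upd' (Sum.inr i) (hk.mul (bm_inc hθ0 hθ1 hT hD hv i))]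
  refine integral_eq_zero_of_ae (ae_of_all _ (fun ω => ?_))
  simp only [hki, inc]
  have e : ∀ y, cT G θ K D (tau (upd ω (Sum.inr i) y) i) v i.1 (upd ω (Sum.inr i) y)
        * psi (str (tau (upd ω (Sum.inr i) y) i))
          (mT G θ K D (tau (upd ω (Sum.inr i) y) i) i.1 (upd ω (Sum.inr i) y))
          (upd ω (Sum.inr i) y (Sum.inr i))
      = cT G θ K D (tau ω i) v i.1 ω
        * psi (str (tau ω i)) (mT G θ K D (tau ω i) i.1 ω) y := fun y => by
    obtain ⟨a, b, c⟩ := indep_own (G := G) (θ := θ) (K := K) D i ω y (le_refl (tau ω i))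
    rw [a, b, c, upd_self]
  simp only [e, integral_const_mul,
    integral_psi (str_mem (tim_nonneg i.2 (ω (Sum.inl i)))) (abs_mT_le (K := K) hθ0 hθ1 D _ _ ω),
    show tau ω i = tim i.2 (ω (Sum.inl i)) from rfl, mul_zero, Pi.zero_apply]

/-- source of discrepancy between two processes -/
def gap (G : SimpleGraph V) (θ θ' : ℝ) (K : ℕ) (D D' : Finset V) (t : ℝ) (v u : V) (ω : Om V) : ℝ :=
  (cT G θ K D t v u ω - cT G θ' K D' t v u ω) ^ 2
    + cT G θ' K D' t v u ω ^ 2 * (mT G θ K D t u ω - mT G θ' K D' t u ω) ^ 2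

omit [Countable V] in
lemma gap_nonneg (D D' : Finset V) (t : ℝ) (v u : V) (ω : Om V) : 0 ≤ gap G θ θ' K D D' t v u ω := by
  unfold gap; positivity

include hT hθ0 hθ1 hθ0' hθ1'

omit [Countable V] in
lemma abs_gap_le {D D' : Finset V} (hD : Geo G D) (hD' : Geo G D') {v : V} (hv : v ∈ D)
    (hv' : v ∈ D') (t : ℝ) (u : V) (ω : Om V) : gap G θ θ' K D D' t v u ω ≤ 8 := by
  have a1 : |cT G θ K D t v u ω| ≤ 1 := by
    unfold cT; split_ifs with hu
    · exact (abs_cf_le hθ0 hθ1 (fld_pos K _ _) hT hD hv hu).trans (pow_le_one₀ hθ0 hθ1.le)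
    · simp
  have a2 : |cT G θ' K D' t v u ω| ≤ 1 := by
    unfold cT; split_ifs with hu
    · exact (abs_cf_le hθ0' hθ1' (fld_pos K _ _) hT hD' hv' hu).trans (pow_le_one₀ hθ0' hθ1'.le)
    · simp
  have a3 := abs_mT_le (G := G) (K := K) hθ0 hθ1 D t u ω
  have a4 := abs_mT_le (G := G) (K := K) hθ0' hθ1' D' t u ω
  obtain ⟨b1, b1'⟩ := abs_le.1 a1
  obtain ⟨b2, b2'⟩ := abs_le.1 a2
  obtain ⟨b3, b3'⟩ := abs_le.1 a3
  obtain ⟨b4, b4'⟩ := abs_le.1 a4
  have h1 : (cT G θ K D t v u ω - cT G θ' K D' t v u ω) ^ 2 ≤ 2 ^ 2 :=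
    sq_le_sq' (by linarith) (by linarith)
  have h2 : (mT G θ K D t u ω - mT G θ' K D' t u ω) ^ 2 ≤ 2 ^ 2 :=
    sq_le_sq' (by linarith) (by linarith)
  have h3 : cT G θ' K D' t v u ω ^ 2 ≤ 1 := (sq_le_one_iff_abs_le_one _).2 a2
  have h4 := mul_le_mul h3 h2 (sq_nonneg _) zero_le_one
  unfold gap
  linarith

/-- the isometry for the difference of two processes -/
lemma isometry_le {D D' I : Finset V} (hD : Geo G D) (hD' : Geo G D') (hDI : D ⊆ I) (hDI' : D' ⊆ I)
    {v : V} (hv : v ∈ D) (hv' : v ∈ D') (t : ℝ) :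
    ∫ ω, (mT G θ K D t v ω - mT G θ' K D' t v ω) ^ 2 ∂PU _
      ≤ ∑ i ∈ box K I, ∫ ω, (if tau ω i < t then
          str (tau ω i) ^ 2 * gap G θ θ' K D D' (tau ω i) v i.1 ω else 0) ∂PU _ := by
  set a : V × ℕ → Om V → ℝ := fun i ω => if tau ω i < t then
    2 * (mT G θ K D (tau ω i) v ω - mT G θ' K D' (tau ω i) v ω) else 0 with ha
  set A : V × ℕ → Om V → ℝ := fun i ω => inc G θ K D v i ω - inc G θ' K D' v i ω with hA
  have bA : ∀ i, BM (A i) := fun i => (bm_inc hθ0 hθ1 hT hD hv i).sub (bm_inc hθ0' hθ1' hT hD' hv' i)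
  have ba : ∀ i, BM (a i) := fun i => bm_if_tau t i ((BM.const 2).mul
    ((bm_at_tau i (fun r ω => mT G θ K D r v ω) (measurable_mT D v) (fun s ω => abs_mT_le hθ0 hθ1 D s v ω)).sub
      (bm_at_tau i (fun r ω => mT G θ' K D' r v ω) (measurable_mT D' v) (fun s ω => abs_mT_le hθ0' hθ1' D' s v ω))))
  have bA2 : ∀ i, BM (fun ω => if tau ω i < t then A i ω ^ 2 else 0) := fun i =>
    bm_if_tau t i (bA i).sq
  have hpt : ∀ᵐ ω ∂PU _, (mT G θ K D t v ω - mT G θ' K D' t v ω) ^ 2
      = ∑ i ∈ box K I, (a i ω * A i ω + if tau ω i < t then A i ω ^ 2 else 0) := by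
    filter_upwards [ae_Distinct (V := V)] with ω hω
    have h := telescope (K := K) hT hθ0 hθ1 hθ0' hθ1' hD hD' hDI hDI' hv hv'
      (fun x y => (x - y) ^ 2) hω t
    simp only [sub_self, ne_eq, OfNat.ofNat_ne_zero, not_false_eq_true, zero_pow, zero_add] at h
    rw [h, Finset.sum_filter]
    refine Finset.sum_congr rfl (fun i _ => ?_)
    simp only [ha, hA]
    by_cases c : tau ω i < t <;> simp [c]
    ring
  rw [integral_congr_ae hpt, integral_finsetSum _ (fun i _ =>
    ((((ba i).mul (bA i)).add (bA2 i)).integrable _))]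
  refine Finset.sum_le_sum (fun i _ => ?_)
  rw [integral_add (((ba i).mul (bA i)).integrable _) ((bA2 i).integrable _)]
  have hai : ∀ ω y, a i (upd ω (Sum.inr i) y) = a i ω := by
    intro ω y
    obtain ⟨e1, e2, -⟩ := indep_own (G := G) (θ := θ) (K := K) D i ω y (le_refl (tau ω i))
    obtain ⟨-, e3, -⟩ := indep_own (G := G) (θ := θ') (K := K) D' i ω y (le_refl (tau ω i))
    simp only [ha, e1, e2, e3]
  have hz : ∫ ω, a i ω * A i ω ∂PU _ = 0 := by
    simp only [hA, mul_sub]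
    rw [integral_sub (((ba i).mul (bm_inc hθ0 hθ1 hT hD hv i)).integrable _)
      (((ba i).mul (bm_inc hθ0' hθ1' hT hD' hv' i)).integrable _),
      integral_inc_mul hT hθ0 hθ1 hD hv i (ba i) hai,
      integral_inc_mul hT hθ0' hθ1' hD' hv' i (ba i) hai, sub_zero]
  rw [hz, zero_add]
  have bG : BM (fun ω : Om V => gap G θ θ' K D D' (tau ω i) v i.1 ω) :=
    bm_at_tau i (fun r ω => gap G θ θ' K D D' r v i.1 ω) (C := 8) ((((measurable_cT hθ0 hθ1 D v i.1).sub (measurable_cT hθ0' hθ1' D' v i.1)).pow_const 2).add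
      (((measurable_cT hθ0' hθ1' D' v i.1).pow_const 2).mul
        (((measurable_mT D i.1).sub (measurable_mT D' i.1)).pow_const 2))) (fun s ω => by
      rw [abs_of_nonneg (gap_nonneg D D' s v i.1 ω)]
      exact abs_gap_le hT hθ0 hθ1 hθ0' hθ1' hD hD' hv hv' s i.1 ω)
  have bS : BM (fun ω : Om V => str (tau ω i) ^ 2) :=
    ⟨(measurable_str.comp (measurable_tau i)).pow_const 2, 1, fun ω => by
      have hs := str_mem (tim_nonneg i.2 (ω (Sum.inl i)))
      rw [abs_pow, show |str (tau ω i)| = str (tau ω i) from abs_of_nonneg hs.1]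
      exact pow_le_one₀ hs.1 hs.2⟩
  refine integral_mono ((bA2 i).integrable _) ((bm_if_tau t i (bS.mul bG)).integrable _) (fun ω => ?_)
  dsimp only
  split_ifs with c
  · have hs := str_mem (tim_nonneg i.2 (ω (Sum.inl i)))
    have hm := abs_mT_le (G := G) (K := K) hθ0 hθ1 D (tau ω i) i.1 ω
    have hm' := abs_mT_le (G := G) (K := K) hθ0' hθ1' D' (tau ω i) i.1 ω
    simp only [hA, inc]
    set s := str (tau ω i)
    set p := psi s (mT G θ K D (tau ω i) i.1 ω) (ω (Sum.inr i))
    set p' := psi s (mT G θ' K D' (tau ω i) i.1 ω) (ω (Sum.inr i))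
    set cP := cT G θ K D (tau ω i) v i.1 ω with hcP
    set cQ := cT G θ' K D' (tau ω i) v i.1 ω with hcQ
    have h1 : p ^ 2 ≤ (s / 2) ^ 2 := by
      rw [← sq_abs]; exact pow_le_pow_left₀ (abs_nonneg _) (abs_psi_le hs hm _) 2
    have h2 : (p - p') ^ 2 ≤ (s / 2 * |mT G θ K D (tau ω i) i.1 ω - mT G θ' K D' (tau ω i) i.1 ω|) ^ 2 := by
      rw [← sq_abs]; exact pow_le_pow_left₀ (abs_nonneg _) (abs_psi_sub_le hs hm hm' _) 2
    rw [mul_pow, sq_abs] at h2
    unfold gap
    rw [← hcP, ← hcQ]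
    have e : cP * p - cQ * p' = (cP - cQ) * p + cQ * (p - p') := by ring
    rw [e]
    have h3 := mul_le_mul_of_nonneg_left h1 (sq_nonneg (cP - cQ))
    have h4 := mul_le_mul_of_nonneg_left h2 (sq_nonneg cQ)
    have h5 : 0 ≤ s ^ 2 * (cP - cQ) ^ 2 := by positivity
    have h6 : 0 ≤ s ^ 2 * cQ ^ 2 * (mT G θ K D (tau ω i) i.1 ω - mT G θ' K D' (tau ω i) i.1 ω) ^ 2 := by
      positivity
    linarith [add_sq_le (a := (cP - cQ) * p) (b := cQ * (p - p')), mul_pow (cP - cQ) p 2,
      mul_pow cQ (p - p') 2]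
  · exact le_rfl

end isometry

section single

variable [Countable V] (hT : G.IsTree) (hθ0 : 0 ≤ θ) (hθ1 : θ < 1)

include hT hθ0 hθ1

omit [Countable V] in
lemma inc_sq_le (D : Finset V) (v : V) (i : V × ℕ) (ω : Om V) :
    inc G θ K D v i ω ^ 2 ≤ str (tau ω i) ^ 2 * cT G θ K D (tau ω i) v i.1 ω ^ 2 := by
  have hs := str_mem (tim_nonneg i.2 (ω (Sum.inl i)))
  have h := abs_psi_le hs (abs_mT_le (G := G) (K := K) hθ0 hθ1 D (tau ω i) i.1 ω) (ω (Sum.inr i))
  unfold inc
  rw [mul_pow, mul_comm]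
  refine mul_le_mul_of_nonneg_right ?_ (sq_nonneg _)
  rw [← sq_abs]
  refine pow_le_pow_left₀ (abs_nonneg _) (h.trans ?_) 2
  show str (tau ω i) / 2 ≤ str (tau ω i)
  have : 0 ≤ str (tau ω i) := hs.1
  linarith

/-- second moment of the change of the mean between two times -/
lemma sq_change_le {D : Finset V} (hD : Geo G D) {v : V} (hv : v ∈ D) {s t : ℝ} (hst : s ≤ t) :
    ∫ ω, (mT G θ K D t v ω - mT G θ K D s v ω) ^ 2 ∂PU _
      ≤ ∑ i ∈ box K D, ∫ ω, (if s ≤ tau ω i ∧ tau ω i < t then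
          str (tau ω i) ^ 2 * cT G θ K D (tau ω i) v i.1 ω ^ 2 else 0) ∂PU _ := by
  set m : ℝ → Om V → ℝ := fun r ω => mT G θ K D r v ω with hm
  set A : V × ℕ → Om V → ℝ := fun i ω => inc G θ K D v i ω with hA
  set P : V × ℕ → Om V → ℝ := fun i ω => if s ≤ tau ω i ∧ tau ω i < t then
    2 * (m (tau ω i) ω - m s ω) else 0 with hP
  have hset : ∀ i, MeasurableSet {ω : Om V | s ≤ tau ω i ∧ tau ω i < t} := fun i =>
    (measurableSet_le measurable_const (measurable_tau i)).inter
      (measurableSet_lt (measurable_tau i) measurable_const)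
  have bite : ∀ i (f : Om V → ℝ), BM f →
      BM (fun ω => if s ≤ tau ω i ∧ tau ω i < t then f ω else 0) := by
    intro i f hf
    obtain ⟨C, hC⟩ := hf.2
    refine ⟨Measurable.ite (hset i) hf.1 measurable_const, C, fun ω => ?_⟩
    dsimp only
    split_ifs
    · exact hC ω
    · simpa using (abs_nonneg _).trans (hC ω)
  have bA : ∀ i, BM (A i) := fun i => bm_inc hθ0 hθ1 hT hD hv i
  have bP : ∀ i, BM (P i) := fun i => bite i _ ((BM.const 2).mul
    ((bm_at_tau i (fun r ω => mT G θ K D r v ω) (measurable_mT D v) (fun r ω => abs_mT_le hθ0 hθ1 D r v ω)).sub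
      (bm_mT hθ0 hθ1 D s v)))
  have hpt : ∀ᵐ ω ∂PU _, (m t ω - m s ω) ^ 2
      = ∑ i ∈ box K D, (P i ω * A i ω + if s ≤ tau ω i ∧ tau ω i < t then A i ω ^ 2 else 0) := by
    filter_upwards [ae_Distinct (V := V)] with ω hω
    have hf := fun r => telescope (K := K) hT hθ0 hθ1 hθ0 hθ1 hD hD (Finset.Subset.refl D)
      (Finset.Subset.refl D) hv hv (fun x _ => (x - m s ω) ^ 2) hω r
    have h1 := hf t
    have h2 := hf s
    simp only [hm, sub_self, ne_eq, OfNat.ofNat_ne_zero, not_false_eq_true, zero_pow] at h1 h2 ⊢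
    rw [h1, Finset.sum_filter]
    rw [Finset.sum_filter] at h2
    have : ∀ i ∈ box K D, (if tau ω i < t then
        (mT G θ K D (tau ω i) v ω + inc G θ K D v i ω - mT G θ K D s v ω) ^ 2
          - (mT G θ K D (tau ω i) v ω - mT G θ K D s v ω) ^ 2 else 0)
        = (if tau ω i < s then
        (mT G θ K D (tau ω i) v ω + inc G θ K D v i ω - mT G θ K D s v ω) ^ 2
          - (mT G θ K D (tau ω i) v ω - mT G θ K D s v ω) ^ 2 else 0)
          + (P i ω * A i ω + if s ≤ tau ω i ∧ tau ω i < t then A i ω ^ 2 else 0) := by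
      intro i _
      simp only [hP, hA, hm]
      by_cases c1 : tau ω i < s
      · simp [c1, c1.trans_le hst, not_le.2 c1]
      · by_cases c2 : tau ω i < t
        · simp [c1, c2, not_lt.1 c1]
          ring
        · simp [c1, c2]
    rw [Finset.sum_congr rfl this, Finset.sum_add_distrib]
    linarith
  rw [integral_congr_ae hpt, integral_finsetSum _ (fun i _ =>
    (((bP i).mul (bA i)).add (bite i _ (bA i).sq)).integrable _)]
  refine Finset.sum_le_sum (fun i _ => ?_)
  rw [integral_add (((bP i).mul (bA i)).integrable _) ((bite i _ (bA i).sq).integrable _)]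
  have hPi : ∀ ω y, P i (upd ω (Sum.inr i) y) = P i ω := by
    intro ω y
    simp only [hP, hm]
    obtain ⟨e1, e2, -⟩ := indep_own (G := G) (θ := θ) (K := K) D i ω y (le_refl (tau ω i))
    rw [e1, e2]
    by_cases c : s ≤ tau ω i
    · rw [(indep_own (G := G) (θ := θ) (K := K) D i ω y c).2.1]
    · simp [c]
  have hz : ∫ ω, P i ω * A i ω ∂PU _ = 0 := integral_inc_mul hT hθ0 hθ1 hD hv i (bP i) hPi
  rw [hz, zero_add]
  refine integral_mono ((bite i _ (bA i).sq).integrable _) ?_ (fun ω => ?_)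
  · refine (bite i _ ?_).integrable _
    refine BM.mul ?_ (BM.sq (bm_at_tau i (fun r ω => cT G θ K D r v i.1 ω) (C := 1) (measurable_cT hθ0 hθ1 D v i.1) (fun r ω => ?_)))
    · exact ⟨(measurable_str.comp (measurable_tau i)).pow_const 2, 1, fun ω => by
        have hs := str_mem (tim_nonneg i.2 (ω (Sum.inl i)))
        rw [abs_pow, show |str (tau ω i)| = str (tau ω i) from abs_of_nonneg hs.1]
        exact pow_le_one₀ hs.1 hs.2⟩
    · unfold cT; split_ifs with hu
      · exact (abs_cf_le hθ0 hθ1 (fld_pos K _ _) hT hD hv hu).trans (pow_le_one₀ hθ0 hθ1.le)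
      · simp
  · dsimp only
    split_ifs
    · exact inc_sq_le hT hθ0 hθ1 D v i ω
    · exact le_rfl

/-- exponential moment increments -/
lemma cosh_le {D : Finset V} (hD : Geo G D) {v : V} (hv : v ∈ D) {l : ℝ} (hl : 0 ≤ l) {t : ℝ}
    (hlt : ∀ r, 0 ≤ r → r < t → l * str r ≤ 1) :
    ∫ ω, Real.cosh (l * mT G θ K D t v ω) ∂PU _
      ≤ 1 + ∑ i ∈ box K D, ∫ ω, (if tau ω i < t then 2 * l ^ 2 * str (tau ω i) ^ 2
          * (Real.cosh (l * mT G θ K D (tau ω i) v ω) * cT G θ K D (tau ω i) v i.1 ω ^ 2)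
          else 0) ∂PU _ := by
  have hb : ∀ r : ℝ, |r| ≤ l → |Real.cosh r| ≤ Real.cosh l := fun r hr => by
    rw [abs_of_pos (Real.cosh_pos r), Real.cosh_le_cosh, abs_of_nonneg hl]; exact hr
  have hml : ∀ r ω, |l * mT G θ K D r v ω| ≤ l := fun r ω => by
    rw [abs_mul, abs_of_nonneg hl]
    exact mul_le_of_le_one_right hl (abs_mT_le hθ0 hθ1 D r v ω)
  set m : V × ℕ → Om V → ℝ := fun i ω => mT G θ K D (tau ω i) v ω with hm
  set A : V × ℕ → Om V → ℝ := fun i ω => inc G θ K D v i ω with hA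
  have bA : ∀ i, BM (A i) := fun i => bm_inc hθ0 hθ1 hT hD hv i
  have bsinh : ∀ i, BM (fun ω => Real.sinh (l * m i ω) * l) := fun i => by
    refine BM.mul ?_ (BM.const l)
    exact ⟨(measurable_const.mul (bm_at_tau i (fun r ω => mT G θ K D r v ω) (measurable_mT D v)
      (fun r ω => abs_mT_le hθ0 hθ1 D r v ω)).1).sinh, Real.cosh l, fun ω => by
      refine le_trans ?_ ((le_abs_self _).trans (hb _ (hml (tau ω i) ω)))
      rw [abs_le]
      constructor <;>
        linarith [Real.sinh_lt_cosh (l * m i ω), Real.sinh_lt_cosh (-(l * m i ω)),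
          Real.sinh_neg (l * m i ω), Real.cosh_neg (l * m i ω)]⟩
  have bc : ∀ i, BM (fun ω => Real.cosh (l * m i ω)) := fun i =>
    ⟨(measurable_const.mul (bm_at_tau i (fun r ω => mT G θ K D r v ω) (measurable_mT D v)
      (fun r ω => abs_mT_le hθ0 hθ1 D r v ω)).1).cosh, Real.cosh l, fun ω => hb _ (hml _ ω)⟩
  have bk : ∀ i, BM (fun ω => if tau ω i < t then Real.sinh (l * m i ω) * l else 0) := fun i =>
    bm_if_tau t i (bsinh i)
  have bq : ∀ i, BM (fun ω => if tau ω i < t then 2 * l ^ 2 * str (tau ω i) ^ 2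
      * (Real.cosh (l * m i ω) * cT G θ K D (tau ω i) v i.1 ω ^ 2) else 0) := fun i => by
    refine bm_if_tau t i ?_
    refine BM.mul (BM.mul (BM.const _) ?_) ((bc i).mul (BM.sq (bm_at_tau i (fun r ω => cT G θ K D r v i.1 ω) (C := 1)
      (measurable_cT hθ0 hθ1 D v i.1) (fun r ω => ?_))))
    · exact ⟨(measurable_str.comp (measurable_tau i)).pow_const 2, 1, fun ω => by
        have hs := str_mem (tim_nonneg i.2 (ω (Sum.inl i)))
        rw [abs_pow, show |str (tau ω i)| = str (tau ω i) from abs_of_nonneg hs.1]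
        exact pow_le_one₀ hs.1 hs.2⟩
    · unfold cT; split_ifs with hu
      · exact (abs_cf_le hθ0 hθ1 (fld_pos K _ _) hT hD hv hu).trans (pow_le_one₀ hθ0 hθ1.le)
      · simp
  have bct : BM (fun ω => Real.cosh (l * mT G θ K D t v ω)) :=
    ⟨(measurable_const.mul (bm_mT hθ0 hθ1 D t v).1).cosh, Real.cosh l, fun ω => hb _ (hml _ ω)⟩
  have bR : BM (fun ω => ∑ i ∈ box K D, ((if tau ω i < t then Real.sinh (l * m i ω) * l else 0) * A i ω
      + if tau ω i < t then 2 * l ^ 2 * str (tau ω i) ^ 2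
        * (Real.cosh (l * m i ω) * cT G θ K D (tau ω i) v i.1 ω ^ 2) else 0)) :=
    BM.sum _ (fun i _ => ((bk i).mul (bA i)).add (bq i))
  have hpt : ∀ᵐ ω ∂PU _, Real.cosh (l * mT G θ K D t v ω)
      ≤ 1 + ∑ i ∈ box K D, ((if tau ω i < t then Real.sinh (l * m i ω) * l else 0) * A i ω
        + if tau ω i < t then 2 * l ^ 2 * str (tau ω i) ^ 2
          * (Real.cosh (l * m i ω) * cT G θ K D (tau ω i) v i.1 ω ^ 2) else 0) := by
    filter_upwards [ae_Distinct (V := V)] with ω hω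
    have h := telescope (K := K) hT hθ0 hθ1 hθ0 hθ1 hD hD (Finset.Subset.refl D)
      (Finset.Subset.refl D) hv hv (fun x _ => Real.cosh (l * x)) hω t
    rw [h, mul_zero, Real.cosh_zero, Finset.sum_filter]
    refine add_le_add_right (Finset.sum_le_sum (fun i _ => ?_)) 1
    by_cases c : tau ω i < t
    · simp only [c, if_true, hm, hA]
      set M := l * mT G θ K D (tau ω i) v ω
      set u := l * inc G θ K D v i ω with hu'
      have hu : |u| ≤ 1 := by
        rw [hu', abs_mul, abs_of_nonneg hl]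
        refine le_trans (mul_le_mul_of_nonneg_left (abs_inc_le hθ0 hθ1 hT hD hv i ω) hl) ?_
        have := hlt (tau ω i) (tim_nonneg _ _) c
        nlinarith [mul_nonneg hl (str_mem (tim_nonneg i.2 (ω (Sum.inl i)))).1]
      rw [mul_add, Real.cosh_add]
      have p1 := Real.abs_exp_sub_one_sub_id_le hu
      have p2 := Real.abs_exp_sub_one_sub_id_le (x := -u) (by rwa [abs_neg])
      rw [neg_sq] at p2
      obtain ⟨p1a, p1b⟩ := abs_le.1 p1
      obtain ⟨p2a, p2b⟩ := abs_le.1 p2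
      have q1 : Real.cosh u - 1 ≤ u ^ 2 := by rw [Real.cosh_eq]; linarith
      have q2 : |Real.sinh u - u| ≤ u ^ 2 := by
        rw [abs_le, Real.sinh_eq]; constructor <;> linarith
      have q3 : |Real.sinh M| ≤ Real.cosh M := by
        rw [abs_le]
        constructor <;>
          linarith [Real.sinh_lt_cosh M, Real.sinh_lt_cosh (-M), Real.sinh_neg M, Real.cosh_neg M]
      have hsq : u ^ 2 ≤ l ^ 2 * (str (tau ω i) ^ 2 * cT G θ K D (tau ω i) v i.1 ω ^ 2) := by
        rw [hu', mul_pow]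
        exact mul_le_mul_of_nonneg_left (inc_sq_le hT hθ0 hθ1 D v i ω) (sq_nonneg _)
      have hcM := (Real.cosh_pos M).le
      have e3 : Real.sinh M * (Real.sinh u - u) ≤ Real.cosh M * u ^ 2 :=
        (le_abs_self _).trans (by rw [abs_mul]; exact mul_le_mul q3 q2 (abs_nonneg _) hcM)
      have e4 : Real.cosh M * (Real.cosh u - 1) ≤ Real.cosh M * u ^ 2 :=
        mul_le_mul_of_nonneg_left q1 hcM
      have e5 := mul_le_mul_of_nonneg_left hsq hcM
      have e6 : Real.sinh M * u = Real.sinh M * l * inc G θ K D v i ω := by rw [hu']; ring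
      linarith
    · simp [c]
  refine (integral_mono_ae (bct.integrable _) (((BM.const 1).add bR).integrable _) hpt).trans
    (le_of_eq ?_)
  rw [integral_add (integrable_const _) (bR.integrable _),
    integral_finsetSum _ (fun i _ => (((bk i).mul (bA i)).add (bq i)).integrable _),
    integral_const, probReal_univ, one_smul]
  congr 1
  refine Finset.sum_congr rfl (fun i _ => ?_)
  rw [integral_add (((bk i).mul (bA i)).integrable _) ((bq i).integrable _)]
  have hki : ∀ ω y, (if tau (upd ω (Sum.inr i) y) i < t then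
        Real.sinh (l * m i (upd ω (Sum.inr i) y)) * l else 0)
      = if tau ω i < t then Real.sinh (l * m i ω) * l else 0 := by
    intro ω y
    obtain ⟨e1, e2, -⟩ := indep_own (G := G) (θ := θ) (K := K) D i ω y (le_refl (tau ω i))
    simp only [hm, e1, e2]
  rw [integral_inc_mul hT hθ0 hθ1 hD hv i (bk i) hki, zero_add]

end single

end Vale.Agent.P161.Crit
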