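import Mathlib
import Vale.Agent.P161.Crit.Increments

/-!
Integrals over revelation times.
-/

open MeasureTheory Set Function Filter
open scoped Classical Topology

noncomputable section

namespace Vale.Agent.P161.Crit

variable {V : Type*}

lemma lam_Ico {a : ℝ} (h0 : 0 ≤ a) (h1 : a ≤ 1) : lam.real (Ico a 1) = 1 - a := by
  unfold lam
  rw [measureReal_restrict_apply measurableSet_Ico, Set.inter_eq_left.2
    (show Ico a 1 ⊆ Icc (0:ℝ) 1 from fun x hx => ⟨h0.trans hx.1, hx.2.le⟩), Real.volume_real_Ico_of_le h1]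

lemma ae_mem_Ico : ∀ᵐ y ∂lam, y ∈ Ico (0:ℝ) 1 := by
  have : NullSingletonClass lam := by unfold lam; infer_instance
  filter_upwards [ae_mem_lam, Countable.ae_notMem (s := ({1} : Set ℝ)) (Set.countable_singleton 1) lam]
    with y hy h1
  exact ⟨hy.1, lt_of_le_of_ne hy.2 h1⟩

lemma tim_ge {s : ℝ} (hs : 0 ≤ s) (k : ℕ) {y : ℝ} (hy : y ∈ Ico (s / (1 + s)) 1) : s ≤ tim k y := by
  have h0 : 0 ≤ y := le_trans (div_nonneg hs (by linarith)) hy.1
  have h1 : 0 < 1 - y := by linarith [hy.2]
  have h2 := hy.1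
  rw [div_le_iff₀ (by linarith)] at h2
  have : s ≤ y / (1 - y) := by rw [le_div_iff₀ h1]; linarith
  unfold tim
  rw [cl_of_mem ⟨h0, hy.2.le⟩]
  linarith [Nat.cast_nonneg (α := ℝ) k]

/-- an observation revealed at time `s` was still hidden at time `s` -/
lemma minus_trick {i : V × ℕ} {t C Cf : ℝ} (ht : 0 ≤ t) {G : ℝ → Om V → ℝ}
    (hG : Measurable (fun p : ℝ × Om V => G p.1 p.2)) (h0 : ∀ s ω, 0 ≤ G s ω)
    (hC : ∀ s ω, G s ω ≤ C)
    (hind : ∀ s ω y y', s ≤ tim i.2 y → s ≤ tim i.2 y' →
      G s (upd ω (Sum.inl i) y) = G s (upd ω (Sum.inl i) y'))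
    {f : ℝ → ℝ} (hf : Measurable f) (hf0 : ∀ s, 0 ≤ s → 0 ≤ f s) (hfC : ∀ s, 0 ≤ s → f s ≤ Cf) :
    ∫ ω, (if tau ω i < t then f (tau ω i) * G (tau ω i) ω else 0) ∂PU _
      ≤ (1 + t) * ∫ y, (if tim i.2 y < t then
          f (tim i.2 y) * ∫ ω, G (tim i.2 y) ω ∂PU _ else 0) ∂lam := by
  have hGb : ∀ s, BM (G s) := fun s => ⟨hG.comp (measurable_const.prodMk measurable_id), C, fun ω => by
    rw [abs_of_nonneg (h0 s ω)]; exact hC s ω⟩
  have hC0 : 0 ≤ C := (h0 0 (fun _ => 0)).trans (hC 0 _)
  have hCf : 0 ≤ Cf := (hf0 0 le_rfl).trans (hfC 0 le_rfl)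
  have hb : BM (fun ω : Om V => if tau ω i < t then f (tau ω i) * G (tau ω i) ω else 0) := by
    refine ⟨Measurable.ite (measurableSet_lt (measurable_tau i) measurable_const)
      ((hf.comp (measurable_tau i)).mul (measurable_at_tau i G hG)) measurable_const, Cf * C, fun ω => ?_⟩
    dsimp only
    split_ifs
    · have ht0 : 0 ≤ tau ω i := tim_nonneg _ _
      rw [abs_of_nonneg (mul_nonneg (hf0 _ ht0) (h0 _ ω))]
      exact mul_le_mul (hfC _ ht0) (hC _ ω) (h0 _ ω) hCf
    · simpa using mul_nonneg hCf hC0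
  set H : ℝ → Om V → ℝ := fun s ω => ∫ y', G s (upd ω (Sum.inl i) y') ∂lam with hH
  have hupd : Measurable (fun q : (ℝ × Om V) × ℝ => upd q.1.2 (Sum.inl i) q.2) :=
    (measurable_upd (Sum.inl i)).comp ((measurable_snd.comp measurable_fst).prodMk measurable_snd)
  have hGu : Measurable (fun q : (ℝ × Om V) × ℝ => G q.1.1 (upd q.1.2 (Sum.inl i) q.2)) := by
    have h := hG.comp ((measurable_fst.comp measurable_fst).prodMk hupd)
    exact h
  have hHm : Measurable (fun p : ℝ × Om V => H p.1 p.2) :=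
    (StronglyMeasurable.integral_prod_right' hGu.stronglyMeasurable).measurable
  have hH0 : ∀ s ω, 0 ≤ H s ω := fun s ω => integral_nonneg (fun y => h0 _ _)
  have hHC : ∀ s ω, H s ω ≤ C := fun s ω => (le_abs_self _).trans (abs_integral_lam_le (fun y => by
    rw [abs_of_nonneg (h0 _ _)]; exact hC _ _))
  rw [integral_upd' (Sum.inl i) hb]
  set Φ : Om V → ℝ → ℝ := fun ω y =>
    if tim i.2 y < t then (1 + t) * (f (tim i.2 y) * H (tim i.2 y) ω) else 0 with hΦ
  have hΦm : Measurable (fun p : Om V × ℝ => Φ p.1 p.2) := by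
    refine Measurable.ite (measurableSet_lt ((measurable_tim _).comp measurable_snd) measurable_const)
      (measurable_const.mul ((hf.comp ((measurable_tim _).comp measurable_snd)).mul ?_)) measurable_const
    have h := hHm.comp (((measurable_tim i.2).comp measurable_snd).prodMk (measurable_fst (α := Om V) (β := ℝ)))
    exact h
  have hΦb : ∀ ω y, |Φ ω y| ≤ (1 + t) * (Cf * C) := by
    intro ω y
    simp only [hΦ]
    split_ifs
    · rw [abs_of_nonneg (mul_nonneg (by linarith) (mul_nonneg (hf0 _ (tim_nonneg _ _)) (hH0 _ _)))]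
      exact mul_le_mul_of_nonneg_left (mul_le_mul (hfC _ (tim_nonneg _ _)) (hHC _ _) (hH0 _ _) hCf)
        (by linarith)
    · simp; positivity
  have hΦω : ∀ ω, Integrable (Φ ω) lam := fun ω =>
    Integrable.of_bound (hΦm.comp (measurable_prodMk_left)).aestronglyMeasurable _
      (ae_of_all _ (fun y => (Real.norm_eq_abs _).le.trans (hΦb ω y)))
  have hΦp : Integrable (uncurry Φ) ((PU _).prod lam) :=
    Integrable.of_bound hΦm.aestronglyMeasurable _
      (ae_of_all _ (fun p => (Real.norm_eq_abs _).le.trans (hΦb p.1 p.2)))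
  have key : ∀ ω y, (if tau (upd ω (Sum.inl i) y) i < t then f (tau (upd ω (Sum.inl i) y) i)
      * G (tau (upd ω (Sum.inl i) y) i) (upd ω (Sum.inl i) y) else 0) ≤ Φ ω y := by
    intro ω y
    have e : tau (upd ω (Sum.inl i) y) i = tim i.2 y := congrArg (tim i.2) (upd_self _ _ _)
    simp only [e, hΦ]
    split_ifs with c
    · set s := tim i.2 y
      have hs : 0 ≤ s := tim_nonneg _ _
      have h1 : s / (1 + s) ≤ 1 := by rw [div_le_one (by linarith)]; linarith
      have h2 : G s (upd ω (Sum.inl i) y) / (1 + s) ≤ H s ω := by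
        have hint : Integrable (fun y' => G s (upd ω (Sum.inl i) y')) lam :=
          ((hGb s).comp ((measurable_upd (Sum.inl i)).comp measurable_prodMk_left)).integrable _
        have h3 := integral_mono ((integrable_const (G s (upd ω (Sum.inl i) y))).indicator
          (measurableSet_Ico (a := s / (1 + s)) (b := (1:ℝ)))) hint (fun y' => by
            by_cases hy : y' ∈ Ico (s / (1 + s)) 1
            · rw [Set.indicator_of_mem hy, hind s ω y y' le_rfl (tim_ge hs _ hy)]
            · rw [Set.indicator_of_notMem hy]; exact h0 _ _)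
        rw [integral_indicator_const _ measurableSet_Ico, lam_Ico (by positivity) h1, smul_eq_mul] at h3
        refine le_trans (le_of_eq ?_) h3
        field_simp
        ring
      rw [div_le_iff₀ (by linarith)] at h2
      have h4 : G s (upd ω (Sum.inl i) y) ≤ (1 + t) * H s ω := by
        refine h2.trans ?_
        rw [mul_comm]
        exact mul_le_mul_of_nonneg_right (by linarith) (hH0 _ _)
      calc f s * G s (upd ω (Sum.inl i) y) ≤ f s * ((1 + t) * H s ω) :=
            mul_le_mul_of_nonneg_left h4 (hf0 _ hs)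
        _ = _ := by ring
    · exact le_rfl
  have h5 : Integrable (fun ω => ∫ y, Φ ω y ∂lam) (PU _) := hΦp.integral_prod_left
  refine (integral_mono ((bm_integral_upd (Sum.inl i) hb).integrable _) h5
    (fun ω => integral_mono ((hb.comp ((measurable_upd (Sum.inl i)).comp measurable_prodMk_left)).integrable _)
      (hΦω ω) (key ω))).trans ?_
  rw [integral_integral_swap hΦp, ← integral_const_mul]
  refine le_of_eq (integral_congr_ae (ae_of_all _ (fun y => ?_)))
  simp only [hΦ]
  split_ifs
  · rw [integral_const_mul, integral_const_mul, ← integral_upd' (Sum.inl i) (hGb _)]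
  · simp

/-- revelation times have density at most one -/
lemma integral_tim_le (k : ℕ) {g : ℝ → ℝ} (hg : Measurable g) (h0 : ∀ s, 0 ≤ g s) {C : ℝ}
    (hC : ∀ s, g s ≤ C) (hi : IntegrableOn g (Ici (k:ℝ))) :
    ∫ y, g (tim k y) ∂lam ≤ ∫ s in Ici (k:ℝ), g s := by
  set F : ℝ → ℝ := fun y => (k:ℝ) + y / (1 - y) with hF
  have hder : ∀ x ∈ Ico (0:ℝ) 1, HasDerivWithinAt F (1 / (1 - x) ^ 2) (Ico (0:ℝ) 1) x := by
    intro x hx
    have h1 : (1:ℝ) - x ≠ 0 := by linarith [hx.2]
    have h : HasDerivAt F (1 / (1 - x) ^ 2) x := by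
      have := (((hasDerivAt_id x).div ((hasDerivAt_id x).const_sub 1) h1)).const_add (k:ℝ)
      refine this.congr_deriv ?_
      simp only [id_eq]
      ring
    exact h.hasDerivWithinAt
  have hinj : InjOn F (Ico (0:ℝ) 1) := by
    intro x hx y hy h
    simp only [hF, add_right_inj] at h
    rw [div_eq_div_iff (by linarith [hx.2]) (by linarith [hy.2])] at h
    linarith
  have him : F '' Ico (0:ℝ) 1 = Ici (k:ℝ) := by
    apply Subset.antisymm
    · rintro _ ⟨x, hx, rfl⟩
      simp only [hF, mem_Ici, le_add_iff_nonneg_right]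
      exact div_nonneg hx.1 (by linarith [hx.2])
    · intro s hs
      have hs' : 0 ≤ s - k := by rw [mem_Ici] at hs; linarith
      have hp : 0 < 1 + (s - k) := by linarith
      refine ⟨(s - k) / (1 + (s - k)), ⟨div_nonneg hs' hp.le, by rw [div_lt_one hp]; linarith⟩, ?_⟩
      simp only [hF]
      rw [one_sub_div hp.ne']
      field_simp
      ring
  have hi' := (integrableOn_image_iff_integrableOn_abs_deriv_smul measurableSet_Ico hder hinj g).1
    (him ▸ hi)
  rw [← him, integral_image_eq_integral_abs_deriv_smul measurableSet_Ico hder hinj]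
  have hset : lam = volume.restrict (Ico (0:ℝ) 1) := by
    unfold lam
    exact (Measure.restrict_congr_set Ico_ae_eq_Icc).symm
  rw [hset]
  refine integral_mono_ae ?_ hi' ?_
  · have hb : BM (fun y => g (tim k y)) := ⟨hg.comp (measurable_tim k), C, fun y => by
      rw [abs_of_nonneg (h0 _)]; exact hC _⟩
    rw [← hset]
    exact hb.integrable _
  · filter_upwards [ae_restrict_mem measurableSet_Ico] with y hy
    have e : tim k y = F y := by simp only [tim, hF, cl_of_mem ⟨hy.1, hy.2.le⟩]
    rw [e, smul_eq_mul, abs_of_nonneg (by positivity)]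
    refine le_mul_of_one_le_left (h0 _) ?_
    rw [le_div_iff₀ (pow_pos (by linarith [hy.2]) 2), one_mul]
    exact pow_le_one₀ (by linarith [hy.2]) (by linarith [hy.1])

/-- an integral over revelation times before `t` is at most an integral over time -/
lemma time_le (k : ℕ) {t : ℝ} {g h : ℝ → ℝ} (hg : Measurable g) (h0 : ∀ s, 0 ≤ g s) {C : ℝ}
    (hC : ∀ s, g s ≤ C) (hh : ∀ s ∈ Ioo 0 t, g s ≤ h s) (hi : IntegrableOn h (Ioo 0 t)) :
    ∫ y, (if tim k y < t then g (tim k y) else 0) ∂lam ≤ ∫ s in Ioo 0 t, h s := by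
  have hC0 : 0 ≤ C := (h0 0).trans (hC 0)
  set g' := (Iio t).indicator g with hg'
  have hm : Measurable g' := hg.indicator measurableSet_Iio
  have h0' : ∀ s, 0 ≤ g' s := fun s => Set.indicator_nonneg (fun x _ => h0 x) s
  have hC' : ∀ s, g' s ≤ C := fun s => by
    simp only [hg']
    by_cases c : s ∈ Iio t
    · rw [Set.indicator_of_mem c]; exact hC s
    · rw [Set.indicator_of_notMem c]; exact hC0
  have hib : IntegrableOn g (Ico (k:ℝ) t) :=
    Measure.integrableOn_of_bounded measure_Ico_lt_top.ne hg.aestronglyMeasurable (M := C)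
      (ae_of_all _ (fun s => by rw [Real.norm_eq_abs, abs_of_nonneg (h0 s)]; exact hC s))
  have hi1 : IntegrableOn g' (Ici (k:ℝ)) := by
    rw [hg', IntegrableOn, integrable_indicator_iff measurableSet_Iio, IntegrableOn,
      Measure.restrict_restrict measurableSet_Iio, Set.inter_comm, Ici_inter_Iio]
    exact hib
  have e : ∀ y, (if tim k y < t then g (tim k y) else 0) = g' (tim k y) := fun y => by
    simp only [hg', Set.indicator, mem_Iio]
  simp only [e]
  refine (integral_tim_le k hm h0' hC' hi1).trans ?_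
  rw [hg', setIntegral_indicator measurableSet_Iio, Ici_inter_Iio]
  have hib0 : IntegrableOn g (Ico (0:ℝ) t) :=
    Measure.integrableOn_of_bounded measure_Ico_lt_top.ne hg.aestronglyMeasurable (M := C)
      (ae_of_all _ (fun s => by rw [Real.norm_eq_abs, abs_of_nonneg (h0 s)]; exact hC s))
  calc ∫ s in Ico (k:ℝ) t, g s ≤ ∫ s in Ico (0:ℝ) t, g s :=
        setIntegral_mono_set hib0 (ae_of_all _ h0)
          (HasSubset.Subset.eventuallyLE (Ico_subset_Ico_left (Nat.cast_nonneg k)))
    _ = ∫ s in Ioo (0:ℝ) t, g s := integral_Ico_eq_integral_Ioo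
    _ ≤ _ := setIntegral_mono_on (hib0.mono_set Ioo_subset_Ico_self) hi measurableSet_Ioo hh

lemma integral_Ioo_rpow {β t : ℝ} (hβ : 0 < β) (ht : 0 ≤ t) :
    IntegrableOn (fun s : ℝ => s ^ (β - 1)) (Ioo 0 t) ∧ ∫ s in Ioo 0 t, s ^ (β - 1) = t ^ β / β := by
  constructor
  · have := intervalIntegral.intervalIntegrable_rpow' (a := 0) (b := t) (r := β - 1) (by linarith)
    exact this.1.mono_set Ioo_subset_Ioc_self
  · rw [← integral_Ioc_eq_integral_Ioo, ← intervalIntegral.integral_of_le ht,
      integral_rpow (Or.inl (by linarith))]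
    simp [Real.zero_rpow hβ.ne']

/-- Gronwall with an integrable singular kernel -/
lemma gronwall {f : ℝ → ℝ} {a b β T M : ℝ} (hf : Measurable f) (ha : 0 ≤ a) (hb : 0 ≤ b)
    (hβ : 0 < β) (h0 : ∀ u ∈ Icc 0 T, 0 ≤ f u) (hM : ∀ u ∈ Icc 0 T, f u ≤ M)
    (h : ∀ u ∈ Icc 0 T, f u ≤ a + b * ∫ s in Ioo 0 u, s ^ (β - 1) * f s) {t : ℝ} (ht : t ∈ Icc 0 T) :
    f t ≤ a * Real.exp (b * t ^ β / β) := by
  have hM0 : 0 ≤ M := (h0 t ht).trans (hM t ht)
  have key : ∀ (n : ℕ) (u : ℝ), u ∈ Icc 0 T →
      f u ≤ a * ∑ j ∈ Finset.range n, (b * u ^ β / β) ^ j / (j.factorial : ℝ)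
        + M * ((b * u ^ β / β) ^ n / (n.factorial : ℝ)) := by
    intro n
    induction n with
    | zero => intro u hu; simpa using hM u hu
    | succ n ih =>
      intro u hu
      have hmem : ∀ s ∈ Ioo 0 u, s ∈ Icc 0 T := fun s hs => ⟨hs.1.le, hs.2.le.trans hu.2⟩
      have hk : ∀ (c : ℝ) (j : ℕ), IntegrableOn (fun s : ℝ => c * s ^ (β * (j + 1) - 1)) (Ioo 0 u) :=
        fun c j => (integral_Ioo_rpow (by positivity) hu.1).1.const_mul c
      have hfi : IntegrableOn (fun s : ℝ => s ^ (β - 1) * f s) (Ioo 0 u) := by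
        refine Integrable.mono' (((integral_Ioo_rpow hβ hu.1).1).const_mul M)
          (((measurable_id.pow_const (β - 1)).mul hf).aestronglyMeasurable) ?_
        filter_upwards [ae_restrict_mem measurableSet_Ioo] with s hs
        rw [Real.norm_eq_abs, abs_of_nonneg (mul_nonneg (Real.rpow_nonneg hs.1.le _) (h0 s (hmem s hs))),
          mul_comm]
        exact mul_le_mul_of_nonneg_right (hM s (hmem s hs)) (Real.rpow_nonneg hs.1.le _)
      have e : ∀ s ∈ Ioo (0:ℝ) u, ∀ j : ℕ, s ^ (β - 1) * (b * s ^ β / β) ^ j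
          = (b / β) ^ j * s ^ (β * (j + 1) - 1) := by
        intro s hs j
        rw [show b * s ^ β / β = (b / β) * s ^ β by ring, mul_pow, ← Real.rpow_natCast (s ^ β) j,
          ← Real.rpow_mul hs.1.le, show β * ((j:ℝ) + 1) - 1 = (β - 1) + β * j by ring,
          Real.rpow_add hs.1]
        ring_nf
      have hint : ∀ j : ℕ, (b / β) ^ j * ∫ s in Ioo 0 u, s ^ (β * ((j:ℝ) + 1) - 1)
          = (b / β) ^ j * (u ^ β) ^ (j + 1) / (β * ((j:ℝ) + 1)) := by
        intro j
        rw [(integral_Ioo_rpow (β := β * ((j:ℝ) + 1)) (by positivity) hu.1).2, Real.rpow_mul hu.1,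
          ← Nat.cast_add_one, Real.rpow_natCast]
        push_cast
        ring
      set R : ℝ → ℝ := fun s => ∑ j ∈ Finset.range n,
          (a * (b / β) ^ j / (j.factorial : ℝ)) * s ^ (β * ((j:ℝ) + 1) - 1)
        + (M * (b / β) ^ n / (n.factorial : ℝ)) * s ^ (β * ((n:ℝ) + 1) - 1) with hR
      have iR : IntegrableOn R (Ioo 0 u) :=
        (integrable_finsetSum _ (fun j _ => hk _ j)).add (hk _ n)
      have hpt : ∀ s ∈ Ioo 0 u, s ^ (β - 1) * f s ≤ R s := by
        intro s hs
        refine (mul_le_mul_of_nonneg_left (ih s (hmem s hs)) (Real.rpow_nonneg hs.1.le _)).trans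
          (le_of_eq ?_)
        simp only [hR, mul_add, Finset.mul_sum]
        congr 1
        · refine Finset.sum_congr rfl (fun j _ => ?_)
          rw [mul_comm a, ← mul_assoc, ← mul_div_assoc, e s hs j]
          ring
        · rw [mul_comm M, ← mul_assoc, ← mul_div_assoc, e s hs n]
          ring
      have hb2 := mul_le_mul_of_nonneg_left (setIntegral_mono_on hfi iR measurableSet_Ioo hpt) hb
      refine (h u hu).trans (le_trans (add_le_add_right hb2 a) (le_of_eq ?_))
      simp only [hR]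
      rw [integral_add (integrable_finsetSum _ (fun j _ => hk _ j)) (hk _ n),
        integral_finsetSum _ (fun j _ => hk _ j), Finset.sum_range_succ']
      simp only [integral_const_mul]
      have hj : ∀ (c : ℝ) (j : ℕ), b * (c * (b / β) ^ j / (j.factorial : ℝ)
          * ∫ s in Ioo 0 u, s ^ (β * ((j:ℝ) + 1) - 1))
          = c * ((b * u ^ β / β) ^ (j + 1) / ((j + 1).factorial : ℝ)) := by
        intro c j
        calc b * (c * (b / β) ^ j / (j.factorial : ℝ) * ∫ s in Ioo 0 u, s ^ (β * ((j:ℝ) + 1) - 1))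
            = b * c / (j.factorial : ℝ) * ((b / β) ^ j * ∫ s in Ioo 0 u, s ^ (β * ((j:ℝ) + 1) - 1)) := by
              ring
          _ = _ := by
              rw [hint, Nat.factorial_succ]
              push_cast
              have h3 : (0:ℝ) < j.factorial := by exact_mod_cast j.factorial_pos
              rw [show b * u ^ β / β = (b / β) * u ^ β by ring, mul_pow, pow_succ (b / β)]
              field_simp
      rw [mul_add b, Finset.mul_sum, Finset.sum_congr rfl (fun j _ => hj a j), hj M n]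
      simp only [pow_zero, Nat.factorial_zero, Nat.cast_one, div_one, mul_add, Finset.mul_sum]
      ring
  have hlim : Tendsto (fun n : ℕ => a * ∑ j ∈ Finset.range n, (b * t ^ β / β) ^ j / (j.factorial : ℝ)
      + M * ((b * t ^ β / β) ^ n / (n.factorial : ℝ))) atTop (𝓝 (a * Real.exp (b * t ^ β / β) + M * 0)) := by
    refine Tendsto.add (Tendsto.const_mul a ?_) (Tendsto.const_mul M
      (FloorSemiring.tendsto_pow_div_factorial_atTop _))
    rw [Real.exp_eq_exp_ℝ]
    exact (NormedSpace.expSeries_div_hasSum_exp (𝔸 := ℝ) (b * t ^ β / β)).tendsto_sum_nat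
  rw [mul_zero, add_zero] at hlim
  exact ge_of_tendsto hlim (Eventually.of_forall (fun n => key n t ht))

end Vale.Agent.P161.Crit
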