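import Mathlib
import Vale.Agent.P161.Crit.Base
import Vale.Agent.P161.Crit.Influence
import Vale.Agent.P161.Crit.Time

/-!
Finite volumes inside the regular tree: spheres, laws of field functionals, rate bounds.
-/

open MeasureTheory Set Function Filter
open scoped Classical Topology

noncomputable section

namespace Vale.Agent.P161.Crit

variable {V : Type*}

/-- the setting: a regular tree, a parameter interval reaching criticality, a horizon -/
structure Env (V : Type*) where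
  G : SimpleGraph V
  q : ℕ
  θ0 : ℝ
  θ1 : ℝ
  K : ℕ
  tree : G.IsTree
  deg : ∀ v, (G.neighborSet v).ncard = q + 1
  two_le : 2 ≤ q
  pos : 0 < θ0
  le : θ0 ≤ θ1
  lt_one : θ1 < 1
  crit : (q : ℝ) * θ1 ^ 2 ≤ 1
  hK : 1 ≤ K

/-- the sphere of radius `n` -/
def sph (G : SimpleGraph V) (hf : ∀ v, (G.neighborSet v).Finite) (v : V) (n : ℕ) : Finset V :=
  (ball G hf v n).filter (fun u => G.dist v u = n)

/-- functionals of the field restricted to `D` -/
lemma fields_congr {G : SimpleGraph V} {θ : ℝ} {K : ℕ} {t : ℝ} {D : Finset V} {ω ω' : Om V}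
    (h : ∀ v ∈ D, fld K t ω' v = fld K t ω v) :
    (∀ A, A ⊆ D → ∀ v, Xw G θ K t A v ω' = Xw G θ K t A v ω) ∧
    (∀ n x y, Zs G θ K t D n x y ω' = Zs G θ K t D n x y ω) ∧
    (∀ x y, phi G θ K t D x y ω' = phi G θ K t D x y ω) ∧
    (∀ x u, bw G θ K t D x u ω' = bw G θ K t D x u ω) := by
  have hX : ∀ A, A ⊆ D → ∀ v, Xw G θ K t A v ω' = Xw G θ K t A v ω := fun A hA v =>
    (fprod_congr_field (θ := θ) A (fun w hw => h w (hA hw))).2 v
  have hw : ∀ x y, wv G θ K t D x y ω' = wv G θ K t D x y ω := fun x y => by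
    simp only [wv, hX _ (side_subset _ _ _) y]
  refine ⟨hX, ?_, fun x y => by simp only [phi, hw x y], fun x u => ?_⟩
  · intro n
    induction n with
    | zero => intro x y; rfl
    | succ n ih => intro x y; simp only [Zs, hw x y, ih]
  · have hz := fprod_congr_field (θ := θ) (G := G) D h
    have hg : gf G θ D (fld K t ω') x u = gf G θ D (fld K t ω) x u := by
      unfold gf
      rw [hz.1]
      congr 1
      refine EI_congr D (fun η _ => ?_)
      unfold fprod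
      rw [Finset.prod_congr rfl (fun w hw => by rw [h w hw])]
    simp only [bw, bf, cf, hg, hz.2]

namespace Env

variable (P : Env V)

/-- admissible parameters -/
def Adm (θ : ℝ) : Prop := P.θ0 ≤ θ ∧ θ ≤ P.θ1

lemma fin : ∀ v, (P.G.neighborSet v).Finite := nb_finite P.deg

lemma θ1_nonneg : 0 ≤ P.θ1 := P.pos.le.trans P.le

lemma one_le_q : 1 ≤ P.q := le_trans (by norm_num) P.two_le

lemma adm_θ1 : P.Adm P.θ1 := ⟨P.le, le_rfl⟩

variable {P}

lemma Adm.nonneg {θ : ℝ} (h : P.Adm θ) : 0 ≤ θ := P.pos.le.trans h.1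

lemma Adm.posθ {θ : ℝ} (h : P.Adm θ) : 0 < θ := lt_of_lt_of_le P.pos h.1

lemma Adm.lt_one' {θ : ℝ} (h : P.Adm θ) : θ < 1 := lt_of_le_of_lt h.2 P.lt_one

lemma Adm.crit' {θ : ℝ} (h : P.Adm θ) : (P.q : ℝ) * θ ^ 2 ≤ 1 :=
  le_trans (mul_le_mul_of_nonneg_left (pow_le_pow_left₀ h.nonneg h.2 2) (Nat.cast_nonneg _)) P.crit

lemma Adm.sub {θ : ℝ} (h : P.Adm θ) (hs : θ < P.θ1) : (P.q : ℝ) * θ ^ 2 < 1 :=
  lt_of_lt_of_le (mul_lt_mul_of_pos_left (pow_lt_pow_left₀ hs h.nonneg two_ne_zero)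
    (by exact_mod_cast P.one_le_q)) P.crit

variable (P)

lemma mem_sph {v u : V} {n : ℕ} : u ∈ sph P.G P.fin v n ↔ P.G.dist v u = n := by
  rw [sph, Finset.mem_filter, mem_ball_iff P.tree, P.G.dist_comm (u := u)]
  exact ⟨fun h => h.2, fun h => ⟨h.le, h⟩⟩

lemma rch_ball {v : V} {n : ℕ} {D : Finset V} (h : ball P.G P.fin v n ⊆ D) : Rch P.G v n D :=
  fun u hu => h ((mem_ball_iff P.tree P.fin v n u).2 (by rw [P.G.dist_comm]; exact hu))

lemma sum_sph_succ (v : V) (n : ℕ) (f : V → ℝ) :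
    ∑ u ∈ sph P.G P.fin v (n + 1), f u = ∑ y ∈ nbs P.G v, ∑ u ∈ fw P.G n v y, f u := by
  rw [← Finset.sum_biUnion]
  · refine Finset.sum_congr ?_ (fun _ _ => rfl)
    ext u
    rw [P.mem_sph, sphere_eq_fw P.tree P.deg v n u, Finset.mem_biUnion]
  · intro y hy y' hy' hne
    rw [Function.onFun, Finset.disjoint_left]
    intro u hu hu'
    obtain ⟨a1, a2⟩ := (fw_dist P.tree P.deg n v y ((mem_nbs P.deg).1 hy) u).1 hu
    obtain ⟨b1, b2⟩ := (fw_dist P.tree P.deg n v y' ((mem_nbs P.deg).1 hy') u).1 hu'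
    exact hne (toward_unique P.tree ((mem_nbs P.deg).1 hy) ((mem_nbs P.deg).1 hy') (u := u)
      (by omega) (by omega))

lemma card_sph_le (v : V) (n : ℕ) : ((sph P.G P.fin v n).card : ℝ) ≤ 2 * (P.q : ℝ) ^ n :=
  card_shell_le P.tree P.deg P.one_le_q v n _ (fun u hu => by
    rw [P.G.dist_comm]; exact P.mem_sph.1 hu)

lemma sum_sph (v : V) (R : ℕ) (D : Finset V) (f : V → ℝ) (hD : ball P.G P.fin v R ⊆ D) :
    ∑ u ∈ D, f u = ∑ n ∈ Finset.range (R + 1), ∑ u ∈ sph P.G P.fin v n, f u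
      + ∑ u ∈ D.filter (fun u => R < P.G.dist v u), f u := by
  rw [← Finset.sum_filter_add_sum_filter_not D (fun u => P.G.dist v u ≤ R)]
  congr 1
  · rw [← Finset.sum_fiberwise_of_maps_to (t := Finset.range (R + 1)) (g := fun u => P.G.dist v u)
      (fun u hu => Finset.mem_range.2 (Nat.lt_succ_of_le (Finset.mem_filter.1 hu).2))]
    refine Finset.sum_congr rfl (fun n hn => Finset.sum_congr ?_ (fun _ _ => rfl))
    ext u
    rw [Finset.mem_filter, Finset.mem_filter, P.mem_sph]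
    refine ⟨fun h => h.2, fun h => ⟨⟨hD ?_, ?_⟩, h⟩⟩
    · rw [mem_ball_iff P.tree, P.G.dist_comm, h]; exact Nat.lt_succ_iff.1 (Finset.mem_range.1 hn)
    · rw [h]; exact Nat.lt_succ_iff.1 (Finset.mem_range.1 hn)
  · refine Finset.sum_congr ?_ (fun _ _ => rfl)
    exact Finset.filter_congr (fun u _ => by omega)

/-- law of a functional of the field at time `t` -/
lemma law_fields [Countable V] {θ : ℝ} (hθ : P.Adm θ) {D : Finset V} (hD : Geo P.G D)
    (hne : D.Nonempty) {t : ℝ} {φ : Om V → ℝ} (hφ : BM φ)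
    (hd : ∀ ω ω', (∀ v ∈ D, fld P.K t ω' v = fld P.K t ω v) → φ ω' = φ ω) :
    ∫ ω, φ (Smp P.G θ P.K D ω) ∂PU _ = ∫ ω, φ ω * Zw P.G θ P.K t D ω ∂PU _ := by
  refine law_Smp P.tree hθ.nonneg hθ.lt_one' hD hne hφ (fun ω ω' hu hx => hd ω' ω (fun v hv => ?_))
  funext b
  refine Finset.prod_congr rfl (fun k hk => ?_)
  have e : tau ω' (v, k) = tau ω (v, k) := congrArg (tim k) (hu (v, k)).symm
  simp only [fac, e]
  split_ifs with c
  · rw [hx (v, k) (mem_box.2 ⟨hv, Finset.mem_range.1 hk⟩) c]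
  · rfl

lemma state_indep {θ : ℝ} (D : Finset V) {i : V × ℕ} {ω : Om V} {s y y' : ℝ}
    (hy : s ≤ tim i.2 y) (hy' : s ≤ tim i.2 y') :
    (∀ v ∈ D, fld P.K s (Smp P.G θ P.K D (upd ω (Sum.inl i) y)) v
        = fld P.K s (Smp P.G θ P.K D (upd ω (Sum.inl i) y')) v) ∧
    (∀ v, mT P.G θ P.K D s v (upd ω (Sum.inl i) y) = mT P.G θ P.K D s v (upd ω (Sum.inl i) y')) ∧
    (∀ v u, cT P.G θ P.K D s v u (upd ω (Sum.inl i) y) = cT P.G θ P.K D s v u (upd ω (Sum.inl i) y')) := by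
  have hf := (Smp_congr (G := P.G) (θ := θ) (K := P.K) (D := D) (ω := upd ω (Sum.inl i) y')
    (ω' := upd ω (Sum.inl i) y) (t := s) (fun l _ => by
      by_cases hl : l = i
      · subst hl
        refine Or.inl ⟨?_, ?_⟩
        · show s ≤ tim _ (upd ω (Sum.inl l) y' (Sum.inl l)); rw [upd_self]; exact hy'
        · show s ≤ tim _ (upd ω (Sum.inl l) y (Sum.inl l)); rw [upd_self]; exact hy
      · exact Or.inr ⟨by rw [upd_ne (by simpa using hl), upd_ne (by simpa using hl)],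
          by rw [upd_ne (by simp), upd_ne (by simp)]⟩)).2
  obtain ⟨hX, -, -, -⟩ := fields_congr (G := P.G) (θ := θ) hf
  refine ⟨hf, fun v => hX D (Finset.Subset.refl D) v, fun v u => ?_⟩
  unfold cT
  split_ifs with hu
  · have hz := fprod_congr_field (θ := θ) (G := P.G) D hf
    have hg : gf P.G θ D (fld P.K s (Smp P.G θ P.K D (upd ω (Sum.inl i) y))) v u
        = gf P.G θ D (fld P.K s (Smp P.G θ P.K D (upd ω (Sum.inl i) y'))) v u := by
      unfold gf
      rw [hz.1]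
      congr 1
      refine EI_congr D (fun η _ => ?_)
      unfold fprod
      rw [Finset.prod_congr rfl (fun w hw => by rw [hf w hw])]
    simp only [cf, hg, hz.2]
  · rfl

/-- sums over observations before `t` become integrals over time -/
lemma sum_time_le {I : Finset V} {t : ℝ} (ht0 : 0 ≤ t) (htK : t ≤ P.K) {F : ℝ → V → Om V → ℝ}
    (hF : ∀ u, Measurable (fun p : ℝ × Om V => F p.1 u p.2)) (h0 : ∀ s u ω, 0 ≤ F s u ω) {C : ℝ}
    (hC : ∀ s, ∀ u ∈ I, ∀ ω, F s u ω ≤ C)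
    (hind : ∀ s (u : V) (k : ℕ) ω y y', s ≤ tim k y → s ≤ tim k y' →
      F s u (upd ω (Sum.inl (u, k)) y) = F s u (upd ω (Sum.inl (u, k)) y'))
    {f : ℝ → ℝ} (hf : Measurable f) (hf0 : ∀ s, 0 ≤ f s) {Cf : ℝ} (hfC : ∀ s, f s ≤ Cf) :
    ∑ i ∈ box P.K I, ∫ ω, (if tau ω i < t then f (tau ω i) * F (tau ω i) i.1 ω else 0) ∂PU _
      ≤ (1 + P.K) * P.K * ∫ s in Ioo 0 t, f s * ∑ u ∈ I, ∫ ω, F s u ω ∂PU _ := by
  set g : V → ℝ → ℝ := fun u s => f s * ∫ ω, F s u ω ∂PU _ with hg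
  have hgm : ∀ u, Measurable (g u) := fun u =>
    hf.mul ((hF u).stronglyMeasurable.integral_prod_right').measurable
  have hg0 : ∀ u s, 0 ≤ g u s := fun u s => mul_nonneg (hf0 s) (integral_nonneg (fun ω => h0 s u ω))
  have hgC : ∀ u ∈ I, ∀ s, g u s ≤ Cf * C := by
    intro u hu s
    refine mul_le_mul (hfC s) ?_ (integral_nonneg (fun ω => h0 s u ω)) ((hf0 s).trans (hfC s))
    have := norm_integral_le_of_norm_le_const (μ := PU ((V × ℕ) ⊕ (V × ℕ))) (f := fun ω => F s u ω)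
      (C := C) (ae_of_all _ (fun ω => by rw [Real.norm_eq_abs, abs_of_nonneg (h0 s u ω)]; exact hC s u hu ω))
    simp only [probReal_univ, mul_one, Real.norm_eq_abs] at this
    exact (le_abs_self _).trans this
  have hgi : ∀ u ∈ I, IntegrableOn (g u) (Ioo 0 t) := fun u hu =>
    Measure.integrableOn_of_bounded measure_Ioo_lt_top.ne (hgm u).aestronglyMeasurable (M := Cf * C)
      (ae_of_all _ (fun s => by rw [Real.norm_eq_abs, abs_of_nonneg (hg0 u s)]; exact hgC u hu s))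
  have hone : ∀ i ∈ box P.K I,
      ∫ ω, (if tau ω i < t then f (tau ω i) * F (tau ω i) i.1 ω else 0) ∂PU _
        ≤ (1 + P.K) * ∫ s in Ioo 0 t, g i.1 s := by
    intro i hi
    have hu := (mem_box.1 hi).1
    refine (minus_trick ht0 (G := fun s ω => F s i.1 ω) (hF i.1) (fun s ω => h0 s i.1 ω)
      (fun s ω => hC s i.1 hu ω) (fun s ω y y' => hind s i.1 i.2 ω y y') hf (fun s _ => hf0 s)
      (fun s _ => hfC s)).trans ?_
    refine mul_le_mul (by linarith) (time_le i.2 (hgm i.1) (hg0 i.1) (hgC i.1 hu) (fun s _ => le_rfl)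
      (hgi i.1 hu)) (integral_nonneg (fun y => ?_)) (by positivity)
    dsimp only
    split_ifs
    · exact hg0 i.1 _
    · exact le_rfl
  refine (Finset.sum_le_sum hone).trans (le_of_eq ?_)
  rw [box, Finset.sum_product]
  simp only [Finset.sum_const, Finset.card_range, nsmul_eq_mul]
  rw [show (fun s => f s * ∑ u ∈ I, ∫ ω, F s u ω ∂PU _) = fun s => ∑ u ∈ I, g u s from
    funext (fun s => Finset.mul_sum _ _ _), integral_finsetSum _ (fun u hu => hgi u hu), Finset.mul_sum]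
  exact Finset.sum_congr rfl (fun u _ => by ring)

/-- eventual pointwise bounds pass to time integrals -/
lemma rate_limit [Countable V] {t : ℝ} {g : Finset V → ℝ → ℝ} {h : ℝ → ℝ} {C : ℝ}
    (hg : ∀ D, Measurable (g D)) (h0 : ∀ D s, 0 ≤ g D s) (hC : ∀ᶠ D in vol P.G, ∀ s, g D s ≤ C)
    (hh : IntegrableOn h (Ioo 0 t)) (hhm : Measurable h) (hh0 : ∀ s ∈ Ioo 0 t, 0 ≤ h s)
    (hle : ∀ s ∈ Ioo 0 t, ∀ δ > 0, ∀ᶠ D in vol P.G, g D s ≤ h s + δ) {δ : ℝ} (hδ : 0 < δ) :
    ∀ᶠ D in vol P.G, ∫ s in Ioo 0 t, g D s ≤ (∫ s in Ioo 0 t, h s) + δ := by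
  set H : Finset V → ℝ → ℝ := fun D s => max (g D s - h s) 0 with hH
  have hHm : ∀ D, Measurable (H D) := fun D => ((hg D).sub hhm).max measurable_const
  have hHb : ∀ᶠ D in vol P.G, ∀ᵐ s ∂(volume.restrict (Ioo 0 t)), ‖H D s‖ ≤ max C 0 := by
    filter_upwards [hC] with D hD
    filter_upwards [ae_restrict_mem measurableSet_Ioo] with s hs
    rw [Real.norm_eq_abs, abs_of_nonneg (le_max_right _ _)]
    exact max_le_max (by linarith [hD s, hh0 s hs]) le_rfl
  have : IsFiniteMeasure (volume.restrict (Ioo (0:ℝ) t)) :=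
    isFiniteMeasure_restrict.2 measure_Ioo_lt_top.ne
  have hlim : Tendsto (fun D => ∫ s in Ioo 0 t, H D s) (vol P.G) (𝓝 (∫ _s in Ioo (0:ℝ) t, (0:ℝ))) := by
    have : (vol P.G).IsCountablyGenerated := by unfold vol; infer_instance
    refine tendsto_integral_filter_of_dominated_convergence (fun _ => max C 0)
      (Eventually.of_forall (fun D => (hHm D).aestronglyMeasurable)) hHb (integrable_const _) ?_
    filter_upwards [ae_restrict_mem measurableSet_Ioo] with s hs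
    refine Metric.tendsto_nhds.2 (fun ε hε => ?_)
    filter_upwards [hle s hs (ε / 2) (half_pos hε)] with D hD
    rw [Real.dist_eq, sub_zero, abs_of_nonneg (le_max_right _ _)]
    exact max_lt (by linarith) hε
  rw [integral_zero] at hlim
  filter_upwards [hlim.eventually (gt_mem_nhds hδ), hHb, hC] with D h1 h2 h3
  have iH : IntegrableOn (H D) (Ioo 0 t) :=
    Integrable.mono' (integrable_const (max C 0)) (hHm D).aestronglyMeasurable h2
  have ig : IntegrableOn (g D) (Ioo 0 t) :=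
    Measure.integrableOn_of_bounded measure_Ioo_lt_top.ne (hg D).aestronglyMeasurable (M := C)
      (ae_of_all _ (fun s => by rw [Real.norm_eq_abs, abs_of_nonneg (h0 D s)]; exact h3 s))
  calc ∫ s in Ioo 0 t, g D s ≤ ∫ s in Ioo 0 t, (h s + H D s) :=
        setIntegral_mono ig (hh.add iH) (fun s => by simp only [hH]; linarith [le_max_left (g D s - h s) 0])
    _ ≤ _ := by rw [integral_add hh iH]; linarith

end Env

end Vale.Agent.P161.Crit
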