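import Mathlib
import Vale.Agent.P161.Crit.Vol

/-!
Families of functions of the volume that converge in `L¹`.
-/

open MeasureTheory Set Function Filter
open scoped Classical Topology

noncomputable section

namespace Vale.Agent.P161.Crit

variable {V : Type*} {G : SimpleGraph V}

/-- eventually bounded and Cauchy in `L¹` along volumes -/
structure Reg (G : SimpleGraph V) (F : Finset V → Om V → ℝ) : Prop where
  bdd : ∃ C, ∀ᶠ D in vol G, Measurable (F D) ∧ ∀ ω, |F D ω| ≤ C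
  cauchy : ∀ δ > 0, ∃ S ∈ vol G, ∀ D ∈ S, ∀ M ∈ S, ∫ ω, |F D ω - F M ω| ∂PU _ ≤ δ

/-- the limit of the expectations -/
def limI (G : SimpleGraph V) (F : Finset V → Om V → ℝ) : ℝ :=
  limUnder (vol G) (fun D => ∫ ω, F D ω ∂PU _)

namespace Reg

variable {F H : Finset V → Om V → ℝ}

lemma integrable_of {f : Om V → ℝ} {C : ℝ} (hm : Measurable f) (hC : ∀ ω, |f ω| ≤ C) :
    Integrable f (PU _) := (show BM f from ⟨hm, C, hC⟩).integrable _

/-- a family controlled by two converging families converges -/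
lemma of_le {A B : Finset V → Om V → ℝ} {L C : ℝ} (hL : 0 ≤ L) (hA : Reg G A) (hB : Reg G B)
    (hb : ∀ᶠ D in vol G, Measurable (F D) ∧ ∀ ω, |F D ω| ≤ C)
    (h : ∃ S ∈ vol G, ∀ D ∈ S, ∀ M ∈ S, ∀ ω,
      |F D ω - F M ω| ≤ L * (|A D ω - A M ω| + |B D ω - B M ω|)) : Reg G F := by
  refine ⟨⟨C, hb⟩, fun δ hδ => ?_⟩
  obtain ⟨CA, hCA⟩ := hA.bdd
  obtain ⟨CB, hCB⟩ := hB.bdd
  obtain ⟨S, hS, hS'⟩ := h
  obtain ⟨S1, h1, h1'⟩ := hA.cauchy (δ / (2 * L + 1)) (by positivity)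
  obtain ⟨S2, h2, h2'⟩ := hB.cauchy (δ / (2 * L + 1)) (by positivity)
  refine ⟨S ∩ S1 ∩ S2 ∩ {D | Measurable (F D) ∧ ∀ ω, |F D ω| ≤ C}
      ∩ {D | Measurable (A D) ∧ ∀ ω, |A D ω| ≤ CA} ∩ {D | Measurable (B D) ∧ ∀ ω, |B D ω| ≤ CB},
    inter_mem (inter_mem (inter_mem (inter_mem (inter_mem hS h1) h2) hb) hCA) hCB,
    fun D hD M hM => ?_⟩
  obtain ⟨⟨⟨⟨⟨d0, d1⟩, d2⟩, d3⟩, d4⟩, d5⟩ := hD
  obtain ⟨⟨⟨⟨⟨m0, m1⟩, m2⟩, m3⟩, m4⟩, m5⟩ := hM
  have iF : Integrable (fun ω => |F D ω - F M ω|) (PU _) :=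
    ((integrable_of d3.1 d3.2).sub (integrable_of m3.1 m3.2)).abs
  have iA : Integrable (fun ω => |A D ω - A M ω|) (PU _) :=
    ((integrable_of d4.1 d4.2).sub (integrable_of m4.1 m4.2)).abs
  have iB : Integrable (fun ω => |B D ω - B M ω|) (PU _) :=
    ((integrable_of d5.1 d5.2).sub (integrable_of m5.1 m5.2)).abs
  refine (integral_mono iF ((iA.add iB).const_mul L) (hS' D d0 M m0)).trans ?_
  simp only [Pi.add_apply]
  rw [integral_const_mul, integral_add iA iB]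
  have e1 := h1' D d1 M m1
  have e2 := h2' D d2 M m2
  calc L * (_ + _) ≤ L * (δ / (2 * L + 1) + δ / (2 * L + 1)) := by gcongr
    _ ≤ δ := by rw [← add_div, mul_div_assoc', div_le_iff₀ (by positivity)]; nlinarith

lemma const (c : ℝ) : Reg G (fun _ _ => c) :=
  ⟨⟨|c|, Eventually.of_forall (fun _ => ⟨measurable_const, fun _ => le_rfl⟩)⟩,
    fun δ hδ => ⟨Set.univ, univ_mem, fun D _ M _ => by simpa using hδ.le⟩⟩

lemma congr (hF : Reg G F) (h : ∀ᶠ D in vol G, H D = F D) : Reg G H := by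
  obtain ⟨C, hC⟩ := hF.bdd
  refine hF.of_le (B := fun _ _ => (0:ℝ)) (L := 1) (C := C) zero_le_one (const 0) ?_ ⟨{D | H D = F D}, h, ?_⟩
  · filter_upwards [hC, h] with D hD hE
    rw [hE]; exact hD
  · intro D hD M hM ω
    have e1 : H D = F D := hD
    have e2 : H M = F M := hM
    rw [e1, e2]; simp

lemma add (hF : Reg G F) (hH : Reg G H) : Reg G (fun D ω => F D ω + H D ω) := by
  obtain ⟨C, hC⟩ := hF.bdd
  obtain ⟨C', hC'⟩ := hH.bdd
  refine hF.of_le (L := 1) (C := C + C') zero_le_one hH ?_ ⟨Set.univ, univ_mem, fun D _ M _ ω => ?_⟩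
  · filter_upwards [hC, hC'] with D h h'
    exact ⟨h.1.add h'.1, fun ω => (abs_add_le _ _).trans (add_le_add (h.2 ω) (h'.2 ω))⟩
  · rw [one_mul, show F D ω + H D ω - (F M ω + H M ω) = (F D ω - F M ω) + (H D ω - H M ω) by ring]
    exact abs_add_le _ _

lemma mul (hF : Reg G F) (hH : Reg G H) : Reg G (fun D ω => F D ω * H D ω) := by
  obtain ⟨C, hC⟩ := hF.bdd
  obtain ⟨C', hC'⟩ := hH.bdd
  refine hF.of_le (L := |C| + |C'|) (C := |C| * |C'|) (by positivity) hH ?_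
    ⟨_, inter_mem hC hC', fun D hD M hM ω => ?_⟩
  · filter_upwards [hC, hC'] with D h h'
    refine ⟨h.1.mul h'.1, fun ω => ?_⟩
    rw [abs_mul]
    exact mul_le_mul ((h.2 ω).trans (le_abs_self _)) ((h'.2 ω).trans (le_abs_self _)) (abs_nonneg _)
      (abs_nonneg _)
  · rw [show F D ω * H D ω - F M ω * H M ω
      = (F D ω - F M ω) * H D ω + F M ω * (H D ω - H M ω) by ring]
    refine (abs_add_le _ _).trans ?_
    rw [abs_mul, abs_mul]
    have a1 : |H D ω| ≤ |C| + |C'| := by linarith [hD.2.2 ω, le_abs_self C', abs_nonneg C]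
    have a2 : |F M ω| ≤ |C| + |C'| := by linarith [hM.1.2 ω, le_abs_self C, abs_nonneg C']
    have b1 := mul_le_mul_of_nonneg_left a1 (abs_nonneg (F D ω - F M ω))
    have b2 := mul_le_mul_of_nonneg_right a2 (abs_nonneg (H D ω - H M ω))
    linarith

lemma sub (hF : Reg G F) (hH : Reg G H) : Reg G (fun D ω => F D ω - H D ω) := by
  refine (hF.add ((const (-1)).mul hH)).congr (Eventually.of_forall (fun D => ?_))
  funext ω
  ring

lemma sq (hF : Reg G F) : Reg G (fun D ω => F D ω ^ 2) :=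
  (hF.mul hF).congr (Eventually.of_forall (fun D => funext (fun ω => pow_two _)))

lemma sum {ι : Type*} (s : Finset ι) {f : ι → Finset V → Om V → ℝ} (h : ∀ i ∈ s, Reg G (f i)) :
    Reg G (fun D ω => ∑ i ∈ s, f i D ω) := by
  induction s using Finset.induction with
  | empty => simpa using const (G := G) 0
  | insert i s hi ih =>
    simp only [Finset.sum_insert hi]
    exact (h i (Finset.mem_insert_self i s)).add (ih (fun j hj => h j (Finset.mem_insert_of_mem hj)))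

/-- the limit -/
lemma exists_lim (hF : Reg G F) [(vol G).NeBot] :
    ∃ Y : Om V → ℝ, BM Y ∧ Tendsto (fun D => ∫ ω, |F D ω - Y ω| ∂PU _) (vol G) (𝓝 0) := by
  obtain ⟨C, hC⟩ := hF.bdd
  set F' : Finset V → Om V → ℝ := fun D ω =>
    if Measurable (F D) ∧ ∀ ω, |F D ω| ≤ C then F D ω else 0 with hF'
  have hm : ∀ D, Measurable (F' D) := fun D => by
    by_cases h : Measurable (F D) ∧ ∀ ω, |F D ω| ≤ C
    · rw [show F' D = F D from funext (fun ω => if_pos h)]; exact h.1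
    · rw [show F' D = fun _ => (0:ℝ) from funext (fun ω => if_neg h)]; exact measurable_const
  have hb : ∀ D ω, |F' D ω| ≤ |C| := fun D ω => by
    simp only [hF']
    split_ifs with h
    · exact (h.2 ω).trans (le_abs_self C)
    · simp
  obtain ⟨Y, hY, hYb, hlim⟩ := exists_L1_limit (PU ((V × ℕ) ⊕ (V × ℕ))) (l := vol G) hm hb (fun δ hδ => by
    obtain ⟨S, hS, hS'⟩ := hF.cauchy δ hδ
    refine ⟨S ∩ {D | Measurable (F D) ∧ ∀ ω, |F D ω| ≤ C}, inter_mem hS hC, fun D hD M hM => ?_⟩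
    have e1 : ∀ ω, F' D ω = F D ω := fun ω => if_pos hD.2
    have e2 : ∀ ω, F' M ω = F M ω := fun ω => if_pos hM.2
    simp only [e1, e2]
    exact hS' D hD.1 M hM.1)
  refine ⟨Y, ⟨hY, |C|, hYb⟩, hlim.congr' ?_⟩
  filter_upwards [hC] with D hD
  have e1 : ∀ ω, F' D ω = F D ω := fun ω => if_pos hD
  simp only [e1]

lemma integral_tendsto_of_L1 {Y : Om V → ℝ} (hY : BM Y) (hF : Reg G F)
    (h : Tendsto (fun D => ∫ ω, |F D ω - Y ω| ∂PU _) (vol G) (𝓝 0)) :
    Tendsto (fun D => ∫ ω, F D ω ∂PU _) (vol G) (𝓝 (∫ ω, Y ω ∂PU _)) := by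
  obtain ⟨C, hC⟩ := hF.bdd
  rw [tendsto_iff_dist_tendsto_zero]
  refine squeeze_zero' (Eventually.of_forall (fun D => dist_nonneg)) ?_ h
  filter_upwards [hC] with D hD
  rw [Real.dist_eq, ← integral_sub (integrable_of hD.1 hD.2) (hY.integrable _)]
  exact abs_integral_le_integral_abs

lemma tendsto (hF : Reg G F) [(vol G).NeBot] :
    Tendsto (fun D => ∫ ω, F D ω ∂PU _) (vol G) (𝓝 (limI G F)) := by
  obtain ⟨Y, hY, h⟩ := hF.exists_lim
  exact tendsto_nhds_limUnder ⟨_, integral_tendsto_of_L1 hY hF h⟩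

lemma lim_nonneg (hF : Reg G F) [(vol G).NeBot] (h : ∀ᶠ D in vol G, ∀ ω, 0 ≤ F D ω) :
    0 ≤ limI G F :=
  ge_of_tendsto hF.tendsto (h.mono (fun _ hD => integral_nonneg hD))

lemma lim_image (hT : G.IsTree) (g : G ≃g G) (hF : Reg G F) (hH : Reg G H) [(vol G).NeBot]
    (h : ∀ᶠ D in vol G, ∀ ω, H (D.image g) (actO g ω) = F D ω) : limI G H = limI G F := by
  refine tendsto_nhds_unique (hH.tendsto.comp (tendsto_vol_image hT g)) (hF.tendsto.congr' ?_)
  obtain ⟨C, hC⟩ := hH.bdd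
  filter_upwards [h, (tendsto_vol_image hT g).eventually hC] with D hD hm
  show _ = ∫ ω, H (D.image g) ω ∂PU _
  rw [← integral_actO g hm.1]
  simp only [hD]

end Reg

end Vale.Agent.P161.Crit
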