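import Mathlib
import Vale.Agent.P161.Crit.Reg

/-!
Below the critical parameter the samplers converge as the volume grows.
-/

open MeasureTheory Set Function Filter
open scoped Classical Topology

noncomputable section

namespace Vale.Agent.P161.Crit

variable {V : Type*}

namespace Env

variable (P : Env V)

/-- Lipschitz constant of the influences -/
def L4 : ℝ := 4 * lipC P.q P.K P.θ0 P.θ1

lemma L4_nonneg : 0 ≤ P.L4 := mul_nonneg (by norm_num) (lipC_nonneg P.pos P.le P.lt_one _ _)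

variable {P}
variable {θ θ' : ℝ}

lemma bm_bw (hθ : P.Adm θ) {D : Finset V} (hD : Geo P.G D) {x u : V} (hx : x ∈ D) (hu : u ∈ D)
    (t : ℝ) : BM (bw P.G θ P.K t D x u) := by
  have hX := bm_Xw (G := P.G) (K := P.K) (t := t) hθ.nonneg hθ.lt_one' D
  have hg : Measurable (fun ω : Om V => gf P.G θ D (fld P.K t ω) x u) :=
    (Finset.measurable_sum _ (fun η _ =>
      measurable_const.mul ((bm_fprod P.K t D η).1.mul measurable_const))).div
      (Finset.measurable_sum _ (fun η _ => measurable_const.mul (bm_fprod P.K t D η).1))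
  refine ⟨(hg.sub ((hX x).1.mul (hX u).1)).div (measurable_const.sub ((hX x).1.pow_const 2)),
    1 / kapK P.q P.K P.θ1, fun ω => ?_⟩
  have hk := kapK_pos P.θ1_nonneg P.lt_one P.q P.K
  have hv := (Xw_flip_bound (K := P.K) (t := t) P.deg hθ.nonneg hθ.2 P.lt_one hx ω).2
  unfold Xw at hv
  unfold bw bf
  rw [abs_div, abs_of_pos (show (0:ℝ) < 1 - mf P.G θ D (fld P.K t ω) x ^ 2 by linarith)]
  exact div_le_div₀ zero_le_one ((abs_cf_le hθ.nonneg hθ.lt_one' (fld_pos P.K t ω) P.tree hD hx hu).trans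
    (pow_le_one₀ hθ.nonneg hθ.lt_one'.le)) hk hv

lemma abs_bw_le (hθ : P.Adm θ) {D : Finset V} {t : ℝ} (ω : Om V) :
    ∀ (n : ℕ) (x u : V), P.G.dist x u = n → Rch P.G x n D → |bw P.G θ P.K t D x u ω| ≤ θ ^ n := by
  intro n
  induction n with
  | zero =>
    intro x u hd hR
    rw [P.tree.connected.dist_eq_zero_iff] at hd
    subst hd
    simp [bw_self (K := P.K) (t := t) P.tree P.deg hθ.nonneg hθ.2 P.lt_one hR.mem]
  | succ n ih =>
    intro x u hd hR
    obtain ⟨y, ha, hy⟩ := exists_toward P.tree (show x ≠ u by rintro rfl; simp at hd)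
    have hR' : Rch P.G y n D := hR.step P.tree ha le_rfl
    rw [bw_mul P.tree P.deg hθ.nonneg hθ.2 P.lt_one hR.mem hR'.mem (hR u hd.le) ha hy ω,
      bw_edge P.tree P.deg hθ.nonneg hθ.2 P.lt_one hR.mem hR'.mem ha, abs_mul, abs_mul,
      abs_of_nonneg hθ.nonneg, pow_succ']
    obtain ⟨w0, w1⟩ := wv_mem (G := P.G) (K := P.K) (t := t) hθ.nonneg hθ.lt_one' D x y ω
    rw [abs_of_nonneg w0]
    calc θ * wv P.G θ P.K t D x y ω * |bw P.G θ P.K t D y u ω|
        ≤ θ * 1 * θ ^ n :=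
          mul_le_mul (mul_le_mul_of_nonneg_left w1 hθ.nonneg) (ih y u (by omega) hR') (abs_nonneg _)
            (by linarith [hθ.nonneg])
      _ = _ := by ring

lemma wv_diff (hθ : P.Adm θ) {D D' : Finset V} {x y : V} {t : ℝ} (hx : x ∈ D) (hy : y ∈ D)
    (hx' : x ∈ D') (hy' : y ∈ D') (ha : P.G.Adj x y) (ω ω' : Om V) :
    |wv P.G θ P.K t D x y ω - wv P.G θ P.K t D' x y ω'|
      ≤ P.L4 * (|Xw P.G θ P.K t D x ω - Xw P.G θ P.K t D' x ω'|
        + |Xw P.G θ P.K t D y ω - Xw P.G θ P.K t D' y ω'|) := by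
  have h := phi_diff (K := P.K) (t := t) (t' := t) P.tree P.deg P.pos hθ.1 hθ.2 hθ.1 hθ.2 P.lt_one
    hx hy hx' hy' ha ω ω'
  simp only [sub_self, abs_zero, add_zero] at h
  have hk := kapK_pos P.θ1_nonneg P.lt_one P.q P.K
  have p1 : 0 < wv P.G θ P.K t D x y ω := lt_of_lt_of_le hk
    (kapK_le_wv (K := P.K) (t := t) P.deg hθ.nonneg hθ.2 P.lt_one (self_mem_side P.tree hy ha.symm) ω)
  have p2 : 0 < wv P.G θ P.K t D' x y ω' := lt_of_lt_of_le hk
    (kapK_le_wv (K := P.K) (t := t) P.deg hθ.nonneg hθ.2 P.lt_one (self_mem_side P.tree hy' ha.symm) ω')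
  have hexp : |wv P.G θ P.K t D x y ω - wv P.G θ P.K t D' x y ω'|
      ≤ |phi P.G θ P.K t D x y ω - phi P.G θ P.K t D' x y ω'| := by
    unfold phi
    rw [neg_sub_neg, abs_sub_comm (Real.log _)]
    have q1 := (wv_mem (G := P.G) (K := P.K) (t := t) hθ.nonneg hθ.lt_one' D x y ω).2
    have q2 := (wv_mem (G := P.G) (K := P.K) (t := t) hθ.nonneg hθ.lt_one' D' x y ω').2
    have key : ∀ a b : ℝ, 0 < a → a ≤ 1 → 0 < b → b ≤ a → a - b ≤ Real.log a - Real.log b := by
      intro a b ha ha1 hb hba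
      have := Real.log_le_sub_one_of_pos (div_pos hb ha)
      rw [Real.log_div hb.ne' ha.ne'] at this
      have h2 : b / a - 1 ≤ b - a := by
        rw [div_sub_one ha.ne', div_le_iff₀ ha]
        nlinarith
      linarith
    rcases le_total (wv P.G θ P.K t D' x y ω') (wv P.G θ P.K t D x y ω) with c | c
    · rw [abs_of_nonneg (by linarith)]
      exact (key _ _ p1 q1 p2 c).trans (le_abs_self _)
    · rw [abs_sub_comm, abs_of_nonneg (by linarith)]
      have := key _ _ p2 q2 p1 c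
      exact this.trans (by rw [abs_sub_comm]; exact le_abs_self _)
  refine hexp.trans (h.trans ?_)
  have a1 := abs_Xw_le (G := P.G) (K := P.K) (t := t) hθ.nonneg hθ.lt_one' D x ω
  have a2 := abs_Xw_le (G := P.G) (K := P.K) (t := t) hθ.nonneg hθ.lt_one' D y ω
  have a3 := abs_Xw_le (G := P.G) (K := P.K) (t := t) hθ.nonneg hθ.lt_one' D' x ω'
  have a4 := abs_Xw_le (G := P.G) (K := P.K) (t := t) hθ.nonneg hθ.lt_one' D' y ω'
  have hL := lipC_nonneg P.pos P.le P.lt_one P.q P.K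
  unfold L4
  rw [show 4 * lipC P.q P.K P.θ0 P.θ1 * (|Xw P.G θ P.K t D x ω - Xw P.G θ P.K t D' x ω'|
      + |Xw P.G θ P.K t D y ω - Xw P.G θ P.K t D' y ω'|) = lipC P.q P.K P.θ0 P.θ1 * ((|Xw P.G θ P.K t D x ω
      - Xw P.G θ P.K t D' x ω'| + |Xw P.G θ P.K t D y ω - Xw P.G θ P.K t D' y ω'|) * 4) by ring]
  gcongr
  linarith

lemma bm_Smp {f : Om V → ℝ} (hf : BM f) (D : Finset V) :
    BM (fun ω => f (Smp P.G θ P.K D ω)) := hf.comp (measurable_Smp D)

/-- mean squared discrepancy of influences, given a bound on the means -/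
lemma bw_diff_sq [Countable V] (hθ : P.Adm θ) {t S : ℝ} (hS : 0 ≤ S) {D M : Finset V}
    (hD : Geo P.G D) (hM : Geo P.G M) : ∀ (n : ℕ) (x u : V), P.G.dist x u = n → Rch P.G x n D →
      Rch P.G x n M → (∀ w, P.G.dist x w ≤ n →
        ∫ ω, (mT P.G θ P.K D t w ω - mT P.G θ P.K M t w ω) ^ 2 ∂PU _ ≤ S) →
      ∫ ω, (bw P.G θ P.K t D x u (Smp P.G θ P.K D ω) - bw P.G θ P.K t M x u (Smp P.G θ P.K M ω)) ^ 2 ∂PU _
        ≤ θ ^ (2 * n) * ((n : ℝ) ^ 2 * (4 * P.L4 ^ 2 * S)) := by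
  intro n
  induction n with
  | zero =>
    intro x u hd hR hR' _
    rw [P.tree.connected.dist_eq_zero_iff] at hd
    subst hd
    simp [bw_self (K := P.K) (t := t) P.tree P.deg hθ.nonneg hθ.2 P.lt_one hR.mem,
      bw_self (K := P.K) (t := t) P.tree P.deg hθ.nonneg hθ.2 P.lt_one hR'.mem]
  | succ n ih =>
    intro x u hd hR hR' hw
    obtain ⟨y, ha, hy⟩ := exists_toward P.tree (show x ≠ u by rintro rfl; simp at hd)
    have h1 : Rch P.G y n D := hR.step P.tree ha le_rfl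
    have h2 : Rch P.G y n M := hR'.step P.tree ha le_rfl
    have hw' : ∀ w, P.G.dist y w ≤ n →
        ∫ ω, (mT P.G θ P.K D t w ω - mT P.G θ P.K M t w ω) ^ 2 ∂PU _ ≤ S := fun w hwd => hw w (by
      rcases adj_cases P.tree ha w with e | e <;> omega)
    have hIH := ih y u (by omega) h1 h2 hw'
    set A : Om V → ℝ := fun ω => wv P.G θ P.K t D x y (Smp P.G θ P.K D ω) - wv P.G θ P.K t M x y (Smp P.G θ P.K M ω)
    set B : Om V → ℝ := fun ω => bw P.G θ P.K t D y u (Smp P.G θ P.K D ω) - bw P.G θ P.K t M y u (Smp P.G θ P.K M ω)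
    have bA : BM A := (bm_Smp (bm_wv hθ.nonneg hθ.lt_one' D x y) D).sub
      (bm_Smp (bm_wv hθ.nonneg hθ.lt_one' M x y) M)
    have bB : BM B := (bm_Smp (bm_bw hθ hD h1.mem (h1 u (by omega)) t) D).sub
      (bm_Smp (bm_bw hθ hM h2.mem (h2 u (by omega)) t) M)
    have hn : (0:ℝ) < (n:ℝ) + 1 := by positivity
    have pt : ∀ ω, (bw P.G θ P.K t D x u (Smp P.G θ P.K D ω) - bw P.G θ P.K t M x u (Smp P.G θ P.K M ω)) ^ 2
        ≤ θ ^ (2 * (n + 1)) * ((n:ℝ) + 1) * A ω ^ 2 + (if n = 0 then 0 else θ ^ 2 * (((n:ℝ) + 1) / n) * B ω ^ 2) := by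
      intro ω
      rw [bw_mul P.tree P.deg hθ.nonneg hθ.2 P.lt_one hR.mem h1.mem (hR u hd.le) ha hy,
        bw_edge P.tree P.deg hθ.nonneg hθ.2 P.lt_one hR.mem h1.mem ha,
        bw_mul P.tree P.deg hθ.nonneg hθ.2 P.lt_one hR'.mem h2.mem (hR' u hd.le) ha hy,
        bw_edge P.tree P.deg hθ.nonneg hθ.2 P.lt_one hR'.mem h2.mem ha]
      set a := wv P.G θ P.K t D x y (Smp P.G θ P.K D ω)
      set a' := wv P.G θ P.K t M x y (Smp P.G θ P.K M ω)
      set b := bw P.G θ P.K t D y u (Smp P.G θ P.K D ω)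
      set b' := bw P.G θ P.K t M y u (Smp P.G θ P.K M ω)
      obtain ⟨w0, w1⟩ := wv_mem (G := P.G) (K := P.K) (t := t) hθ.nonneg hθ.lt_one' M x y (Smp P.G θ P.K M ω)
      have hb : |b| ≤ θ ^ n := abs_bw_le hθ _ n y u (by omega) h1
      have e : θ * a * b - θ * a' * b' = θ * ((a - a') * b) + θ * (a' * (b - b')) := by ring
      rw [e]
      have p1 : (θ * ((a - a') * b)) ^ 2 ≤ θ ^ (2 * (n + 1)) * A ω ^ 2 := by
        rw [mul_pow, mul_pow, ← sq_abs b, show θ ^ (2 * (n + 1)) = θ ^ 2 * (θ ^ n) ^ 2 by ring]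
        calc θ ^ 2 * ((a - a') ^ 2 * |b| ^ 2) ≤ θ ^ 2 * ((a - a') ^ 2 * (θ ^ n) ^ 2) := by gcongr
          _ = _ := by simp only [A, a, a']; ring
      rcases Nat.eq_zero_or_pos n with h0 | h0
      · subst h0
        rw [if_pos rfl, add_zero]
        have : u = y := ((P.tree.connected.dist_eq_zero_iff).1 (show P.G.dist y u = 0 by omega)).symm
        subst this
        have eb : b = 1 := bw_self (K := P.K) (t := t) P.tree P.deg hθ.nonneg hθ.2 P.lt_one h1.mem _
        have eb' : b' = 1 := bw_self (K := P.K) (t := t) P.tree P.deg hθ.nonneg hθ.2 P.lt_one h2.mem _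
        rw [eb, eb', sub_self, mul_zero, mul_zero, add_zero]
        rw [eb] at p1
        simpa using p1
      · rw [if_neg h0.ne']
        have hn0 : (0:ℝ) < n := by exact_mod_cast h0
        set X := θ * ((a - a') * b)
        set Y := θ * (a' * (b - b'))
        have p2 : Y ^ 2 ≤ θ ^ 2 * B ω ^ 2 := by
          simp only [Y, mul_pow]
          refine mul_le_mul_of_nonneg_left (mul_le_of_le_one_left (sq_nonneg _) ?_) (sq_nonneg _)
          exact pow_le_one₀ w0 w1
        have key : (X + Y) ^ 2 ≤ ((n:ℝ) + 1) * X ^ 2 + (((n:ℝ) + 1) / n) * Y ^ 2 := by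
          have : 0 ≤ ((n:ℝ) * X - Y) ^ 2 / n := by positivity
          have e2 : ((n:ℝ) + 1) * X ^ 2 + (((n:ℝ) + 1) / n) * Y ^ 2 - (X + Y) ^ 2
              = ((n:ℝ) * X - Y) ^ 2 / n := by field_simp; ring
          linarith
        refine key.trans ?_
        have q1 := mul_le_mul_of_nonneg_left p1 hn.le
        have q2 := mul_le_mul_of_nonneg_left p2 (show (0:ℝ) ≤ ((n:ℝ) + 1) / n by positivity)
        linarith
    have hA : ∫ ω, A ω ^ 2 ∂PU _ ≤ 4 * P.L4 ^ 2 * S := by
      have bd : ∀ w, BM (fun ω => (mT P.G θ P.K D t w ω - mT P.G θ P.K M t w ω) ^ 2) := fun w =>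
        ((bm_mT hθ.nonneg hθ.lt_one' D t w).sub (bm_mT hθ.nonneg hθ.lt_one' M t w)).sq
      refine (integral_mono (bA.sq.integrable _) ((((bd x).integrable _).add ((bd y).integrable _)).const_mul
        (2 * P.L4 ^ 2)) (fun ω => ?_)).trans ?_
      · simp only [Pi.add_apply, A]
        rw [← sq_abs]
        refine (pow_le_pow_left₀ (abs_nonneg _) (wv_diff hθ hR.mem h1.mem hR'.mem h2.mem ha _ _) 2).trans ?_
        rw [mul_pow, mul_comm (2:ℝ) (P.L4 ^ 2), mul_assoc]
        refine mul_le_mul_of_nonneg_left ?_ (sq_nonneg _)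
        unfold mT
        refine add_sq_le.trans ?_
        rw [sq_abs, sq_abs]
      · simp only [Pi.add_apply]
        rw [integral_const_mul, integral_add ((bd x).integrable _) ((bd y).integrable _)]
        have := hw x (by simp)
        have := hw y (by rw [SimpleGraph.dist_eq_one_iff_adj.2 ha]; omega)
        calc 2 * P.L4 ^ 2 * (_ + _) ≤ 2 * P.L4 ^ 2 * (S + S) := by gcongr
          _ = _ := by ring
    refine (integral_mono (((bm_Smp (bm_bw hθ hD hR.mem (hR u hd.le) t) D).sub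
      (bm_Smp (bm_bw hθ hM hR'.mem (hR' u hd.le) t) M)).sq.integrable _) ?_ pt).trans ?_
    · refine Integrable.add ((bA.sq.integrable _).const_mul _) ?_
      split_ifs
      · exact integrable_const _
      · exact (bB.sq.integrable _).const_mul _
    · rcases Nat.eq_zero_or_pos n with h0 | h0
      · subst h0
        simp only [if_true, add_zero, integral_const_mul]
        refine (mul_le_mul_of_nonneg_left hA (by have := hθ.nonneg; positivity)).trans (le_of_eq ?_)
        push_cast; ring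
      · simp only [if_neg h0.ne']
        rw [integral_add ((bA.sq.integrable _).const_mul _) ((bB.sq.integrable _).const_mul _),
          integral_const_mul, integral_const_mul]
        have hn0 : (0:ℝ) < n := by exact_mod_cast h0
        refine (add_le_add (mul_le_mul_of_nonneg_left hA (by have := hθ.nonneg; positivity))
          (mul_le_mul_of_nonneg_left hIH (by positivity))).trans (le_of_eq ?_)
        push_cast
        field_simp
        ring

lemma cT_eq (hθ : P.Adm θ) {D : Finset V} {t : ℝ} {v u : V} (hv : v ∈ D) (hu : u ∈ D) (ω : Om V) :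
    cT P.G θ P.K D t v u ω
      = (1 - mT P.G θ P.K D t v ω ^ 2) * bw P.G θ P.K t D v u (Smp P.G θ P.K D ω) := by
  have hk := kapK_pos P.θ1_nonneg P.lt_one P.q P.K
  have hvv := (Xw_flip_bound (K := P.K) (t := t) P.deg hθ.nonneg hθ.2 P.lt_one hv (Smp P.G θ P.K D ω)).2
  unfold Xw at hvv
  simp only [cT, if_pos hu, bw, bf, mT, Xw]
  field_simp [(show (0:ℝ) < 1 - mf P.G θ D (fld P.K t (Smp P.G θ P.K D ω)) v ^ 2 by linarith).ne']

lemma cT_sq_le (hθ : P.Adm θ) {D : Finset V} (hD : Geo P.G D) {t : ℝ} {v : V} (hv : v ∈ D) (u : V)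
    (ω : Om V) : cT P.G θ P.K D t v u ω ^ 2 ≤ (θ ^ 2) ^ P.G.dist v u := by
  rw [← sq_abs, ← pow_mul, mul_comm 2, pow_mul]
  refine pow_le_pow_left₀ (abs_nonneg _) ?_ 2
  unfold cT
  split_ifs with hu
  · exact abs_cf_le hθ.nonneg hθ.lt_one' (fld_pos P.K t _) P.tree hD hv hu
  · simpa using pow_nonneg hθ.nonneg _

lemma measurable_gap (hθ : P.Adm θ) (hθ' : P.Adm θ') (D D' : Finset V) (v u : V) :
    Measurable (fun p : ℝ × Om V => gap P.G θ θ' P.K D D' p.1 v u p.2) :=
  (((measurable_cT hθ.nonneg hθ.lt_one' D v u).sub (measurable_cT hθ'.nonneg hθ'.lt_one' D' v u)).pow_const 2).add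
    (((measurable_cT hθ'.nonneg hθ'.lt_one' D' v u).pow_const 2).mul
      (((measurable_mT D u).sub (measurable_mT D' u)).pow_const 2))

lemma gap_le_pow (hθ : P.Adm θ) (hθ' : P.Adm θ') {D D' : Finset V} (hD : Geo P.G D)
    (hD' : Geo P.G D') {v : V} (hv : v ∈ D) (hv' : v ∈ D') (t : ℝ) (u : V) (ω : Om V) :
    gap P.G θ θ' P.K D D' t v u ω ≤ 2 * (θ ^ 2) ^ P.G.dist v u + 6 * (θ' ^ 2) ^ P.G.dist v u := by
  have a1 := cT_sq_le hθ hD (t := t) hv u ω
  have a2 := cT_sq_le hθ' hD' (t := t) hv' u ω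
  have a3 := abs_mT_le (G := P.G) (K := P.K) hθ.nonneg hθ.lt_one' D t u ω
  have a4 := abs_mT_le (G := P.G) (K := P.K) hθ'.nonneg hθ'.lt_one' D' t u ω
  have h1 : (cT P.G θ P.K D t v u ω - cT P.G θ' P.K D' t v u ω) ^ 2
      ≤ 2 * cT P.G θ P.K D t v u ω ^ 2 + 2 * cT P.G θ' P.K D' t v u ω ^ 2 := by
    nlinarith [sq_nonneg (cT P.G θ P.K D t v u ω + cT P.G θ' P.K D' t v u ω)]
  have h2 : (mT P.G θ P.K D t u ω - mT P.G θ' P.K D' t u ω) ^ 2 ≤ 4 := by
    obtain ⟨b3, b3'⟩ := abs_le.1 a3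
    obtain ⟨b4, b4'⟩ := abs_le.1 a4
    nlinarith [sq_nonneg (mT P.G θ P.K D t u ω + mT P.G θ' P.K D' t u ω)]
  have h3 := mul_le_mul_of_nonneg_left h2 (sq_nonneg (cT P.G θ' P.K D' t v u ω))
  unfold gap
  linarith

/-- the discrepancy of two volumes at one time, near `v` -/
lemma gap_near [Countable V] (hθ : P.Adm θ) {t S : ℝ} (hS : 0 ≤ S) {D M : Finset V}
    (hD : Geo P.G D) (hM : Geo P.G M) {v u : V} {n : ℕ} (hd : P.G.dist v u = n)
    (hR : Rch P.G v n D) (hR' : Rch P.G v n M)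
    (hw : ∀ w, P.G.dist v w ≤ n → ∫ ω, (mT P.G θ P.K D t w ω - mT P.G θ P.K M t w ω) ^ 2 ∂PU _ ≤ S) :
    ∫ ω, gap P.G θ θ P.K D M t v u ω ∂PU _
      ≤ (θ ^ 2) ^ n * ((9 + 8 * P.L4 ^ 2 * (n : ℝ) ^ 2) * S) := by
  have hvD := hR.mem
  have hvM := hR'.mem
  have huD := hR u hd.le
  have huM := hR' u hd.le
  set Bd : Om V → ℝ := fun ω =>
    bw P.G θ P.K t D v u (Smp P.G θ P.K D ω) - bw P.G θ P.K t M v u (Smp P.G θ P.K M ω)
  have bB : BM Bd := (bm_Smp (bm_bw hθ hD hvD huD t) D).sub (bm_Smp (bm_bw hθ hM hvM huM t) M)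
  have bd : ∀ w, BM (fun ω => (mT P.G θ P.K D t w ω - mT P.G θ P.K M t w ω) ^ 2) := fun w =>
    ((bm_mT hθ.nonneg hθ.lt_one' D t w).sub (bm_mT hθ.nonneg hθ.lt_one' M t w)).sq
  have pt : ∀ ω, gap P.G θ θ P.K D M t v u ω
      ≤ (θ ^ 2) ^ n * (8 * (mT P.G θ P.K D t v ω - mT P.G θ P.K M t v ω) ^ 2
          + (mT P.G θ P.K D t u ω - mT P.G θ P.K M t u ω) ^ 2) + 2 * Bd ω ^ 2 := by
    intro ω
    have a3 := abs_mT_le (G := P.G) (K := P.K) hθ.nonneg hθ.lt_one' D t v ω
    have a4 := abs_mT_le (G := P.G) (K := P.K) hθ.nonneg hθ.lt_one' M t v ω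
    have hb : bw P.G θ P.K t D v u (Smp P.G θ P.K D ω) ^ 2 ≤ (θ ^ 2) ^ n := by
      rw [← sq_abs, ← pow_mul, mul_comm 2, pow_mul]
      exact pow_le_pow_left₀ (abs_nonneg _) (abs_bw_le hθ _ n v u hd hR) 2
    have hc := cT_sq_le hθ hM (t := t) hvM u ω
    rw [hd] at hc
    unfold gap
    rw [cT_eq hθ hvD huD] at *
    rw [cT_eq hθ hvM huM] at *
    set a := mT P.G θ P.K D t v ω
    set a' := mT P.G θ P.K M t v ω
    set b := bw P.G θ P.K t D v u (Smp P.G θ P.K D ω)
    set b' := bw P.G θ P.K t M v u (Smp P.G θ P.K M ω)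
    have hvar : ((1 - a ^ 2) - (1 - a' ^ 2)) ^ 2 ≤ 4 * (a - a') ^ 2 := by
      have : (a + a') ^ 2 ≤ 4 := by
        obtain ⟨b3, b3'⟩ := abs_le.1 a3
        obtain ⟨b4, b4'⟩ := abs_le.1 a4
        nlinarith [sq_nonneg (a - a')]
      calc ((1 - a ^ 2) - (1 - a' ^ 2)) ^ 2 = (a + a') ^ 2 * (a - a') ^ 2 := by ring
        _ ≤ _ := mul_le_mul_of_nonneg_right this (sq_nonneg _)
    have hv1 : (1 - a' ^ 2) ^ 2 ≤ 1 := by
      have : a' ^ 2 ≤ 1 := (sq_le_one_iff_abs_le_one _).2 a4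
      nlinarith [sq_nonneg a']
    have e : (1 - a ^ 2) * b - (1 - a' ^ 2) * b'
        = ((1 - a ^ 2) - (1 - a' ^ 2)) * b + (1 - a' ^ 2) * (b - b') := by ring
    rw [e]
    refine (add_le_add add_sq_le (mul_le_mul_of_nonneg_right hc (sq_nonneg _))).trans ?_
    have q1 := mul_le_mul hvar hb (sq_nonneg _) (by positivity)
    have q2 := mul_le_mul_of_nonneg_right hv1 (sq_nonneg (b - b'))
    rw [mul_pow, mul_pow]
    have hBd : Bd ω = b - b' := rfl
    rw [hBd]
    linarith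
  have hBd := bw_diff_sq hθ hS hD hM n v u hd hR hR' hw
  have ib : Integrable (fun ω => (θ ^ 2) ^ n * (8 * (mT P.G θ P.K D t v ω - mT P.G θ P.K M t v ω) ^ 2
      + (mT P.G θ P.K D t u ω - mT P.G θ P.K M t u ω) ^ 2) + 2 * Bd ω ^ 2) (PU _) :=
    (((((bd v).integrable _).const_mul 8).add ((bd u).integrable _)).const_mul _).add
      ((bB.sq.integrable _).const_mul 2)
  refine (integral_mono_of_nonneg (ae_of_all _ (fun ω => gap_nonneg D M t v u ω)) ib (ae_of_all _ pt)).trans ?_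
  have i1 : Integrable (fun ω => 8 * (mT P.G θ P.K D t v ω - mT P.G θ P.K M t v ω) ^ 2) (PU _) :=
    ((bd v).integrable _).const_mul 8
  have i2 : Integrable (fun ω => (θ ^ 2) ^ n * (8 * (mT P.G θ P.K D t v ω - mT P.G θ P.K M t v ω) ^ 2
      + (mT P.G θ P.K D t u ω - mT P.G θ P.K M t u ω) ^ 2)) (PU _) :=
    (i1.add ((bd u).integrable _)).const_mul _
  rw [integral_add i2 ((bB.sq.integrable _).const_mul 2),
    integral_const_mul, integral_const_mul, integral_add i1 ((bd u).integrable _), integral_const_mul]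
  have e : θ ^ (2 * n) = (θ ^ 2) ^ n := pow_mul θ 2 n
  rw [e] at hBd
  have hv' := hw v (by simp)
  have hu' := hw u hd.le
  have hp : 0 ≤ (θ ^ 2) ^ n := by positivity
  have q1 := mul_le_mul_of_nonneg_left (add_le_add (mul_le_mul_of_nonneg_left hv' (show (0:ℝ) ≤ 8 by norm_num)) hu') hp
  simp only [Bd] at hBd ⊢
  linarith

variable (P) in
/-- the samplers form a Cauchy family below criticality, uniformly in time -/
lemma cauchy_mT [Countable V] (hθ : P.Adm θ) (hlt : θ < P.θ1) {δ : ℝ} (hδ : 0 < δ) :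
    ∃ R, ∀ (v : V) (D M : Finset V), Geo P.G D → Geo P.G M → ball P.G P.fin v R ⊆ D →
      ball P.G P.fin v R ⊆ M → ∀ t ∈ Icc (0:ℝ) P.K,
        ∫ ω, (mT P.G θ P.K D t v ω - mT P.G θ P.K M t v ω) ^ 2 ∂PU _ ≤ δ := by
  set a := (P.q : ℝ) * θ ^ 2 with ha
  have ha1 : a < 1 := hθ.sub hlt
  have ha0 : 0 < a := mul_pos (by exact_mod_cast P.one_le_q) (pow_pos hθ.posθ 2)
  have hsum : Summable (fun n : ℕ => 2 * a ^ n * (9 + 8 * P.L4 ^ 2 * (n : ℝ) ^ 2)) := by
    have h1 := (summable_geometric_of_lt_one ha0.le ha1).mul_left 18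
    have h2 := (summable_pow_mul_geometric_of_norm_lt_one 2
      (r := a) (by rwa [Real.norm_eq_abs, abs_of_pos ha0])).mul_left (16 * P.L4 ^ 2)
    exact (h1.add h2).congr (fun n => by ring)
  set C1 := ∑' n : ℕ, 2 * a ^ n * (9 + 8 * P.L4 ^ 2 * (n : ℝ) ^ 2)
  have hC1 : 0 ≤ C1 := tsum_nonneg (fun n => by positivity)
  set C := (1 + (P.K : ℝ)) * P.K * C1 with hC
  have hC0 : 0 ≤ C := by positivity
  set b := (1 + 1 / a) / 2 with hb
  have hb1 : 1 < b := by
    have : 1 < 1 / a := by rw [lt_div_iff₀ ha0]; linarith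
    rw [hb]; linarith
  have hqab : (P.q : ℝ) * (θ ^ 2 * b) < 1 := by
    rw [← mul_assoc, ← ha, hb, mul_div_assoc', mul_add, mul_one_div, div_self ha0.ne',
      div_lt_one two_pos]
    linarith
  suffices key : ∀ (j : ℕ) (δ : ℝ), 0 < δ → ∃ R, ∀ (v : V) (D M : Finset V), Geo P.G D → Geo P.G M →
      ball P.G P.fin v R ⊆ D → ball P.G P.fin v R ⊆ M → ∀ t ∈ Icc (0:ℝ) P.K,
        ∫ ω, (mT P.G θ P.K D t v ω - mT P.G θ P.K M t v ω) ^ 2 ∂PU _
          ≤ 4 * ((C * t) ^ j / (j.factorial : ℝ)) + δ by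
    have hlim := (FloorSemiring.tendsto_pow_div_factorial_atTop (C * P.K)).const_mul (4:ℝ)
    rw [mul_zero] at hlim
    obtain ⟨j, hj⟩ := (hlim.eventually (gt_mem_nhds (half_pos hδ))).exists
    obtain ⟨R, hR⟩ := key j (δ / 2) (half_pos hδ)
    refine ⟨R, fun v D M hD hM h1 h2 t ht => (hR v D M hD hM h1 h2 t ht).trans ?_⟩
    have : (C * t) ^ j / (j.factorial : ℝ) ≤ (C * P.K) ^ j / (j.factorial : ℝ) := by
      have := ht.1
      gcongr
      exact ht.2
    linarith
  intro j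
  induction j with
  | zero =>
    intro δ hδ
    refine ⟨0, fun v D M _ _ _ _ t _ => ?_⟩
    simp only [pow_zero, Nat.factorial_zero, Nat.cast_one, div_one, mul_one]
    have hb' : ∀ ω, (mT P.G θ P.K D t v ω - mT P.G θ P.K M t v ω) ^ 2 ≤ 4 := fun ω => by
      obtain ⟨b3, b3'⟩ := abs_le.1 (abs_mT_le (G := P.G) (K := P.K) hθ.nonneg hθ.lt_one' D t v ω)
      obtain ⟨b4, b4'⟩ := abs_le.1 (abs_mT_le (G := P.G) (K := P.K) hθ.nonneg hθ.lt_one' M t v ω)
      nlinarith [sq_nonneg (mT P.G θ P.K D t v ω + mT P.G θ P.K M t v ω)]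
    have := integral_mono ((((bm_mT hθ.nonneg hθ.lt_one' D t v).sub
      (bm_mT hθ.nonneg hθ.lt_one' M t v)).sq).integrable (PU ((V × ℕ) ⊕ (V × ℕ)))) (integrable_const (4:ℝ)) hb'
    rw [integral_const, probReal_univ, one_smul] at this
    linarith
  | succ j ih =>
    intro δ hδ
    set δ' := δ / ((1 + (P.K : ℝ)) * P.K * P.K * (C1 + 1) + 1) with hδ'
    have hδ'0 : 0 < δ' := by positivity
    obtain ⟨R', hR'⟩ := ih δ' hδ'0
    obtain ⟨N, hN⟩ : ∃ N : ℕ, 8 * (2 / (1 - P.q * (θ ^ 2 * b))) * b⁻¹ ^ N ≤ δ' := by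
      have hl := (tendsto_pow_atTop_nhds_zero_of_lt_one (inv_nonneg.2 (by linarith : (0:ℝ) ≤ b))
        (inv_lt_one_of_one_lt₀ hb1)).const_mul (8 * (2 / (1 - P.q * (θ ^ 2 * b))))
      rw [mul_zero] at hl
      obtain ⟨N, hN⟩ := (hl.eventually (gt_mem_nhds hδ'0)).exists
      exact ⟨N, hN.le⟩
    refine ⟨N + R', fun v D M hD hM hvD hvM t ht => ?_⟩
    have hvD' : v ∈ D := hvD (self_mem_ball P.tree P.fin v _)
    have hvM' : v ∈ M := hvM (self_mem_ball P.tree P.fin v _)
    set f : ℝ → ℝ := fun s => str s ^ 2 * (if s ∈ Icc (0:ℝ) P.K then 1 else 0) with hf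
    have hf0 : ∀ s, 0 ≤ f s := fun s => mul_nonneg (sq_nonneg _) (by split_ifs <;> norm_num)
    have hf1 : ∀ s, f s ≤ 1 := fun s => by
      simp only [hf]
      split_ifs with hs
      · rw [mul_one]; exact pow_le_one₀ (str_mem hs.1).1 (str_mem hs.1).2
      · simp
    have hfm : Measurable f :=
      (measurable_str.pow_const 2).mul (Measurable.ite measurableSet_Icc measurable_const measurable_const)
    have hG : ∀ s ∈ Ioo 0 t, f s * ∑ u ∈ D ∪ M, ∫ ω, gap P.G θ θ P.K D M s v u ω ∂PU _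
        ≤ C1 * (4 * ((C * s) ^ j / (j.factorial : ℝ))) + (C1 + 1) * δ' := by
      intro s hs
      have hsK : s ∈ Icc (0:ℝ) P.K := ⟨hs.1.le, hs.2.le.trans ht.2⟩
      set S := 4 * ((C * s) ^ j / (j.factorial : ℝ)) + δ' with hS
      have hS0 : 0 ≤ S := by have := hs.1; positivity
      refine le_trans (mul_le_of_le_one_left (Finset.sum_nonneg (fun u _ =>
        integral_nonneg (fun ω => gap_nonneg D M s v u ω))) (hf1 s)) ?_
      have hwS : ∀ w, P.G.dist v w ≤ N →
          ∫ ω, (mT P.G θ P.K D s w ω - mT P.G θ P.K M s w ω) ^ 2 ∂PU _ ≤ S := by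
        intro w hw
        have hsub : ball P.G P.fin w R' ⊆ ball P.G P.fin v (N + R') := fun x hx => by
          rw [mem_ball_iff P.tree] at hx ⊢
          have := P.tree.connected.dist_triangle (u := x) (v := w) (w := v)
          rw [P.G.dist_comm (u := w) (v := v)] at this
          omega
        exact hR' w D M hD hM (hsub.trans hvD) (hsub.trans hvM) s hsK
      have hsubI : ball P.G P.fin v N ⊆ D ∪ M :=
        ((ball_mono P.tree P.fin v (Nat.le_add_right N R')).trans hvD).trans Finset.subset_union_left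
      rw [P.sum_sph v N (D ∪ M) _ hsubI]
      have hnear : ∑ n ∈ Finset.range (N + 1), ∑ u ∈ sph P.G P.fin v n,
          ∫ ω, gap P.G θ θ P.K D M s v u ω ∂PU _ ≤ C1 * S := by
        calc _ ≤ ∑ n ∈ Finset.range (N + 1), 2 * a ^ n * (9 + 8 * P.L4 ^ 2 * (n : ℝ) ^ 2) * S := by
              refine Finset.sum_le_sum (fun n hn => ?_)
              have hnN : n ≤ N := Nat.lt_succ_iff.1 (Finset.mem_range.1 hn)
              refine (Finset.sum_le_card_nsmul _ _ ((θ ^ 2) ^ n * ((9 + 8 * P.L4 ^ 2 * (n : ℝ) ^ 2) * S))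
                (fun u hu => ?_)).trans ?_
              · exact gap_near hθ hS0 hD hM (P.mem_sph.1 hu)
                  ((P.rch_ball hvD).mono (by omega)) ((P.rch_ball hvM).mono (by omega))
                  (fun w hw => hwS w (hw.trans hnN))
              · rw [nsmul_eq_mul]
                refine (mul_le_mul_of_nonneg_right (P.card_sph_le v n) (by positivity)).trans (le_of_eq ?_)
                rw [ha, mul_pow]; ring
          _ ≤ C1 * S := by
              rw [← Finset.sum_mul]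
              exact mul_le_mul_of_nonneg_right (hsum.sum_le_tsum _ (fun n _ => by positivity)) hS0
      have hfar : ∑ u ∈ (D ∪ M).filter (fun u => N < P.G.dist v u),
          ∫ ω, gap P.G θ θ P.K D M s v u ω ∂PU _ ≤ δ' := by
        refine le_trans ?_ hN
        calc _ ≤ ∑ u ∈ (D ∪ M).filter (fun u => N < P.G.dist v u), 8 * (θ ^ 2) ^ P.G.dist u v := by
              refine Finset.sum_le_sum (fun u _ => ?_)
              have h := integral_mono_of_nonneg (μ := PU ((V × ℕ) ⊕ (V × ℕ)))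
                (ae_of_all _ (fun ω => gap_nonneg D M s v u ω)) (integrable_const (8 * (θ ^ 2) ^ P.G.dist u v))
                (ae_of_all _ (fun ω => (gap_le_pow hθ hθ hD hM hvD' hvM' s u ω).trans (le_of_eq (by
                  rw [P.G.dist_comm]; ring))))
              rw [integral_const, probReal_univ, one_smul] at h
              exact h
          _ ≤ _ := by
              rw [← Finset.mul_sum, mul_assoc]
              refine mul_le_mul_of_nonneg_left ?_ (by norm_num)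
              exact sum_pow_dist_far_le P.tree P.deg P.one_le_q (pow_pos hθ.posθ 2) hb1 hqab v N _
                (fun w hw => by
                  have := (Finset.mem_filter.1 hw).2
                  rw [P.G.dist_comm]; omega)
      refine (add_le_add hnear hfar).trans (le_of_eq ?_)
      rw [hS]; ring
    have hgb : ∀ s, ∀ u ∈ D ∪ M, ∀ ω, gap P.G θ θ P.K D M s v u ω ≤ 8 := fun s u _ ω =>
      abs_gap_le P.tree hθ.nonneg hθ.lt_one' hθ.nonneg hθ.lt_one' hD hM hvD' hvM' s u ω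
    refine (isometry_le P.tree hθ.nonneg hθ.lt_one' hθ.nonneg hθ.lt_one' hD hM
      (I := D ∪ M) Finset.subset_union_left Finset.subset_union_right hvD' hvM' t).trans ?_
    have e : ∀ i ∈ box P.K (D ∪ M), ∫ ω, (if tau ω i < t then
          str (tau ω i) ^ 2 * gap P.G θ θ P.K D M (tau ω i) v i.1 ω else 0) ∂PU _
        = ∫ ω, (if tau ω i < t then f (tau ω i) * gap P.G θ θ P.K D M (tau ω i) v i.1 ω else 0) ∂PU _ := by
      intro i _
      refine integral_congr_ae (ae_of_all _ (fun ω => ?_))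
      by_cases c : tau ω i < t
      · have : tau ω i ∈ Icc (0:ℝ) P.K := ⟨tim_nonneg _ _, c.le.trans ht.2⟩
        simp only [hf, if_pos c, if_pos this, mul_one]
      · simp [c]
    rw [Finset.sum_congr rfl e]
    refine (P.sum_time_le ht.1 ht.2 (F := fun s u ω => gap P.G θ θ P.K D M s v u ω)
      (fun u => measurable_gap hθ hθ D M v u) (fun s u ω => gap_nonneg D M s v u ω) hgb
      (fun s u k ω y y' hy hy' => ?_) hfm hf0 hf1).trans ?_
    · obtain ⟨-, m1, c1⟩ := P.state_indep (θ := θ) D (i := (u, k)) (ω := ω) hy hy'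
      obtain ⟨-, m2, c2⟩ := P.state_indep (θ := θ) M (i := (u, k)) (ω := ω) hy hy'
      simp only [gap, m1, c1, m2, c2]
    · have hi : IntegrableOn (fun s => C1 * (4 * ((C * s) ^ j / (j.factorial : ℝ))) + (C1 + 1) * δ')
          (Ioo 0 t) := by
        refine (Continuous.integrableOn_Icc ?_).mono_set Ioo_subset_Icc_self
        fun_prop
      have hint : ∫ s in Ioo 0 t, (f s * ∑ u ∈ D ∪ M, ∫ ω, gap P.G θ θ P.K D M s v u ω ∂PU _)
          ≤ ∫ s in Ioo 0 t, (C1 * (4 * ((C * s) ^ j / (j.factorial : ℝ))) + (C1 + 1) * δ') :=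
        integral_mono_of_nonneg (ae_of_all _ (fun s => mul_nonneg (hf0 s) (Finset.sum_nonneg (fun u _ =>
          integral_nonneg (fun ω => gap_nonneg D M s v u ω))))) hi
          (by filter_upwards [ae_restrict_mem measurableSet_Ioo] with s hs using hG s hs)
      refine (mul_le_mul_of_nonneg_left hint (by positivity)).trans ?_
      rw [← integral_Ioc_eq_integral_Ioo, ← intervalIntegral.integral_of_le ht.1,
        intervalIntegral.integral_add (by apply Continuous.intervalIntegrable; fun_prop) intervalIntegrable_const,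
        intervalIntegral.integral_const_mul, intervalIntegral.integral_const_mul,
        intervalIntegral.integral_div, intervalIntegral.integral_const]
      simp only [mul_pow, intervalIntegral.integral_const_mul, integral_pow, sub_zero, smul_eq_mul]
      rw [zero_pow (Nat.succ_ne_zero j), sub_zero, Nat.factorial_succ, mul_add]
      refine add_le_add (le_of_eq ?_) ?_
      · push_cast
        rw [hC]
        field_simp
        ring
      · calc (1 + (P.K : ℝ)) * P.K * (t * ((C1 + 1) * δ'))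
            ≤ (1 + (P.K : ℝ)) * P.K * (P.K * ((C1 + 1) * δ')) := by
              gcongr
              exact ht.2
          _ = ((1 + (P.K : ℝ)) * P.K * P.K * (C1 + 1)) * δ' := by ring
          _ ≤ δ := by
              rw [hδ', mul_div_assoc', div_le_iff₀ (by positivity)]
              nlinarith

end Env

end Vale.Agent.P161.Crit
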