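import Mathlib
import Vale.Agent.P161.Crit.Sub

/-!
The limiting means, influences and edge observables below the critical parameter, and their
invariance under automorphisms.
-/

open MeasureTheory Set Function Filter
open scoped Classical Topology

noncomputable section

namespace Vale.Agent.P161.Crit

variable {V : Type*}

namespace Reg

variable {G : SimpleGraph V} {F H : Finset V → Om V → ℝ}

lemma lim_le (hF : Reg G F) [(vol G).NeBot] {c : ℝ}
    (h : ∀ δ > 0, ∀ᶠ D in vol G, ∫ ω, F D ω ∂PU _ ≤ c + δ) : limI G F ≤ c :=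
  le_of_forall_pos_le_add (fun δ hδ => le_of_tendsto hF.tendsto (h δ hδ))

lemma lim_mono (hF : Reg G F) (hH : Reg G H) [(vol G).NeBot]
    (h : ∀ᶠ D in vol G, ∀ ω, F D ω ≤ H D ω) : limI G F ≤ limI G H := by
  obtain ⟨C, hC⟩ := hF.bdd
  obtain ⟨C', hC'⟩ := hH.bdd
  refine le_of_tendsto_of_tendsto hF.tendsto hH.tendsto ?_
  filter_upwards [h, hC, hC'] with D hD h1 h2
  exact integral_mono (integrable_of h1.1 h1.2) (integrable_of h2.1 h2.2) hD

lemma lim_add (hF : Reg G F) (hH : Reg G H) [(vol G).NeBot] :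
    limI G (fun D ω => F D ω + H D ω) = limI G F + limI G H := by
  obtain ⟨C, hC⟩ := hF.bdd
  obtain ⟨C', hC'⟩ := hH.bdd
  refine tendsto_nhds_unique (hF.add hH).tendsto ((hF.tendsto.add hH.tendsto).congr' ?_)
  filter_upwards [hC, hC'] with D h1 h2
  exact (integral_add (integrable_of h1.1 h1.2) (integrable_of h2.1 h2.2)).symm

lemma lim_const [(vol G).NeBot] (c : ℝ) : limI G (fun _ _ => c) = c := by
  refine tendsto_nhds_unique (const (G := G) c).tendsto (tendsto_const_nhds.congr (fun D => ?_))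
  simp

lemma lim_const_mul (hF : Reg G F) [(vol G).NeBot] (c : ℝ) :
    limI G (fun D ω => c * F D ω) = c * limI G F := by
  refine tendsto_nhds_unique ((const (G := G) c).mul hF).tendsto ((hF.tendsto.const_mul c).congr (fun D => ?_))
  exact (integral_const_mul c _).symm

lemma lim_sum [(vol G).NeBot] {ι : Type*} (s : Finset ι) {f : ι → Finset V → Om V → ℝ}
    (h : ∀ i ∈ s, Reg G (f i)) : limI G (fun D ω => ∑ i ∈ s, f i D ω) = ∑ i ∈ s, limI G (f i) := by
  induction s using Finset.induction with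
  | empty => simpa using lim_const (G := G) 0
  | insert i s hi ih =>
    simp only [Finset.sum_insert hi]
    rw [lim_add (h i (Finset.mem_insert_self i s)) (sum s (fun j hj => h j (Finset.mem_insert_of_mem hj))),
      ih (fun j hj => h j (Finset.mem_insert_of_mem hj))]

lemma comp_lipschitz (hF : Reg G F) {f : ℝ → ℝ} (hf : Measurable f) {B L C : ℝ} (hL : 0 ≤ L)
    (hB : ∀ᶠ D in vol G, ∀ ω, |F D ω| ≤ B) (hC : ∀ x, |x| ≤ B → |f x| ≤ C)
    (hlip : ∀ x y, |x| ≤ B → |y| ≤ B → |f x - f y| ≤ L * |x - y|) :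
    Reg G (fun D ω => f (F D ω)) := by
  obtain ⟨C0, hC0⟩ := hF.bdd
  refine hF.of_le (B := fun _ _ => (0:ℝ)) (C := C) hL (const 0) ?_
    ⟨{D | ∀ ω, |F D ω| ≤ B}, hB, fun D hD M hM ω => ?_⟩
  · filter_upwards [hC0, hB] with D h1 h2
    exact ⟨hf.comp h1.1, fun ω => hC _ (h2 ω)⟩
  · simpa using hlip _ _ (hD ω) (hM ω)

end Reg

namespace Env

variable (P : Env V)

/-- parameters strictly below the critical one -/
def Below (θ : ℝ) : Prop := P.Adm θ ∧ θ < P.θ1

/-- limiting means -/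
def M (θ t : ℝ) (v : V) : Finset V → Om V → ℝ := fun D ω => mT P.G θ P.K D t v ω

/-- influences seen by the sampler -/
def W (θ t : ℝ) (x u : V) : Finset V → Om V → ℝ :=
  fun D ω => bw P.G θ P.K t D x u (Smp P.G θ P.K D ω)

/-- normalised influences along edges -/
def Wv (θ t : ℝ) (x y : V) : Finset V → Om V → ℝ :=
  fun D ω => wv P.G θ P.K t D x y (Smp P.G θ P.K D ω)

/-- logarithmic influences along edges -/
def Ph (θ t : ℝ) (x y : V) : Finset V → Om V → ℝ :=
  fun D ω => phi P.G θ P.K t D x y (Smp P.G θ P.K D ω)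

/-- truncation of times to the horizon -/
def clamp (s : ℝ) : ℝ := max 0 (min s P.K)

lemma clamp_mem (s : ℝ) : P.clamp s ∈ Icc (0:ℝ) P.K :=
  ⟨le_max_left _ _, max_le (Nat.cast_nonneg _) (min_le_right _ _)⟩

lemma clamp_eq {s : ℝ} (h : s ∈ Icc (0:ℝ) P.K) : P.clamp s = s := by
  unfold clamp; rw [min_eq_left h.2, max_eq_right h.1]

lemma neBot : (vol P.G).NeBot := vol_neBot P.tree P.deg

lemma eventually_rch (v : V) (n : ℕ) : ∀ᶠ D in vol P.G, Geo P.G D ∧ Rch P.G v n D :=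
  eventually_vol (E := ball P.G P.fin v n) (fun _ h1 h2 => ⟨h1, P.rch_ball h2⟩)

lemma exists_iso_pair {a b a' b' : V} (h : P.G.dist a b = P.G.dist a' b') :
    ∃ g : P.G ≃g P.G, g a = a' ∧ g b = b' := by
  have path : ∀ (n : ℕ) (a b : V), P.G.dist a b = n →
      ∃ p : ℕ → V, IsGeod P.G n p ∧ p 0 = a ∧ p n = b := by
    intro n a b hd
    cases n with
    | zero =>
      rw [P.tree.connected.dist_eq_zero_iff] at hd
      exact ⟨fun _ => a, ⟨fun i hi => absurd hi (by omega), by simp⟩, rfl, hd⟩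
    | succ m =>
      obtain ⟨y, ha, hy⟩ := exists_toward P.tree (show a ≠ b by rintro rfl; simp at hd)
      obtain ⟨p, h1, h2, -, h3⟩ := exists_geod_through P.tree ha m b
        (by rw [P.G.dist_comm]; omega) (by rw [P.G.dist_comm]; omega)
      exact ⟨p, h1, h2, h3⟩
  obtain ⟨p, hp, p0, pn⟩ := path _ a b rfl
  obtain ⟨p', hp', p0', pn'⟩ := path _ a' b' h.symm
  obtain ⟨g, hg⟩ := exists_iso_path P.tree P.deg _ p p' hp.1 hp.2 hp'.1 hp'.2
  exact ⟨g, by rw [← p0, hg 0 (Nat.zero_le _), p0'], by rw [← pn, hg _ le_rfl, pn']⟩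

variable {P}
variable {θ t : ℝ}

lemma Below.adm (h : P.Below θ) : P.Adm θ := h.1

lemma abs_M_le (hθ : P.Adm θ) (t : ℝ) (v : V) (D : Finset V) (ω : Om V) : |P.M θ t v D ω| ≤ 1 :=
  abs_mT_le hθ.nonneg hθ.lt_one' D t v ω

lemma reg_M [Countable V] (hθ : P.Below θ) (ht : t ∈ Icc (0:ℝ) P.K) (v : V) :
    Reg P.G (P.M θ t v) := by
  refine ⟨⟨1, Eventually.of_forall (fun D => ⟨(bm_mT hθ.1.nonneg hθ.1.lt_one' D t v).1,
    abs_M_le hθ.1 t v D⟩)⟩, fun δ hδ => ?_⟩
  obtain ⟨R, hR⟩ := P.cauchy_mT hθ.1 hθ.2 (pow_pos hδ 2)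
  refine ⟨{D | Geo P.G D ∧ ball P.G P.fin v R ⊆ D}, eventually_vol (fun _ h1 h2 => ⟨h1, h2⟩),
    fun D hD M hM => ?_⟩
  have h := hR v D M hD.1 hM.1 hD.2 hM.2 t ht
  have bd : BM (fun ω => mT P.G θ P.K D t v ω - mT P.G θ P.K M t v ω) :=
    (bm_mT hθ.1.nonneg hθ.1.lt_one' D t v).sub (bm_mT hθ.1.nonneg hθ.1.lt_one' M t v)
  have pt : ∀ ω : Om V, |mT P.G θ P.K D t v ω - mT P.G θ P.K M t v ω|
      ≤ δ / 2 + 1 / (2 * δ) * (mT P.G θ P.K D t v ω - mT P.G θ P.K M t v ω) ^ 2 := by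
    intro ω
    set x := mT P.G θ P.K D t v ω - mT P.G θ P.K M t v ω
    have : 0 ≤ (|x| - δ) ^ 2 / (2 * δ) := by positivity
    have e : δ / 2 + 1 / (2 * δ) * x ^ 2 - |x| = (|x| - δ) ^ 2 / (2 * δ) := by
      rw [← sq_abs x]; field_simp; ring
    linarith
  refine (integral_mono (bd.abs.integrable _) (((integrable_const _).add
    ((bd.sq.integrable _).const_mul _))) pt).trans ?_
  simp only [Pi.add_apply]
  rw [integral_add (integrable_const _) ((bd.sq.integrable _).const_mul _), integral_const,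
    probReal_univ, one_smul, integral_const_mul]
  calc δ / 2 + 1 / (2 * δ) * _ ≤ δ / 2 + 1 / (2 * δ) * δ ^ 2 := by gcongr
    _ = δ := by field_simp; ring

lemma reg_Wv [Countable V] (hθ : P.Below θ) (ht : t ∈ Icc (0:ℝ) P.K) {x y : V} (ha : P.G.Adj x y) :
    Reg P.G (P.Wv θ t x y) := by
  refine (reg_M hθ ht x).of_le (L := P.L4) (C := 1) P.L4_nonneg (reg_M hθ ht y)
    (Eventually.of_forall (fun D => ⟨((bm_wv hθ.1.nonneg hθ.1.lt_one' D x y).comp (measurable_Smp D)).1,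
      fun ω => ?_⟩)) ⟨{D | x ∈ D ∧ y ∈ D}, eventually_vol (E := {x, y}) (fun D _ h => ?_), ?_⟩
  · obtain ⟨w0, w1⟩ := wv_mem (G := P.G) (K := P.K) (t := t) hθ.1.nonneg hθ.1.lt_one' D x y
      (Smp P.G θ P.K D ω)
    rw [Wv, abs_of_nonneg w0]
    exact w1
  · exact ⟨h (by simp), h (by simp)⟩
  · intro D hD M hM ω
    exact wv_diff hθ.1 hD.1 hD.2 hM.1 hM.2 ha _ _

lemma reg_W [Countable V] (hθ : P.Below θ) (ht : t ∈ Icc (0:ℝ) P.K) (x u : V) :
    Reg P.G (P.W θ t x u) := by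
  obtain ⟨n, hn⟩ : ∃ n, P.G.dist x u = n := ⟨_, rfl⟩
  induction n generalizing x with
  | zero =>
    rw [P.tree.connected.dist_eq_zero_iff] at hn
    subst hn
    refine (Reg.const 1).congr ((P.eventually_rch x 0).mono (fun D hD => ?_))
    funext ω
    exact bw_self P.tree P.deg hθ.1.nonneg hθ.1.2 P.lt_one hD.2.mem _
  | succ n ih =>
    obtain ⟨y, ha, hy⟩ := exists_toward P.tree (show x ≠ u by rintro rfl; simp at hn)
    refine (((Reg.const θ).mul (reg_Wv hθ ht ha)).mul (ih y (by omega))).congr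
      ((P.eventually_rch x (n + 1)).mono (fun D hD => ?_))
    funext ω
    have hR' : Rch P.G y n D := hD.2.step P.tree ha le_rfl
    simp only [W, Wv, bw_mul P.tree P.deg hθ.1.nonneg hθ.1.2 P.lt_one hD.2.mem hR'.mem (hD.2 u hn.le)
      ha hy, bw_edge P.tree P.deg hθ.1.nonneg hθ.1.2 P.lt_one hD.2.mem hR'.mem ha]

lemma measurable_Ph (hθ : P.Adm θ) (t : ℝ) (x y : V) (D : Finset V) : Measurable (P.Ph θ t x y D) := by
  have h := ((bm_wv (G := P.G) (K := P.K) (t := t) hθ.nonneg hθ.lt_one' D x y).1.comp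
    (measurable_Smp (G := P.G) (θ := θ) (K := P.K) D)).log.neg
  exact h

lemma reg_Ph [Countable V] (hθ : P.Below θ) (ht : t ∈ Icc (0:ℝ) P.K) {x y : V} (ha : P.G.Adj x y) :
    Reg P.G (P.Ph θ t x y) := by
  refine (reg_M hθ ht x).of_le (L := P.L4) (C := 1 / kapK P.q P.K P.θ1) P.L4_nonneg (reg_M hθ ht y)
    ?_ ⟨{D | x ∈ D ∧ y ∈ D}, eventually_vol (E := {x, y}) (fun D _ h => ⟨h (by simp), h (by simp)⟩), ?_⟩
  · refine eventually_vol (E := {x, y}) (fun D _ h => ⟨measurable_Ph hθ.1 t x y D, fun ω => ?_⟩)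
    obtain ⟨a, b⟩ := abs_phi_le (K := P.K) (t := t) P.tree P.deg hθ.1.nonneg hθ.1.2 P.lt_one
      (show y ∈ D from h (by simp)) ha (Smp P.G θ P.K D ω)
    rw [Ph, abs_of_nonneg a]
    exact b
  · intro D hD M hM ω
    have h := phi_diff (K := P.K) (t := t) (t' := t) P.tree P.deg P.pos hθ.1.1 hθ.1.2 hθ.1.1 hθ.1.2
      P.lt_one hD.1 hD.2 hM.1 hM.2 ha (Smp P.G θ P.K D ω) (Smp P.G θ P.K M ω)
    simp only [sub_self, abs_zero, add_zero] at h
    refine h.trans ?_
    have a1 := abs_M_le hθ.1 t x D ω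
    have a2 := abs_M_le hθ.1 t y D ω
    have a3 := abs_M_le hθ.1 t x M ω
    have a4 := abs_M_le hθ.1 t y M ω
    unfold L4
    simp only [Env.M, mT] at *
    rw [mul_comm (4:ℝ), mul_assoc]
    refine mul_le_mul_of_nonneg_left ?_ (lipC_nonneg P.pos P.le P.lt_one _ _)
    rw [mul_comm (4:ℝ)]
    refine mul_le_mul_of_nonneg_left ?_ (by positivity)
    linarith

lemma M_image (θ t : ℝ) (g : P.G ≃g P.G) (v : V) (D : Finset V) (ω : Om V) :
    P.M θ t (g v) (D.image g) (actO g ω) = P.M θ t v D ω := mT_act g D ω t v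

lemma W_image (θ t : ℝ) (g : P.G ≃g P.G) (x u : V) (D : Finset V) (ω : Om V) :
    P.W θ t (g x) (g u) (D.image g) (actO g ω) = P.W θ t x u D ω := by
  obtain ⟨-, hm, hg⟩ := field_image (θ := θ) g D
    (Smp_fld_transport (θ := θ) (K := P.K) g (agree_actO g D ω t))
  simp only [W, bw, bf, cf, hm, hg]

lemma Ph_eq (hθ : P.Adm θ) {x y : V} (ha : P.G.Adj x y) {D : Finset V} (hx : x ∈ D) (hy : y ∈ D)
    (ω : Om V) : P.Ph θ t x y D ω = - Real.log (P.W θ t x y D ω / θ) := by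
  simp only [Ph, phi, W, bw_edge P.tree P.deg hθ.nonneg hθ.2 P.lt_one hx hy ha]
  rw [mul_div_cancel_left₀ _ hθ.posθ.ne']

lemma Ph_image (hθ : P.Adm θ) (t : ℝ) (g : P.G ≃g P.G) {x y : V} (ha : P.G.Adj x y) :
    ∀ᶠ D in vol P.G, ∀ ω, P.Ph θ t (g x) (g y) (D.image g) (actO g ω) = P.Ph θ t x y D ω :=
  eventually_vol (E := {x, y}) (fun D _ h ω => by
    have hx : x ∈ D := h (by simp)
    have hy : y ∈ D := h (by simp)
    rw [Ph_eq hθ ((g.map_adj_iff).2 ha) (Finset.mem_image_of_mem g hx) (Finset.mem_image_of_mem g hy),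
      Ph_eq hθ ha hx hy, W_image])

/-- limits are measurable functions of time -/
lemma measurable_lim {F : ℝ → Finset V → Om V → ℝ} [Countable V]
    (hm : ∀ D, Measurable (fun p : ℝ × Om V => F p.1 D p.2))
    (hr : ∀ s ∈ Icc (0:ℝ) P.K, Reg P.G (F s)) :
    Measurable (fun s => limI P.G (F (P.clamp s))) := by
  have := P.neBot
  have : (vol P.G).IsCountablyGenerated := by unfold vol; infer_instance
  refine measurable_of_tendsto_metrizable' (vol P.G) (f := fun D s => ∫ ω, F (P.clamp s) D ω ∂PU _)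
    (fun D => ?_) (tendsto_pi_nhds.2 (fun s => (hr _ (P.clamp_mem s)).tendsto))
  have h1 : Measurable (fun s => ∫ ω, F s D ω ∂PU _) :=
    ((hm D).stronglyMeasurable.integral_prod_right').measurable
  exact h1.comp (measurable_const.max (measurable_id.min measurable_const))

end Env

end Vale.Agent.P161.Crit
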