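import Mathlib
import Vale.Agent.P161.Crit.Base

/-!
Convergence in `L¹` of uniformly bounded families, closed under the algebraic operations used
for the observation functionals.
-/

open MeasureTheory Set Function Filter
open scoped Classical Topology

noncomputable section

namespace Vale.Agent.P161.Crit

variable {α ι : Type*} [MeasurableSpace α]

/-- `F` converges to `f` in `L¹(μ)` along `l`, staying uniformly bounded -/
structure LT (μ : Measure α) (l : Filter ι) (F : ι → α → ℝ) (f : α → ℝ) : Prop where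
  meas : ∀ D, Measurable (F D)
  measLim : Measurable f
  bdd : ∃ C, (∀ D x, |F D x| ≤ C) ∧ ∀ x, |f x| ≤ C
  conv : Tendsto (fun D => ∫ x, |F D x - f x| ∂μ) l (𝓝 0)

namespace LT

variable {μ : Measure α} [IsFiniteMeasure μ] {l : Filter ι} {F H : ι → α → ℝ} {f h : α → ℝ}

omit [IsFiniteMeasure μ] in
lemma bm (hF : LT μ l F f) (D : ι) : BM (F D) := by
  obtain ⟨C, hC, -⟩ := hF.bdd
  exact ⟨hF.meas D, C, hC D⟩

omit [IsFiniteMeasure μ] in
lemma bmLim (hF : LT μ l F f) : BM f := by
  obtain ⟨C, -, hC⟩ := hF.bdd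
  exact ⟨hF.measLim, C, hC⟩

omit [IsFiniteMeasure μ] in
lemma const {c : α → ℝ} (hc : BM c) : LT μ l (fun _ => c) c := by
  obtain ⟨C, hC⟩ := hc.2
  refine ⟨fun _ => hc.1, hc.1, ⟨C, fun _ => hC, hC⟩, ?_⟩
  simpa using tendsto_const_nhds

lemma of_le {k : α → ℝ} {F : ι → α → ℝ} (hm : ∀ D, Measurable (F D)) (hk : Measurable k)
    (hb : ∃ C, (∀ D x, |F D x| ≤ C) ∧ ∀ x, |k x| ≤ C) {B : ι → α → ℝ}
    (hB : ∀ D, BM (B D)) (hBt : Tendsto (fun D => ∫ x, B D x ∂μ) l (𝓝 0))
    (hle : ∀ D x, |F D x - k x| ≤ B D x) : LT μ l F k := by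
  obtain ⟨C, hC, hC'⟩ := hb
  refine ⟨hm, hk, ⟨C, hC, hC'⟩, squeeze_zero (fun D => integral_nonneg fun x => abs_nonneg _)
    (fun D => integral_mono ?_ ((hB D).integrable μ) (hle D)) hBt⟩
  exact ((BM.sub (F := F D) ⟨hm D, C, hC D⟩ (G := k) ⟨hk, C, hC'⟩).abs.integrable μ)

lemma add (hF : LT μ l F f) (hH : LT μ l H h) :
    LT μ l (fun D x => F D x + H D x) (fun x => f x + h x) := by
  obtain ⟨C, hC, hC'⟩ := hF.bdd
  obtain ⟨E, hE, hE'⟩ := hH.bdd
  refine of_le (B := fun D x => |F D x - f x| + |H D x - h x|) (fun D => (hF.meas D).add (hH.meas D))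
    (hF.measLim.add hH.measLim)
    ⟨C + E, fun D x => (abs_add_le _ _).trans (add_le_add (hC D x) (hE D x)),
      fun x => (abs_add_le _ _).trans (add_le_add (hC' x) (hE' x))⟩
    (fun D => (((hF.bm D).sub hF.bmLim).abs).add (((hH.bm D).sub hH.bmLim).abs)) ?_ (fun D x => ?_)
  · have := hF.conv.add hH.conv
    rw [add_zero] at this
    refine this.congr (fun D => ?_)
    exact (integral_add (((hF.bm D).sub hF.bmLim).abs.integrable μ)
      (((hH.bm D).sub hH.bmLim).abs.integrable μ)).symm
  · refine le_trans (le_of_eq ?_) (abs_add_le _ _)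
    congr 1; ring

lemma mul (hF : LT μ l F f) (hH : LT μ l H h) :
    LT μ l (fun D x => F D x * H D x) (fun x => f x * h x) := by
  obtain ⟨C, hC, hC'⟩ := hF.bdd
  obtain ⟨E, hE, hE'⟩ := hH.bdd
  refine of_le (B := fun D x => |E| * |F D x - f x| + |C| * |H D x - h x|)
    (fun D => (hF.meas D).mul (hH.meas D)) (hF.measLim.mul hH.measLim)
    ⟨|C| * |E|, fun D x => ?_, fun x => ?_⟩
    (fun D => ((BM.const |E|).mul ((hF.bm D).sub hF.bmLim).abs).add
      ((BM.const |C|).mul ((hH.bm D).sub hH.bmLim).abs)) ?_ (fun D x => ?_)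
  · rw [abs_mul]
    exact mul_le_mul ((hC D x).trans (le_abs_self C)) ((hE D x).trans (le_abs_self E))
      (abs_nonneg _) (abs_nonneg _)
  · rw [abs_mul]
    exact mul_le_mul ((hC' x).trans (le_abs_self C)) ((hE' x).trans (le_abs_self E))
      (abs_nonneg _) (abs_nonneg _)
  · have := (hF.conv.const_mul |E|).add (hH.conv.const_mul |C|)
    rw [mul_zero, mul_zero, add_zero] at this
    refine this.congr (fun D => ?_)
    rw [integral_add ((((hF.bm D).sub hF.bmLim).abs.integrable μ).const_mul _)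
      ((((hH.bm D).sub hH.bmLim).abs.integrable μ).const_mul _), integral_const_mul,
      integral_const_mul]
  · calc |F D x * H D x - f x * h x| = |(F D x - f x) * H D x + f x * (H D x - h x)| := by
          congr 1; ring
      _ ≤ |F D x - f x| * |H D x| + |f x| * |H D x - h x| := by
          rw [← abs_mul, ← abs_mul]; exact abs_add_le _ _
      _ ≤ _ := by
          rw [mul_comm |E|]
          exact add_le_add
            (mul_le_mul_of_nonneg_left ((hE D x).trans (le_abs_self E)) (abs_nonneg _))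
            (mul_le_mul_of_nonneg_right ((hC' x).trans (le_abs_self C)) (abs_nonneg _))

lemma const_mul (c : ℝ) (hF : LT μ l F f) : LT μ l (fun D x => c * F D x) (fun x => c * f x) :=
  (const (BM.const c)).mul hF

lemma sum {κ : Type*} (s : Finset κ) {F : κ → ι → α → ℝ} {f : κ → α → ℝ}
    (hF : ∀ k ∈ s, LT μ l (F k) (f k)) :
    LT μ l (fun D x => ∑ k ∈ s, F k D x) (fun x => ∑ k ∈ s, f k x) := by
  induction s using Finset.induction with
  | empty => simpa using const (μ := μ) (l := l) (BM.const 0)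
  | insert k s hk ih =>
    simp only [Finset.sum_insert hk]
    exact (hF k (Finset.mem_insert_self k s)).add
      (ih (fun j hj => hF j (Finset.mem_insert_of_mem hj)))

lemma prod {κ : Type*} (s : Finset κ) {F : κ → ι → α → ℝ} {f : κ → α → ℝ}
    (hF : ∀ k ∈ s, LT μ l (F k) (f k)) :
    LT μ l (fun D x => ∏ k ∈ s, F k D x) (fun x => ∏ k ∈ s, f k x) := by
  induction s using Finset.induction with
  | empty => simpa using const (μ := μ) (l := l) (BM.const 1)
  | insert k s hk ih =>
    simp only [Finset.prod_insert hk]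
    exact (hF k (Finset.mem_insert_self k s)).mul
      (ih (fun j hj => hF j (Finset.mem_insert_of_mem hj)))

lemma comp_cc (hF : LT μ l F f) : LT μ l (fun D x => cc (F D x)) (fun x => cc (f x)) := by
  refine of_le (B := fun D x => 2 * |F D x - f x|) (fun D => measurable_cc.comp (hF.meas D))
    (measurable_cc.comp hF.measLim) ⟨1, fun _ _ => abs_cc _, fun _ => abs_cc _⟩
    (fun D => (BM.const 2).mul ((hF.bm D).sub hF.bmLim).abs) ?_ (fun D x => ?_)
  · have := hF.conv.const_mul 2
    rw [mul_zero] at this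
    exact this.congr (fun D => (integral_const_mul _ _).symm)
  · rw [cc_sub, abs_mul, abs_two]
    exact mul_le_mul_of_nonneg_left (abs_cl_sub_le _ _) zero_le_two

lemma integral_tendsto (hF : LT μ l F f) :
    Tendsto (fun D => ∫ x, F D x ∂μ) l (𝓝 (∫ x, f x ∂μ)) := by
  rw [tendsto_iff_norm_sub_tendsto_zero]
  refine squeeze_zero (fun D => norm_nonneg _) (fun D => ?_) hF.conv
  rw [← integral_sub ((hF.bm D).integrable μ) (hF.bmLim.integrable μ), Real.norm_eq_abs]
  exact abs_integral_le_integral_abs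

/-- limits of asymptotically equal families agree almost everywhere -/
lemma ae_eq [l.NeBot] (hF : LT μ l F f) (hH : LT μ l H h)
    (e : ∀ᶠ D in l, ∀ x, F D x = H D x) : f =ᵐ[μ] h := by
  have hfh : BM (fun x => |f x - h x|) := (hF.bmLim.sub hH.bmLim).abs
  have h0 : ∫ x, |f x - h x| ∂μ ≤ 0 := by
    have := hF.conv.add hH.conv
    rw [add_zero] at this
    refine ge_of_tendsto this (e.mono (fun D hD => ?_))
    rw [← integral_add (((hF.bm D).sub hF.bmLim).abs.integrable μ)
      (((hH.bm D).sub hH.bmLim).abs.integrable μ)]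
    refine integral_mono (hfh.integrable μ) ((((hF.bm D).sub hF.bmLim).abs.add
      ((hH.bm D).sub hH.bmLim).abs).integrable μ) (fun x => ?_)
    rw [← hD x, abs_sub_comm (F D x) (f x)]
    exact abs_sub_le _ _ _
  have h1 : ∫ x, |f x - h x| ∂μ = 0 := le_antisymm h0 (integral_nonneg fun x => abs_nonneg _)
  filter_upwards [(integral_eq_zero_iff_of_nonneg (fun x => abs_nonneg _) (hfh.integrable μ)).1 h1]
    with x hx
  exact sub_eq_zero.1 (abs_eq_zero.1 hx)

omit [IsFiniteMeasure μ] in
/-- reindexing and composing with a measure preserving map -/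
lemma comp {κ : Type*} {l' : Filter κ} {r : κ → ι} (hr : Tendsto r l' l) {T : α → α}
    (hT : MeasurePreserving T μ μ) (hF : LT μ l F f) :
    LT μ l' (fun D x => F (r D) (T x)) (fun x => f (T x)) := by
  obtain ⟨C, hC, hC'⟩ := hF.bdd
  refine ⟨fun D => (hF.meas _).comp hT.measurable, hF.measLim.comp hT.measurable,
    ⟨C, fun D x => hC _ _, fun x => hC' _⟩, (hF.conv.comp hr).congr (fun D => ?_)⟩
  show ∫ x, |F (r D) x - f x| ∂μ = _
  conv_lhs => rw [← hT.map_eq]
  exact integral_map hT.measurable.aemeasurable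
    (((hF.bm _).sub hF.bmLim).abs.1.aestronglyMeasurable)

end LT

end Vale.Agent.P161.Crit
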