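import Mathlib
import Vale.Agent.P161.Crit.Fam
import Vale.Agent.P161.Crit.L1T
import Vale.Agent.P161.Correlation

/-!
The variance of differences of logarithmic influences summed along a geodesic grows linearly
in its length, by the covariance decay of equivariant edge observables.
-/

open MeasureTheory Set Function Filter
open scoped Classical Topology

noncomputable section

namespace Vale.Agent.P161.Crit

variable {V : Type*}

/-- truncation to `[-B, B]` -/
def trc (B x : ℝ) : ℝ := max (-B) (min B x)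

lemma abs_trc {B : ℝ} (hB : 0 ≤ B) (x : ℝ) : |trc B x| ≤ B :=
  abs_le.2 ⟨le_max_left _ _, max_le (by linarith) (min_le_left _ _)⟩

lemma trc_eq {B x : ℝ} (h : |x| ≤ B) : trc B x = x := by
  unfold trc; rw [min_eq_right (abs_le.1 h).2, max_eq_right (abs_le.1 h).1]

lemma abs_trc_sub (B x y : ℝ) : |trc B x - trc B y| ≤ |x - y| :=
  (abs_max_sub_max_le_max _ _ _ _).trans
    (max_le (by simp) ((abs_min_sub_min_le_max _ _ _ _).trans (max_le (by simp) le_rfl)))

lemma measurable_trc (B : ℝ) : Measurable (trc B) :=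
  measurable_const.max (measurable_const.min measurable_id)

namespace Env

variable (P : Env V)

/-- difference of the logarithmic influences at two parameters -/
def dPh (θ θ' t : ℝ) (x y : V) : Finset V → Om V → ℝ :=
  fun D ω => P.Ph θ t x y D ω - P.Ph θ' t x y D ω

/-- a bound for `dPh` -/
def dB : ℝ := 2 * |1 / kapK P.q P.K P.θ1|

lemma dB_nonneg : 0 ≤ P.dB := by unfold dB; positivity

variable {P} {θ θ' t : ℝ}

lemma abs_dPh_le (hθ : P.Adm θ) (hθ' : P.Adm θ') {x y : V} (ha : P.G.Adj x y) :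
    ∀ᶠ D in vol P.G, ∀ ω, |P.dPh θ θ' t x y D ω| ≤ P.dB :=
  eventually_vol (E := {y}) fun D _ h ω => by
    have hy : y ∈ D := h (by simp)
    obtain ⟨a, b⟩ := abs_phi_le (K := P.K) (t := t) P.tree P.deg hθ.nonneg hθ.2 P.lt_one hy ha
      (Smp P.G θ P.K D ω)
    obtain ⟨a', b'⟩ := abs_phi_le (K := P.K) (t := t) P.tree P.deg hθ'.nonneg hθ'.2 P.lt_one hy ha
      (Smp P.G θ' P.K D ω)
    simp only [dPh, Env.Ph, dB]
    rw [abs_le]
    constructor <;> linarith [le_abs_self (1 / kapK P.q P.K P.θ1)]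

lemma exists_dPh_lim [Countable V] (hθ : P.Below θ) (hθ' : P.Below θ') (ht : t ∈ Icc (0:ℝ) P.K)
    (x y : V) : ∃ Y : Om V → ℝ, Measurable Y ∧ (∀ ω, |Y ω| ≤ P.dB) ∧ (P.G.Adj x y →
      LT (PU _) (vol P.G) (fun D ω => trc P.dB (P.dPh θ θ' t x y D ω)) Y) := by
  by_cases ha : P.G.Adj x y
  swap
  · exact ⟨fun _ => 0, measurable_const, fun _ => by simpa using P.dB_nonneg, fun h => absurd h ha⟩
  have := P.neBot
  obtain ⟨Y, hY, hlim⟩ := ((reg_Ph hθ ht ha).sub (reg_Ph hθ' ht ha)).exists_lim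
  refine ⟨fun ω => trc P.dB (Y ω), (measurable_trc _).comp hY.1, fun ω => abs_trc P.dB_nonneg _,
    fun _ => ⟨fun D => (measurable_trc _).comp
      ((measurable_Ph hθ.1 t x y D).sub (measurable_Ph hθ'.1 t x y D)),
      (measurable_trc _).comp hY.1, ⟨P.dB, fun D ω => abs_trc P.dB_nonneg _,
      fun ω => abs_trc P.dB_nonneg _⟩, ?_⟩⟩
  refine squeeze_zero' (Eventually.of_forall fun D => integral_nonneg fun ω => abs_nonneg _) ?_ hlim
  filter_upwards [abs_dPh_le (t := t) hθ.1 hθ'.1 ha] with D hD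
  have hbm : BM (fun ω => P.dPh θ θ' t x y D ω) :=
    ⟨(measurable_Ph hθ.1 t x y D).sub (measurable_Ph hθ'.1 t x y D), P.dB, hD⟩
  have hbt : BM (fun ω => trc P.dB (P.dPh θ θ' t x y D ω)) :=
    ⟨(measurable_trc _).comp hbm.1, P.dB, fun ω => abs_trc P.dB_nonneg _⟩
  have hYt : BM (fun ω => trc P.dB (Y ω)) :=
    ⟨(measurable_trc _).comp hY.1, P.dB, fun ω => abs_trc P.dB_nonneg _⟩
  exact integral_mono ((hbt.sub hYt).abs.integrable _) ((hbm.sub hY).abs.integrable _)
    (fun ω => abs_trc_sub _ _ _)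

end Env

/-- `∑_{k,l<n} w |k-l|` is at most `2 n ∑ w` -/
lemma sum_toeplitz_le {w : ℕ → ℝ} (hw : ∀ m, 0 ≤ w m) (hs : Summable w) {n : ℕ} {f : ℕ → ℕ → ℝ}
    (hf : ∀ k < n, ∀ l < n, k ≤ l → f k l ≤ w (l - k) ∧ f l k ≤ w (l - k)) :
    ∑ k ∈ Finset.range n, ∑ l ∈ Finset.range n, f k l ≤ n * (2 * ∑' m, w m) := by
  refine (Finset.sum_le_sum (g := fun _ => 2 * ∑' m, w m) fun k hk => ?_).trans (le_of_eq (by simp))
  have hk' := Finset.mem_range.1 hk
  rw [← Finset.sum_filter_add_sum_filter_not (Finset.range n) (fun l => k ≤ l), two_mul]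
  refine add_le_add ?_ ?_
  · calc ∑ l ∈ Finset.range n with k ≤ l, f k l ≤ ∑ l ∈ Finset.range n with k ≤ l, w (l - k) :=
          Finset.sum_le_sum fun l hl => by
            obtain ⟨h1, h2⟩ := Finset.mem_filter.1 hl
            exact (hf k hk' l (Finset.mem_range.1 h1) h2).1
      _ = ∑ m ∈ ((Finset.range n).filter fun l => k ≤ l).image (fun l => l - k), w m := by
          rw [Finset.sum_image]
          intro a ha b hb e
          have := (Finset.mem_filter.1 ha).2
          have := (Finset.mem_filter.1 hb).2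
          simp only at e
          omega
      _ ≤ _ := hs.sum_le_tsum _ fun m _ => hw m
  · calc ∑ l ∈ Finset.range n with ¬ k ≤ l, f k l ≤ ∑ l ∈ Finset.range n with ¬ k ≤ l, w (k - l) :=
          Finset.sum_le_sum fun l hl => by
            obtain ⟨h1, h2⟩ := Finset.mem_filter.1 hl
            exact (hf l (Finset.mem_range.1 h1) k hk' (not_le.1 h2).le).2
      _ = ∑ m ∈ ((Finset.range n).filter fun l => ¬ k ≤ l).image (fun l => k - l), w m := by
          rw [Finset.sum_image]
          intro a ha b hb e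
          have := (Finset.mem_filter.1 ha).2
          have := (Finset.mem_filter.1 hb).2
          simp only at e
          omega
      _ ≤ _ := hs.sum_le_tsum _ fun m _ => hw m

namespace Env

/-- second moment of the summed differences of logarithmic influences along a geodesic -/
theorem exists_var_path [Countable V] (P : Env V) :
    ∃ C : ℝ, 0 ≤ C ∧ ∀ θ θ' : ℝ, P.Below θ → P.Below θ' → ∀ t ∈ Icc (0:ℝ) P.K, ∀ a b : V,
      P.G.Adj a b → ∀ (n : ℕ) (p : ℕ → V), IsGeod P.G n p →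
      limI P.G (fun D ω => (∑ k ∈ Finset.range n,
          (P.Ph θ t (p k) (p (k + 1)) D ω - P.Ph θ' t (p k) (p (k + 1)) D ω)) ^ 2)
        ≤ (n:ℝ) ^ 2 * (limI P.G (P.Ph θ t a b) - limI P.G (P.Ph θ' t a b)) ^ 2
          + C * n * limI P.G (fun D ω => (P.Ph θ t a b D ω - P.Ph θ' t a b D ω) ^ 2) := by
  set r : ℝ := 1 / Real.sqrt P.q with hr
  set w : ℕ → ℝ := fun m => ((m : ℝ) + 1) * r ^ m with hw
  have hsq : 1 < Real.sqrt P.q := by
    rw [Real.lt_sqrt zero_le_one, one_pow]; exact_mod_cast P.two_le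
  have hr0 : 0 ≤ r := by positivity
  have hr1 : r < 1 := by rw [hr, div_lt_one (by linarith)]; exact hsq
  have hw0 : ∀ m, 0 ≤ w m := fun m => mul_nonneg (by positivity) (pow_nonneg hr0 m)
  have hws : Summable w := by
    have h1 := summable_pow_mul_geometric_of_norm_lt_one 1
      (show ‖r‖ < 1 by rwa [Real.norm_eq_abs, abs_of_nonneg hr0])
    have h2 := summable_geometric_of_lt_one hr0 hr1
    simpa [hw, add_mul] using h1.add h2
  set C := 4 * Real.sqrt P.q * (2 * ∑' m, w m) with hC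
  have hC0 : 0 ≤ C := mul_nonneg (by positivity) (mul_nonneg zero_le_two (tsum_nonneg hw0))
  refine ⟨C, hC0, fun θ θ' hθ hθ' t ht a b hab n p hp => ?_⟩
  have := P.neBot
  choose Y hYm hYb hYL using exists_dPh_lim (t := t) hθ hθ' ht
  have hbY : ∀ x y, BM (Y x y) := fun x y => ⟨hYm x y, P.dB, hYb x y⟩
  have hinv : ∀ (g : P.G ≃g P.G) (x y : V), P.G.Adj x y →
      (fun ω => Y (g x) (g y) (actO g ω)) =ᵐ[PU _] Y x y := by
    intro g x y ha
    refine LT.ae_eq ((hYL _ _ ((g.map_adj_iff).2 ha)).comp (tendsto_vol_image P.tree g) (mp_actO g))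
      (hYL x y ha) ?_
    filter_upwards [Ph_image hθ.1 t g ha, Ph_image hθ'.1 t g ha] with D h1 h2 ω
    simp only [dPh, h1 ω, h2 ω]
  -- all edges share mean and second moment
  have hmom : ∀ x y, P.G.Adj x y →
      ∫ ω, Y x y ω ∂PU _ = ∫ ω, Y a b ω ∂PU _ ∧
      ∫ ω, Y x y ω ^ 2 ∂PU _ = ∫ ω, Y a b ω ^ 2 ∂PU _ := by
    intro x y ha
    obtain ⟨g, hga, hgb⟩ := P.exists_iso_pair (a := a) (b := b) (a' := x) (b' := y)
      (by rw [SimpleGraph.dist_eq_one_iff_adj.2 hab, SimpleGraph.dist_eq_one_iff_adj.2 ha])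
    have h := hinv g a b hab
    rw [hga, hgb] at h
    constructor
    · rw [← integral_actO g (hYm x y)]
      exact integral_congr_ae h
    · rw [← integral_actO g ((hYm x y).pow_const 2)]
      exact integral_congr_ae (h.mono fun ω hω => by simp only [hω])
  set μ := ∫ ω, Y a b ω ∂PU _ with hμ
  set M2 := ∫ ω, Y a b ω ^ 2 ∂PU _ with hM2
  have hev := abs_dPh_le (t := t) hθ.1 hθ'.1 hab
  have elim1 : limI P.G (P.Ph θ t a b) - limI P.G (P.Ph θ' t a b) = μ := by
    refine tendsto_nhds_unique ((reg_Ph hθ ht hab).tendsto.sub (reg_Ph hθ' ht hab).tendsto)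
      ((hYL a b hab).integral_tendsto.congr' ?_)
    obtain ⟨C1, hC1⟩ := (reg_Ph hθ ht hab).bdd
    obtain ⟨C2, hC2⟩ := (reg_Ph hθ' ht hab).bdd
    filter_upwards [hev, hC1, hC2] with D hD h1 h2
    rw [← integral_sub (Reg.integrable_of h1.1 h1.2) (Reg.integrable_of h2.1 h2.2)]
    exact integral_congr_ae (ae_of_all _ fun ω => trc_eq (hD ω))
  have elim2 : limI P.G (fun D ω => (P.Ph θ t a b D ω - P.Ph θ' t a b D ω) ^ 2) = M2 := by
    refine tendsto_nhds_unique ((reg_Ph hθ ht hab).sub (reg_Ph hθ' ht hab)).sq.tendsto ?_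
    have h2 := ((hYL a b hab).mul (hYL a b hab)).integral_tendsto
    simp only [← pow_two] at h2
    refine h2.congr' (hev.mono fun D hD => integral_congr_ae (ae_of_all _ fun ω => ?_))
    show trc P.dB (P.dPh θ θ' t a b D ω) ^ 2 = _
    rw [trc_eq (hD ω)]
    rfl
  set Z : ℕ → Om V → ℝ := fun k => Y (p k) (p (k + 1)) with hZ
  have elim3 : limI P.G (fun D ω => (∑ k ∈ Finset.range n,
      (P.Ph θ t (p k) (p (k + 1)) D ω - P.Ph θ' t (p k) (p (k + 1)) D ω)) ^ 2)
      = ∫ ω, (∑ k ∈ Finset.range n, Z k ω) * (∑ k ∈ Finset.range n, Z k ω) ∂PU _ := by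
    have hadj : ∀ k ∈ Finset.range n, P.G.Adj (p k) (p (k + 1)) := fun k hk =>
      hp.1 k (Finset.mem_range.1 hk)
    have hL := LT.sum (Finset.range n)
      (F := fun k D ω => trc P.dB (P.dPh θ θ' t (p k) (p (k + 1)) D ω)) (f := Z)
      (fun k hk => hYL _ _ (hadj k hk))
    refine tendsto_nhds_unique
      (Reg.sum (Finset.range n) fun k hk =>
        (reg_Ph hθ ht (hadj k hk)).sub (reg_Ph hθ' ht (hadj k hk))).sq.tendsto
      ((hL.mul hL).integral_tendsto.congr' ?_)
    filter_upwards [(Finset.range n).eventually_all.2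
      (fun k hk => abs_dPh_le (t := t) hθ.1 hθ'.1 (hadj k hk))] with D hD
    refine integral_congr_ae (ae_of_all _ fun ω => ?_)
    show (∑ k ∈ Finset.range n, _) * _ = _
    rw [← pow_two, Finset.sum_congr rfl fun k hk => trc_eq (hD k hk ω)]
    rfl
  rw [elim1, elim2, elim3]
  -- the equivariant edge observable
  obtain ⟨Θ, hΘ, hΘg⟩ := exists_decodeO P.G
  set g : V → V → (V → unitInterval) → ℝ := fun x y U => Y x y (Θ U) - μ with hg
  have hgm : ∀ x y, P.G.Adj x y → Measurable (g x y) := fun x y _ =>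
    ((hYm x y).comp hΘ.measurable).sub_const _
  have hgb : ∃ C, ∀ x y, P.G.Adj x y → ∀ U, |g x y U| ≤ C :=
    ⟨P.dB + |μ|, fun x y _ U => (abs_sub _ _).trans (add_le_add (hYb x y _) le_rfl)⟩
  have htr : ∀ {F : Om V → ℝ}, Measurable F →
      ∫ U, F (Θ U) ∂iidUniform V = ∫ ω, F ω ∂PU _ := fun {F} hF => by
    conv_rhs => rw [← hΘ.map_eq]
    exact (integral_map hΘ.measurable.aemeasurable hF.aestronglyMeasurable).symm
  have hg0 : ∀ x y, P.G.Adj x y → ∫ U, g x y U ∂iidUniform V = 0 := fun x y ha => by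
    simp only [hg]
    rw [htr ((hYm x y).sub_const μ), integral_sub ((hbY x y).integrable _) (integrable_const _),
      (hmom x y ha).1]
    simp [hμ]
  have hgeq : ∀ φ : P.G ≃g P.G, ∀ v w, P.G.Adj v w →
      ∀ᵐ U ∂iidUniform V, g (φ v) (φ w) (fun x => U (φ.symm x)) = g v w U := fun φ v w ha =>
    (hΘ.quasiMeasurePreserving.ae (hinv φ v w ha)).mono fun U hU => by
      simp only [hg, hΘg φ U]
      exact congrArg (fun z : ℝ => z - μ) hU
  -- the covariances
  have hcov : ∀ k < n, ∀ l < n, k ≤ l →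
      ∫ ω, Z k ω * Z l ω ∂PU _ ≤ μ ^ 2 + 4 * Real.sqrt P.q * M2 * w (l - k) := by
    intro k hk l hl hkl
    obtain ⟨m, rfl⟩ := Nat.exists_eq_add_of_le hkl
    have hkk := hp.1 k hk
    have hll := hp.1 (k + m) hl
    have hd : P.G.dist (p k) (p (k + (m + 1))) = m + 1 := by
      rw [hp.dist_eq P.tree (by omega) (by omega)]; omega
    have h := edge_correlation P.tree P.deg g hgm hgb hg0 hgeq P.one_le_q m (fun i => p (k + i))
      (fun i hi => hp.1 (k + i) (by omega)) (by simpa using hd)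
    have e1 : ∫ U, g (p k) (p (k + 1)) U * g (p (k + m)) (p (k + m + 1)) U ∂iidUniform V
        = ∫ ω, Z k ω * Z (k + m) ω ∂PU _ - μ ^ 2 := by
      simp only [hg]
      rw [htr (F := fun ω => (Y (p k) (p (k + 1)) ω - μ) * (Y (p (k + m)) (p (k + m + 1)) ω - μ))
        (((hYm _ _).sub_const μ).mul ((hYm _ _).sub_const μ))]
      have e : ∀ ω, (Y (p k) (p (k + 1)) ω - μ) * (Y (p (k + m)) (p (k + m + 1)) ω - μ)
          = Z k ω * Z (k + m) ω - (μ * (Z k ω + Z (k + m) ω) - μ ^ 2) := fun ω => by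
        simp only [hZ]; ring
      simp only [e]
      have b1 : BM (fun ω => Z k ω * Z (k + m) ω) := (hbY _ _).mul (hbY _ _)
      have b3 : BM (fun ω => Z k ω + Z (k + m) ω) := (hbY _ _).add (hbY _ _)
      have b2 : BM (fun ω => μ * (Z k ω + Z (k + m) ω)) := (BM.const μ).mul b3
      rw [integral_sub (b1.integrable _) ((b2.sub (BM.const (μ ^ 2))).integrable _),
        integral_sub (b2.integrable _) (integrable_const _), integral_const_mul]
      simp only [hZ]
      rw [integral_add ((hbY _ _).integrable _) ((hbY _ _).integrable _), (hmom _ _ hkk).1,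
        (hmom _ _ hll).1]
      simp
      ring
    have e2 : ∫ U, g (p k) (p (k + 1)) U ^ 2 ∂iidUniform V ≤ M2 := by
      simp only [hg]
      rw [htr (F := fun ω => (Y (p k) (p (k + 1)) ω - μ) ^ 2) (((hYm _ _).sub_const μ).pow_const 2)]
      have e : ∀ ω, (Y (p k) (p (k + 1)) ω - μ) ^ 2
          = Y (p k) (p (k + 1)) ω ^ 2 - ((2 * μ) * Y (p k) (p (k + 1)) ω - μ ^ 2) := fun ω => by ring
      simp only [e]
      have b2 : BM (fun ω => 2 * μ * Y (p k) (p (k + 1)) ω) :=
        (BM.const (2 * μ)).mul (hbY (p k) (p (k + 1)))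
      rw [integral_sub ((hbY (p k) (p (k + 1))).sq.integrable _)
          ((b2.sub (BM.const (μ ^ 2))).integrable _),
        integral_sub (b2.integrable _) (integrable_const _),
        integral_const_mul, (hmom _ _ hkk).1, (hmom _ _ hkk).2]
      simp
      nlinarith [sq_nonneg μ]
    simp only [Nat.add_zero] at h
    rw [show k + (m + 1) = k + m + 1 by omega, e1] at h
    have h' := (le_abs_self _).trans h
    have e3 := mul_le_mul_of_nonneg_left e2
      (show 0 ≤ 4 * Real.sqrt P.q * ((m : ℝ) + 1) * r ^ m by positivity)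
    rw [Nat.add_sub_cancel_left]
    simp only [hw]
    linarith
  have hbZ : ∀ k, BM (Z k) := fun k => hbY _ _
  simp only [Finset.sum_mul_sum]
  rw [integral_finsetSum _ fun k _ => integrable_finsetSum _ fun l _ =>
    ((hbZ k).mul (hbZ l)).integrable _]
  simp only [fun k => integral_finsetSum (μ := PU ((V × ℕ) ⊕ (V × ℕ))) (Finset.range n)
    (fun l _ => ((hbZ k).mul (hbZ l)).integrable _)]
  have hM0 : 0 ≤ M2 := integral_nonneg fun ω => sq_nonneg _
  have key := sum_toeplitz_le (w := fun m => 4 * Real.sqrt P.q * M2 * w m) (n := n)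
    (f := fun k l => ∫ ω, Z k ω * Z l ω ∂PU _ - μ ^ 2)
    (fun m => mul_nonneg (by positivity) (hw0 m)) (hws.mul_left _)
    (fun k hk l hl hkl => by
      have h := hcov k hk l hl hkl
      refine ⟨by linarith, ?_⟩
      simp only [mul_comm (Z l _) (Z k _)]
      linarith)
  simp only [Finset.sum_sub_distrib, Finset.sum_const, Finset.card_range, nsmul_eq_mul] at key
  rw [tsum_mul_left] at key
  calc _ ≤ (n:ℝ) * (n * μ ^ 2) + n * (2 * (4 * Real.sqrt P.q * M2 * ∑' m, w m)) := by linarith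
    _ = _ := by rw [hC]; ring

end Env

end Vale.Agent.P161.Crit
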