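import Mathlib
import Vale.Agent.P161.Crit.Estimator

/-!
Choice of the depth of the estimator, giving a decay rate uniform up to the critical point.
-/

open MeasureTheory Set Function
open scoped Classical

noncomputable section

namespace Vale.Agent.P161.Crit

/-- depth of the estimator -/
def lev (t : ℝ) : ℕ := ⌊1 / Real.sqrt (w0 t)⌋₊

/-- the rate constant -/
def cRate (θ0 θ1 : ℝ) : ℝ := min (1 / 4) ((1 - θ1 ^ 2) * θ0 ^ 2 / 1024)

/-- decay factor per step at time `t` -/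
def rate (θ0 θ1 t : ℝ) : ℝ := Real.exp (-(cRate θ0 θ1 * Real.sqrt (w0 t)))

lemma cRate_pos {θ0 θ1 : ℝ} (h0 : 0 < θ0) (h1 : 0 ≤ θ1) (h2 : θ1 < 1) : 0 < cRate θ0 θ1 := by
  have : θ1 ^ 2 < 1 := pow_lt_one₀ h1 h2 two_ne_zero
  refine lt_min (by norm_num) ?_
  have : 0 < 1 - θ1 ^ 2 := by linarith
  positivity

lemma half_le_rate {θ0 θ1 t : ℝ} : 1 / 2 ≤ rate θ0 θ1 t := by
  have hw : Real.sqrt (w0 t) ≤ 1 := by
    rw [Real.sqrt_le_one]; exact w0_le_one
  have hc : cRate θ0 θ1 * Real.sqrt (w0 t) ≤ 1 / 4 := by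
    rcases le_or_gt 0 (cRate θ0 θ1) with h | h
    · calc cRate θ0 θ1 * Real.sqrt (w0 t) ≤ 1 / 4 * 1 :=
            mul_le_mul (min_le_left _ _) hw (Real.sqrt_nonneg _) (by norm_num)
        _ = _ := by norm_num
    · have := mul_nonpos_of_nonpos_of_nonneg h.le (Real.sqrt_nonneg (w0 t))
      linarith
  unfold rate
  linarith [Real.add_one_le_exp (-(cRate θ0 θ1 * Real.sqrt (w0 t)))]

lemma rate_pos {θ0 θ1 t : ℝ} : 0 < rate θ0 θ1 t := Real.exp_pos _

/-- the decay condition holds at every parameter up to the critical one -/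
lemma exists_step {θ θ0 θ1 t : ℝ} {q : ℕ} (h0 : 0 < θ0) (h0θ : θ0 ≤ θ) (hθ1 : θ ≤ θ1) (h1 : θ1 < 1)
    (hq : (q : ℝ) * θ1 ^ 2 ≤ 1) (hw : 0 < w0 t) :
    ∃ δ : ℝ, δ * (((lev t : ℝ) + 1) * (w0 t / 2) + ((lev t : ℝ) + 1) ^ 3 * (eps / 3 * w0 t) ^ 2)
        ≤ θ ^ 2 * (eps / 3 * w0 t * ∑ l ∈ Finset.range (lev t + 1), ((q : ℝ) * θ ^ 2) ^ l) ^ 2 ∧
      (q : ℝ) * θ ^ 2 * (1 - (1 - θ ^ 2) / 2 * δ) ≤ rate θ0 θ1 t := by
  set σ := Real.sqrt (w0 t) with hσ
  have hσ0 : 0 < σ := Real.sqrt_pos.2 hw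
  have hσ2 : σ ^ 2 = w0 t := Real.sq_sqrt hw.le
  have hσ1 : σ ≤ 1 := by rw [hσ, Real.sqrt_le_one]; exact w0_le_one
  set a := (q : ℝ) * θ ^ 2 with ha
  have ha0 : 0 ≤ a := by positivity
  have hθ0 : 0 < θ := lt_of_lt_of_le h0 h0θ
  have ha1 : a ≤ 1 :=
    le_trans (mul_le_mul_of_nonneg_left (pow_le_pow_left₀ hθ0.le hθ1 2) (Nat.cast_nonneg q)) hq
  have hc := cRate_pos h0 (hθ0.le.trans hθ1) h1
  set L := lev t with hL
  rcases le_or_gt a (1 - σ / 4) with hA | hB
  · refine ⟨0, ?_, ?_⟩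
    · rw [zero_mul]; positivity
    · rw [mul_zero, sub_zero, mul_one]
      refine hA.trans ?_
      unfold rate
      have h5 : cRate θ0 θ1 * σ ≤ σ / 4 := by
        calc cRate θ0 θ1 * σ ≤ 1 / 4 * σ := mul_le_mul_of_nonneg_right (min_le_left _ _) hσ0.le
          _ = _ := by ring
      linarith [Real.add_one_le_exp (-(cRate θ0 θ1 * σ))]
  · have hL1 : (L : ℝ) ≤ 1 / σ := Nat.floor_le (by positivity)
    have hL2 : 1 / σ < (L : ℝ) + 1 := Nat.lt_floor_add_one _
    have hL3 : ((L : ℝ) + 1) ≤ 2 / σ := by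
      have : (1:ℝ) ≤ 1 / σ := by rw [le_div_iff₀ hσ0]; linarith
      calc (L : ℝ) + 1 ≤ 1 / σ + 1 / σ := by linarith
        _ = _ := by ring
    have hterm : ∀ l ∈ Finset.range (L + 1), (3 / 4 : ℝ) ≤ a ^ l := by
      intro l hl
      have hlL : (l : ℝ) ≤ L := by exact_mod_cast Nat.lt_succ_iff.1 (Finset.mem_range.1 hl)
      have hl2 : (l : ℝ) * σ ≤ 1 := by
        have := hlL.trans hL1
        rwa [le_div_iff₀ hσ0] at this
      have hb := one_add_mul_le_pow (a := -(σ / 4)) (by linarith) l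
      calc (3 / 4 : ℝ) ≤ 1 + (l : ℝ) * -(σ / 4) := by linarith
        _ ≤ (1 + -(σ / 4)) ^ l := hb
        _ ≤ a ^ l := pow_le_pow_left₀ (by linarith) (by linarith) l
    have hS : 3 / 4 * (1 / σ) ≤ ∑ l ∈ Finset.range (L + 1), a ^ l := by
      refine le_trans ?_ (Finset.card_nsmul_le_sum _ _ _ hterm)
      rw [Finset.card_range, nsmul_eq_mul]
      push_cast
      linarith
    set M := eps / 3 * w0 t * ∑ l ∈ Finset.range (L + 1), a ^ l with hM
    have hM1 : σ / 16 ≤ M := by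
      rw [hM, ← hσ2]
      calc σ / 16 = eps / 3 * σ ^ 2 * (3 / 4 * (1 / σ)) := by
            unfold eps; field_simp; ring
        _ ≤ _ := mul_le_mul_of_nonneg_left hS (by unfold eps; positivity)
    set V := ((L : ℝ) + 1) * (w0 t / 2) + ((L : ℝ) + 1) ^ 3 * (eps / 3 * w0 t) ^ 2 with hV
    have hV1 : V ≤ 2 * σ := by
      rw [hV, ← hσ2]
      calc ((L : ℝ) + 1) * (σ ^ 2 / 2) + ((L : ℝ) + 1) ^ 3 * (eps / 3 * σ ^ 2) ^ 2
          ≤ (2 / σ) * (σ ^ 2 / 2) + (2 / σ) ^ 3 * (eps / 3 * σ ^ 2) ^ 2 := by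
            gcongr
        _ = σ + (8 / 144) * σ := by unfold eps; field_simp; ring
        _ ≤ _ := by linarith
    refine ⟨θ0 ^ 2 * σ / 512, ?_, ?_⟩
    · calc θ0 ^ 2 * σ / 512 * V ≤ θ0 ^ 2 * σ / 512 * (2 * σ) :=
            mul_le_mul_of_nonneg_left hV1 (by positivity)
        _ = θ0 ^ 2 * (σ / 16) ^ 2 := by ring
        _ ≤ θ ^ 2 * M ^ 2 := by gcongr
    · have h6 : θ ^ 2 ≤ θ1 ^ 2 := pow_le_pow_left₀ hθ0.le hθ1 2
      have h7 : θ1 ^ 2 < 1 := pow_lt_one₀ (hθ0.le.trans hθ1) h1 two_ne_zero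
      have h8 : cRate θ0 θ1 * σ ≤ (1 - θ ^ 2) / 2 * (θ0 ^ 2 * σ / 512) := by
        calc cRate θ0 θ1 * σ ≤ (1 - θ1 ^ 2) * θ0 ^ 2 / 1024 * σ :=
              mul_le_mul_of_nonneg_right (min_le_right _ _) hσ0.le
          _ = (1 - θ1 ^ 2) / 2 * (θ0 ^ 2 * σ / 512) := by ring
          _ ≤ _ := mul_le_mul_of_nonneg_right (by linarith) (by positivity)
      unfold rate
      refine le_trans (mul_le_of_le_one_left ?_ ha1) ?_
      · have h9 : θ0 ^ 2 * σ / 512 ≤ 1 := by
          have : θ0 ^ 2 ≤ 1 := pow_le_one₀ h0.le (by linarith)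
          nlinarith
        nlinarith [sq_nonneg θ]
      · linarith [Real.add_one_le_exp (-(cRate θ0 θ1 * σ))]

/-- the information grows at least like the fifth power of time -/
lemma w0_lower {t T : ℝ} (ht : 0 < t) (htT : t ≤ T) :
    (1 / (2 * (1 + T))) ^ 4 / ((1 + T) * (2 + T)) * t ^ 5 ≤ w0 t := by
  have hT : 0 < T := lt_of_lt_of_le ht htT
  set lo := t / (2 + t) with hlo
  set hi := t / (1 + t) with hhi
  set c := (1 / (2 * (1 + T))) ^ 4 * t ^ 4 with hc
  have hpt : ∀ y, (Ioo lo hi).indicator (fun _ => c) y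
      ≤ (if tim 0 y < t then str (tim 0 y) ^ 2 else 0) := by
    intro y
    by_cases hy : y ∈ Ioo lo hi
    · rw [Set.indicator_of_mem hy]
      have hlo0 : 0 ≤ lo := by positivity
      have hhi1 : hi < 1 := by rw [hhi, div_lt_one (by linarith)]; linarith
      have hy0 : 0 ≤ y := hlo0.trans hy.1.le
      have hy1 : y < 1 := hy.2.trans hhi1
      have e : tim 0 y = y / (1 - y) := by simp [tim, cl_of_mem ⟨hy0, hy1.le⟩]
      have h1 : tim 0 y < t := by
        have := hy.2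
        rw [hhi, lt_div_iff₀ (by linarith)] at this
        rw [e, div_lt_iff₀ (by linarith)]
        linarith
      have h2 : t / 2 ≤ tim 0 y := by
        have := hy.1
        rw [hlo, div_lt_iff₀ (by linarith)] at this
        rw [e, le_div_iff₀ (by linarith)]
        linarith
      rw [if_pos h1, hc, ← mul_pow]
      have h3 : 1 / (2 * (1 + T)) * t ≤ min 1 (tim 0 y) := by
        rw [div_mul_eq_mul_div, one_mul, le_min_iff, div_le_one (by linarith)]
        refine ⟨by linarith, le_trans ?_ h2⟩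
        rw [div_le_div_iff₀ (by linarith) two_pos]
        nlinarith
      calc (1 / (2 * (1 + T)) * t) ^ 4 ≤ (min 1 (tim 0 y)) ^ 4 :=
            pow_le_pow_left₀ (by positivity) h3 4
        _ = _ := by unfold str; ring
    · rw [Set.indicator_of_notMem hy]
      split_ifs <;> positivity
  have h := integral_mono ((integrable_const c).indicator measurableSet_Ioo)
    (bm_str_if.integrable lam) hpt
  rw [integral_indicator_const _ measurableSet_Ioo, smul_eq_mul] at h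
  refine le_trans ?_ h
  have hlen : t / ((1 + T) * (2 + T)) ≤ lam.real (Ioo lo hi) := by
    have hsub : Ioo lo hi ⊆ Icc 0 1 := by
      intro y hy
      have : hi ≤ 1 := by rw [hhi, div_le_one (by linarith)]; linarith
      exact ⟨le_trans (by positivity) hy.1.le, hy.2.le.trans this⟩
    have hle : lo ≤ hi := div_le_div_of_nonneg_left ht.le (by linarith) (by linarith)
    unfold lam
    rw [measureReal_restrict_apply measurableSet_Ioo, Set.inter_eq_left.2 hsub,
      Real.volume_real_Ioo_of_le hle, hlo, hhi, div_sub_div _ _ (by linarith) (by linarith),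
      div_le_div_iff₀ (by positivity) (by positivity)]
    nlinarith [mul_le_mul htT htT ht.le hT.le]
  calc (1 / (2 * (1 + T))) ^ 4 / ((1 + T) * (2 + T)) * t ^ 5
      = t / ((1 + T) * (2 + T)) * c := by rw [hc]; ring
    _ ≤ _ := mul_le_mul_of_nonneg_right hlen (by positivity)

end Vale.Agent.P161.Crit
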