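import Mathlib
import Vale.Agent.P161.Crit.L1T

/-!
The exact law of the spin estimators in a finite volume, on the clock event that all the
observations they use are revealed before the horizon.
-/

open MeasureTheory Set Function Filter
open scoped Classical Topology

noncomputable section

namespace Vale.Agent.P161.Crit

variable {V : Type*} {G : SimpleGraph V} {θ : ℝ} {K : ℕ}

/-- estimate of the spin at `v` from its observations `1, …, n` -/
def estO (n : ℕ) (v : V) (x : V × ℕ → ℝ) : ℝ := Tn eps n v (fun i => x (i.1, i.2 + 1))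

lemma eps_pos : (0:ℝ) < eps := by norm_num [eps]

lemma bm_estO (n : ℕ) (v : V) : BM (fun x : V × ℕ → ℝ => estO n v x) := by
  unfold estO
  exact (bm_Tn eps n v).comp (measurable_pi_lambda _ fun i => measurable_pi_apply _)

lemma abs_estO_le (n : ℕ) (v : V) (x : V × ℕ → ℝ) : |estO n v x| ≤ 3 / eps :=
  abs_Tn_le eps_pos n v _

lemma estO_congr {n : ℕ} {v : V} {x x' : V × ℕ → ℝ} (h : ∀ k < n, x (v, k + 1) = x' (v, k + 1)) :
    estO n v x = estO n v x' :=
  dep_Tn eps n v (S := {i | i.1 = v ∧ i.2 < n}) (fun _k hk => ⟨rfl, hk⟩) _ _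
    (fun i hi => by
      obtain ⟨a, b⟩ := i
      obtain ⟨rfl, hb⟩ := hi
      exact h b hb)

/-- the clocks needed by the estimators on `D` ring before `K` -/
def evI (K n : ℕ) (D : Finset V) (ω : Om V) : ℝ :=
  ∏ v ∈ D, ∏ k ∈ Finset.range n, if tau ω (v, k + 1) < (K : ℝ) then 1 else 0

lemma bm_evI (K n : ℕ) (D : Finset V) : BM (evI K n D : Om V → ℝ) := by
  refine BM.prod _ (fun v _ => BM.prod _ (fun k _ => ?_))
  refine ⟨Measurable.ite (measurableSet_lt (measurable_tau _) measurable_const) measurable_const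
    measurable_const, 1, fun ω => ?_⟩
  simp only
  split_ifs <;> simp

lemma evI_mem (K n : ℕ) (D : Finset V) (ω : Om V) : 0 ≤ evI K n D ω ∧ evI K n D ω ≤ 1 :=
  ⟨Finset.prod_nonneg fun v _ => Finset.prod_nonneg fun k _ => by split_ifs <;> norm_num,
    Finset.prod_le_one (fun v _ => Finset.prod_nonneg fun k _ => by split_ifs <;> norm_num)
      fun v _ => Finset.prod_le_one (fun k _ => by split_ifs <;> norm_num)
        fun k _ => by split_ifs <;> norm_num⟩

lemma evI_ne_zero {K n : ℕ} {D : Finset V} {ω : Om V} (h : evI K n D ω ≠ 0) {v : V} (hv : v ∈ D)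
    {k : ℕ} (hk : k < n) : tau ω (v, k + 1) < (K : ℝ) := by
  by_contra hc
  exact Finset.prod_ne_zero_iff.1 (Finset.prod_ne_zero_iff.1 h v hv) k (Finset.mem_range.2 hk)
    (if_neg hc)

lemma evI_congr {K n : ℕ} {D : Finset V} {ω ω' : Om V}
    (h : ∀ i, ω (Sum.inl i) = ω' (Sum.inl i)) : evI K n D ω = evI K n D ω' := by
  unfold evI tau
  simp only [h]

lemma evI_eventually_one (n : ℕ) (D : Finset V) (ω : Om V) :
    ∀ᶠ K in atTop, evI K n D ω = 1 := by
  have h : ∀ i ∈ D ×ˢ Finset.range n, ∀ᶠ K : ℕ in atTop, tau ω (i.1, i.2 + 1) < (K : ℝ) :=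
    fun i _ => tendsto_natCast_atTop_atTop.eventually_gt_atTop _
  filter_upwards [(D ×ˢ Finset.range n).eventually_all.2 h] with K hK
  refine Finset.prod_eq_one fun v hv => Finset.prod_eq_one fun k hk => ?_
  exact if_pos (hK (v, k) (Finset.mk_mem_product hv hk))

lemma fprod_upd_self_split (K : ℕ) (t : ℝ) (M η : Finset V) {i : V × ℕ}
    (hi : i ∈ M ×ˢ Finset.range K) (ω : Om V) :
    fprod M (fld K t ω) η = fac t ω i (decide (i.1 ∈ η))
      * ∏ j ∈ (M ×ˢ Finset.range K).erase i, fac t ω j (decide (j.1 ∈ η)) := by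
  rw [fprod_eq_fac, Finset.mul_prod_erase _ (fun j => fac t ω j (decide (j.1 ∈ η))) hi]

/-- one observation has conditional mean proportional to the spin -/
lemma integral_cc_fprod {t : ℝ} {M η : Finset V} {i : V × ℕ} (hi : i ∈ M ×ˢ Finset.range K)
    {ψ : Om V → ℝ} (hψ : BM ψ) (hd : ∀ ω y, ψ (upd ω (Sum.inr i) y) = ψ ω)
    (hrev : ∀ ω, ψ ω ≠ 0 → tau ω i < t ∧ 1 ≤ tau ω i) :
    ∫ ω, ψ ω * cc (ω (Sum.inr i)) * fprod M (fld K t ω) η ∂PU _
      = eps * sp η i.1 / 3 * ∫ ω, ψ ω * fprod M (fld K t ω) η ∂PU _ := by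
  set c : V × ℕ → Bool := fun j => decide (j.1 ∈ η) with hc
  set ψ' : Om V → ℝ :=
    fun ω => ψ ω * ∏ j ∈ (M ×ˢ Finset.range K).erase i, fac t ω j (c j) with hψ'
  have hψ'b : BM ψ' := hψ.mul (BM.prod _ fun j _ => bm_fac t j _)
  have hψ'd : ∀ ω y, ψ' (upd ω (Sum.inr i) y) = ψ' ω := fun ω y => by
    simp only [hψ', hd]
    congr 1
    exact Finset.prod_congr rfl fun j hj =>
      fac_upd_ne t ω (Finset.ne_of_mem_erase hj).symm y _
  have h1 : ∀ ω, ψ ω * fprod M (fld K t ω) η = ψ' ω * fac t ω i (c i) := fun ω => by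
    rw [fprod_upd_self_split K t M η hi]; simp only [hψ', hc]; ring
  have h2 : ∀ ω, ψ ω * cc (ω (Sum.inr i)) * fprod M (fld K t ω) η
      = ψ' ω * (cc (ω (Sum.inr i)) * fac t ω i (c i)) := fun ω => by
    rw [mul_right_comm, h1]; ring
  have hg : BM (fun ω : Om V => cc (ω (Sum.inr i)) * fac t ω i (c i)) :=
    (bm_cc_eval (ι := (V × ℕ) ⊕ (V × ℕ)) (Sum.inr i)).mul (bm_fac t i _)
  simp only [h1, h2]
  rw [integral_mul_fac t i _ hψ'b hψ'd, integral_upd' (Sum.inr i) (hψ'b.mul hg),
    ← integral_const_mul]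
  refine integral_congr_ae (ae_of_all _ fun ω => ?_)
  simp only [hψ'd, integral_const_mul]
  by_cases h : ψ ω = 0
  · simp [hψ', h]
  obtain ⟨ht, h1'⟩ := hrev ω h
  have hfac : ∀ y, fac t (upd ω (Sum.inr i) y) i (c i) = 1 + eps * sp η i.1 * cc y := by
    intro y
    have e : tau (upd ω (Sum.inr i) y) i = tau ω i := congrArg (tim i.2) (upd_ne (by simp) _ _)
    have hs : str (tau ω i) = 1 := by unfold str; rw [min_eq_left h1', one_pow]
    simp only [fac, e, if_pos ht, hs, mul_one, upd_self, hc, sp]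
  simp only [hfac, upd_self]
  have i1 : Integrable cc lam := Integrable.of_bound measurable_cc.aestronglyMeasurable 1
    (ae_of_all _ fun y => (Real.norm_eq_abs _).le.trans (abs_cc y))
  have i2 : Integrable (fun y => cc y ^ 2) lam :=
    Integrable.of_bound (measurable_cc.pow_const 2).aestronglyMeasurable 1
      (ae_of_all _ fun y => by
        rw [Real.norm_eq_abs, abs_pow]; exact pow_le_one₀ (abs_nonneg _) (abs_cc y))
  have e2 : ∀ y, cc y * (1 + eps * sp η i.1 * cc y) = cc y + eps * sp η i.1 * cc y ^ 2 :=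
    fun y => by ring
  simp only [e2]
  rw [integral_add i1 (i2.const_mul _), integral_const_mul, integral_cc, integral_cc_sq]
  ring

lemma integral_evI_fprod (t : ℝ) (n : ℕ) (D M η : Finset V) :
    ∫ ω, evI K n D ω * fprod M (fld K t ω) η ∂PU _ = ∫ ω, evI K n D ω ∂PU _ := by
  simp only [fprod_eq_fac]
  exact integral_mul_fac_prod t _ (bm_evI K n D) _ fun i _ ω y =>
    evI_congr fun j => upd_ne (by simp) _ _

/-- multilinear identity for the estimators given the spins -/
lemma integral_prod_est {n : ℕ} (hn : 0 < n) (hnK : n < K) {M : Finset V} (η : Finset V)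
    (c : V → ℝ) : ∀ D : Finset V, D ⊆ M → ∀ ψ : Om V → ℝ, BM ψ →
      (∀ v ∈ D, ∀ k, ∀ ω y, ψ (upd ω (Sum.inr (v, k)) y) = ψ ω) →
      (∀ ω, ψ ω ≠ 0 → ∀ v ∈ D, ∀ k < n, tau ω (v, k + 1) < (K : ℝ)) →
      ∫ ω, ψ ω * (∏ v ∈ D, (1 + c v * estO n v (xP ω)) / 2) * fprod M (fld K K ω) η ∂PU _
        = (∏ v ∈ D, (1 + c v * sp η v) / 2)
          * ∫ ω, ψ ω * fprod M (fld K K ω) η ∂PU _ := by
  intro D
  induction D using Finset.induction with
  | empty => intro _ ψ _ _ _; simp
  | insert v D hv ih =>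
    intro hsub ψ hψ hd hrev
    have hvM : v ∈ M := hsub (Finset.mem_insert_self v D)
    have ihh := ih (fun w hw => hsub (Finset.mem_insert_of_mem hw)) ψ hψ
      (fun w hw => hd w (Finset.mem_insert_of_mem hw))
      (fun ω hω w hw => hrev ω hω w (Finset.mem_insert_of_mem hw))
    set Q : Om V → ℝ := fun ω => ψ ω * ∏ w ∈ D, (1 + c w * estO n w (xP ω)) / 2 with hQ
    have hQb : BM Q := hψ.mul (BM.prod D fun w _ => by
      have := (((BM.const (c w)).mul ((bm_estO n w).comp measurable_xP)).add (BM.const 1)).mul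
        (BM.const (1/2))
      convert this using 1
      funext x; ring)
    have hQd : ∀ k ω y, Q (upd ω (Sum.inr (v, k)) y) = Q ω := by
      intro k ω y
      simp only [hQ]
      rw [hd v (Finset.mem_insert_self v D) k ω y]
      congr 1
      refine Finset.prod_congr rfl fun w hw => ?_
      have hwv : w ≠ v := fun e => hv (e ▸ hw)
      rw [estO_congr (x := xP (upd ω (Sum.inr (v, k)) y)) (x' := xP ω)
        fun l _ => upd_ne (by simp [hwv]) _ _]
    set F : Om V → ℝ := fun ω => fprod M (fld K K ω) η with hF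
    have hFb : BM F := bm_fprod K K M η
    have e : ∀ ω, ψ ω * (∏ w ∈ insert v D, (1 + c w * estO n w (xP ω)) / 2) * F ω
        = 1/2 * (Q ω * F ω) + ∑ k ∈ Finset.range n, (c v * (3 / eps) / n / 2)
              * (Q ω * cc (ω (Sum.inr (v, k + 1))) * F ω) := by
      intro ω
      rw [Finset.prod_insert hv]
      have : ∑ k ∈ Finset.range n, (c v * (3 / eps) / n / 2)
              * (Q ω * cc (ω (Sum.inr (v, k + 1))) * F ω)
          = c v * estO n v (xP ω) / 2 * (Q ω * F ω) := by
        unfold estO Tn xP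
        rw [Finset.sum_div, Finset.mul_sum, Finset.sum_div, Finset.sum_mul]
        exact Finset.sum_congr rfl fun k _ => by ring
      rw [this]
      simp only [hQ]
      ring
    have iS : ∀ k ∈ Finset.range n, Integrable (fun ω => (c v * (3 / eps) / n / 2)
        * (Q ω * cc (ω (Sum.inr (v, k + 1))) * F ω)) (PU _) := fun k _ =>
      (((hQb.mul (bm_cc_eval (ι := (V × ℕ) ⊕ (V × ℕ)) (Sum.inr (v, k + 1)))).mul hFb).integrable
        _).const_mul _
    have hcc : ∀ k ∈ Finset.range n, ∫ ω, Q ω * cc (ω (Sum.inr (v, k + 1))) * F ω ∂PU _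
        = eps * sp η v / 3 * ∫ ω, Q ω * F ω ∂PU _ := by
      intro k hk
      have hk' := Finset.mem_range.1 hk
      refine integral_cc_fprod (Finset.mk_mem_product hvM (Finset.mem_range.2 (by omega))) hQb
        (hQd (k + 1)) fun ω hω => ⟨?_, ?_⟩
      · exact hrev ω (left_ne_zero_of_mul hω) v (Finset.mem_insert_self v D) k hk'
      · refine le_trans ?_ (le_tim (k + 1) _)
        push_cast
        linarith [(Nat.cast_nonneg k : (0:ℝ) ≤ k)]
    have hI : ∫ ω, Q ω * F ω ∂PU _
        = (∏ w ∈ D, (1 + c w * sp η w) / 2) * ∫ ω, ψ ω * F ω ∂PU _ := ihh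
    show ∫ ω, ψ ω * _ * F ω ∂PU _ = _ * ∫ ω, ψ ω * F ω ∂PU _
    simp only [e]
    rw [integral_add (((hQb.mul hFb).integrable _).const_mul _) (integrable_finsetSum _ iS),
      integral_finsetSum _ iS]
    simp only [integral_const_mul]
    rw [Finset.sum_congr rfl (fun k hk => by rw [hcc k hk]), Finset.prod_insert hv, hI]
    simp only [Finset.sum_const, Finset.card_range, nsmul_eq_mul]
    have hε := eps_pos.ne'
    have hn' : (n : ℝ) ≠ 0 := by exact_mod_cast hn.ne'
    field_simp

/-- the law at the horizon of a functional of the estimators -/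
lemma law_est [Countable V] (hT : G.IsTree) (hθ0 : 0 ≤ θ) (hθ1 : θ < 1) {D M : Finset V}
    (hM : Geo G M) (hne : M.Nonempty) (hDM : D ⊆ M) {n : ℕ} (hnK : n < K)
    {H : (V × ℕ → ℝ) → ℝ} (hH : BM H)
    (hHd : ∀ x x', (∀ v ∈ D, ∀ k < n, x (v, k + 1) = x' (v, k + 1)) → H x = H x') :
    ∫ ω, evI K n D ω * H (xP (Smp G θ K M ω)) ∂PU _
      = EI G θ M (fun η => ∫ ω, evI K n D ω * H (xP ω) * fprod M (fld K K ω) η ∂PU _) := by
  have hφ : BM (fun ω : Om V => evI K n D ω * H (xP ω)) :=
    (bm_evI K n D).mul (hH.comp measurable_xP)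
  rw [← integral_Zw_mul hφ, ← law_Smp hT hθ0 hθ1 hM hne hφ ?_]
  · refine integral_congr_ae (ae_of_all _ fun ω => ?_)
    show evI K n D ω * _ = evI K n D (Smp G θ K M ω) * _
    rw [evI_congr (ω := Smp G θ K M ω) (ω' := ω) (Smp_inl M ω)]
  · intro ω ω' hl hr
    rw [evI_congr hl]
    by_cases h0 : evI K n D ω' = 0
    · simp [h0]
    congr 1
    refine hHd _ _ fun v hv k hk => hr (v, k + 1) (mem_box.2 ⟨hDM hv, show k + 1 < K by omega⟩) ?_
    have : tau ω (v, k + 1) = tau ω' (v, k + 1) := congrArg (tim (k + 1)) (hl _)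
    rw [this]
    exact evI_ne_zero h0 hv hk

/-- the cylinder weight as an expectation -/
lemma EI_prod_indicator (D : Finset V) (b : V → Bool) :
    EI G θ D (fun η => ∏ v ∈ D, (1 + spin (b v) * sp η v) / 2) = isingCylinder G θ D b := by
  unfold EI
  set η₀ := D.filter (fun v => b v = true) with hη₀
  rw [Finset.sum_eq_single η₀]
  · have h1 : ∀ v ∈ D, decide (v ∈ η₀) = b v := by
      intro v hv; cases hb : b v <;> simp [hη₀, hv, hb]
    have h2 : ∏ v ∈ D, (1 + spin (b v) * sp η₀ v) / 2 = 1 := by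
      refine Finset.prod_eq_one fun v hv => ?_
      rw [sp, h1 v hv]
      cases b v <;> norm_num [spin]
    simp only
    rw [h2, mul_one]
    unfold wgt isingCylinder
    congr 1
    refine Finset.prod_congr rfl fun e he => ?_
    induction e using Sym2.ind with
    | _ u w =>
      rw [Finset.mem_filter, Finset.mk_mem_sym2_iff] at he
      rw [edgeFactor_mk, edgeFactor_mk, h1 u he.1.1, h1 w he.1.2]
  · intro η hη hne
    have : ∃ v ∈ D, decide (v ∈ η) ≠ b v := by
      by_contra hc
      push Not at hc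
      apply hne
      ext v
      constructor
      · intro hv
        have hvD := Finset.mem_powerset.1 hη hv
        exact Finset.mem_filter.2 ⟨hvD, by rw [← hc v hvD]; simp [hv]⟩
      · intro hv
        obtain ⟨hvD, hb⟩ := Finset.mem_filter.1 hv
        have := hc v hvD
        rw [hb] at this
        simpa using this
    obtain ⟨v, hv, hvb⟩ := this
    simp only
    rw [Finset.prod_eq_zero hv, mul_zero]
    rw [sp]
    cases hb : b v <;> cases hd : decide (v ∈ η) <;> simp_all [spin]
  · intro h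
    exact absurd (Finset.mem_powerset.2 (Finset.filter_subset _ _)) h

/-- exact cylinder identity in a finite volume -/
lemma law_prod_est [Countable V] (hT : G.IsTree) (hθ0 : 0 ≤ θ) (hθ1 : θ < 1) {D M : Finset V}
    (hD : Geo G D) (hne : D.Nonempty) (hM : Geo G M) (hDM : D ⊆ M) {n : ℕ} (hn : 0 < n)
    (hnK : n < K) (b : V → Bool) :
    ∫ ω, evI K n D ω * ∏ v ∈ D, (1 + spin (b v) * estO n v (xP (Smp G θ K M ω))) / 2 ∂PU _
      = isingCylinder G θ D b * ∫ ω : Om V, evI K n D ω ∂PU _ := by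
  set H : (V × ℕ → ℝ) → ℝ := fun x => ∏ v ∈ D, (1 + spin (b v) * estO n v x) / 2 with hH
  have hHb : BM H := BM.prod D fun v _ => by
    have := (((BM.const (spin (b v))).mul (bm_estO n v)).add (BM.const 1)).mul (BM.const (1/2))
    convert this using 1
    funext x; ring
  have h := law_est (G := G) (θ := θ) hT hθ0 hθ1 hM (hne.mono hDM) hDM hnK hHb
    (fun x x' e => Finset.prod_congr rfl fun v hv => by rw [estO_congr (e v hv)])
  refine h.trans ?_
  rw [EI_congr M (F' := fun η =>
      (∫ ω : Om V, evI K n D ω ∂PU _) * ∏ v ∈ D, (1 + spin (b v) * sp η v) / 2) (fun η _ => ?_),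
    EI_const_mul, EI_consistent hT _ D M rfl hDM hD hM hne _ (fun η η' e => ?_), EI_prod_indicator,
    mul_comm]
  · refine Finset.prod_congr rfl fun v hv => ?_
    have := Loc.sp hv η η' e
    simp only at this
    rw [this]
  · rw [integral_prod_est hn hnK η (fun v => spin (b v)) D hDM _ (bm_evI K n D)
      (fun v _ k ω y => evI_congr fun j => upd_ne (by simp) _ _)
      (fun ω hω v hv k hk => evI_ne_zero hω hv hk), integral_evI_fprod, mul_comm]

/-- the squared estimators concentrate at one -/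
lemma law_sq_est [Countable V] (hT : G.IsTree) (hθ0 : 0 ≤ θ) (hθ1 : θ < 1) {M : Finset V}
    (hM : Geo G M) {v : V} (hv : v ∈ M) {n : ℕ} (hn : 0 < n) (hnK : n < K) :
    ∫ ω, evI K n {v} ω * (estO n v (xP (Smp G θ K M ω)) ^ 2 - 1) ^ 2 ∂PU _
      ≤ (3 / eps + 1) ^ 4 / n := by
  set C := 3 / eps + 1 with hC
  have hε := eps_pos
  have hC0 : 0 < C := by positivity
  have hH : BM (fun x : V × ℕ → ℝ => (estO n v x ^ 2 - 1) ^ 2) :=
    ((bm_estO n v).sq.sub (BM.const 1)).sq
  refine (law_est (G := G) (θ := θ) hT hθ0 hθ1 hM ⟨v, hv⟩ (by simpa using hv) hnK hH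
    (fun x x' e => by rw [estO_congr (e v (Finset.mem_singleton_self v))])).trans_le ?_
  have hb : ∀ η, ∫ ω, evI K n {v} ω * (estO n v (xP ω) ^ 2 - 1) ^ 2 * fprod M (fld K K ω) η
      ∂PU _ ≤ C ^ 4 / n := by
    intro η
    set s := sp η v with hs'
    set F : Om V → ℝ := fun ω => fprod M (fld K K ω) η with hF
    set A : Om V → ℝ := evI K n {v} with hA
    have hFb : BM F := bm_fprod K K M η
    have hF0 : ∀ ω, 0 ≤ F ω := fun ω =>
      Finset.prod_nonneg fun w _ => (fld_pos _ _ _ _ _).le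
    have hAb : BM A := bm_evI K n {v}
    set y : ℕ → Om V → ℝ := fun k ω => 3 / eps * cc (ω (Sum.inr (v, k + 1))) - s with hy
    have hyb : ∀ k, BM (y k) := fun k =>
      ((BM.const (3 / eps)).mul (bm_cc_eval (ι := (V × ℕ) ⊕ (V × ℕ)) _)).sub (BM.const s)
    have hB : ∀ k ω, |y k ω| ≤ C := by
      intro k ω
      refine (abs_sub _ _).trans (add_le_add ?_ (abs_sp η v).le)
      rw [abs_mul, abs_of_pos (by positivity : (0:ℝ) < 3 / eps)]
      exact mul_le_of_le_one_right (by positivity) (abs_cc _)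
    have hoff : ∀ k < n, ∀ l, l ≠ k → ∫ ω, A ω * (y k ω * y l ω) * F ω ∂PU _ = 0 := by
      intro k hk l hlk
      have e : ∀ ω, A ω * (y k ω * y l ω) * F ω
          = 3 / eps * (A ω * y l ω * cc (ω (Sum.inr (v, k + 1))) * F ω)
            - s * (A ω * y l ω * F ω) := by
        intro ω; simp only [hy]; ring
      have hd : ∀ ω z, A (upd ω (Sum.inr (v, k + 1)) z) * y l (upd ω (Sum.inr (v, k + 1)) z)
          = A ω * y l ω := fun ω z => by
        simp only [hA, hy]
        rw [evI_congr (ω := upd ω (Sum.inr (v, k + 1)) z) (ω' := ω) fun j => upd_ne (by simp) _ _,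
          upd_ne (by simp [hlk])]
      simp only [e]
      rw [integral_sub ((((hAb.mul (hyb l)).mul (bm_cc_eval (ι := (V × ℕ) ⊕ (V × ℕ)) _)).mul
          hFb).integrable _ |>.const_mul _) (((hAb.mul (hyb l)).mul hFb).integrable _ |>.const_mul _),
        integral_const_mul, integral_const_mul,
        integral_cc_fprod (i := (v, k + 1))
          (Finset.mk_mem_product hv (Finset.mem_range.2 (by omega))) (hAb.mul (hyb l)) hd
          (fun ω hω => ⟨evI_ne_zero (left_ne_zero_of_mul hω) (Finset.mem_singleton_self v) hk,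
            le_trans (by push_cast; linarith [(Nat.cast_nonneg k : (0:ℝ) ≤ k)]) (le_tim (k + 1) _)⟩)]
      field_simp
      ring
    have hF1 : ∫ ω, A ω * F ω ∂PU _ ≤ 1 := by
      rw [hA, hF, integral_evI_fprod]
      calc ∫ ω, evI K n {v} ω ∂PU _ ≤ ∫ _ω : Om V, (1:ℝ) ∂PU _ :=
            integral_mono (hAb.integrable _) (integrable_const _) fun ω => (evI_mem K n _ ω).2
        _ = 1 := by simp
    have hdiag : ∀ k, ∫ ω, A ω * (y k ω * y k ω) * F ω ∂PU _ ≤ C ^ 2 := by
      intro k
      calc _ ≤ ∫ ω, C ^ 2 * (A ω * F ω) ∂PU _ := by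
            refine integral_mono (((hAb.mul ((hyb k).mul (hyb k))).mul hFb).integrable _)
              (((hAb.mul hFb).integrable _).const_mul _) fun ω => ?_
            have h2 : y k ω * y k ω ≤ C ^ 2 := by
              rw [← pow_two]
              exact sq_le_sq' (abs_le.1 (hB k ω)).1 (abs_le.1 (hB k ω)).2
            have := mul_le_mul_of_nonneg_left h2 (evI_mem K n {v} ω).1
            calc A ω * (y k ω * y k ω) * F ω ≤ A ω * C ^ 2 * F ω :=
                  mul_le_mul_of_nonneg_right this (hF0 ω)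
              _ = _ := by ring
        _ ≤ _ := by
            rw [integral_const_mul]
            exact mul_le_of_le_one_right (sq_nonneg _) hF1
    have hTs : ∀ ω, estO n v (xP ω) - s = (∑ k ∈ Finset.range n, y k ω) / n := by
      intro ω
      have hn' : (n : ℝ) ≠ 0 := by exact_mod_cast hn.ne'
      simp only [estO, Tn, xP, hy, Finset.sum_sub_distrib, Finset.sum_const, Finset.card_range,
        nsmul_eq_mul]
      field_simp
    have hpt : ∀ ω, A ω * (estO n v (xP ω) ^ 2 - 1) ^ 2 * F ω ≤ C ^ 2 / (n : ℝ) ^ 2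
        * ∑ k ∈ Finset.range n, ∑ l ∈ Finset.range n, A ω * (y k ω * y l ω) * F ω := by
      intro ω
      have e : ∑ k ∈ Finset.range n, ∑ l ∈ Finset.range n, A ω * (y k ω * y l ω) * F ω
          = A ω * (∑ k ∈ Finset.range n, y k ω) ^ 2 * F ω := by
        rw [pow_two, Finset.sum_mul_sum, Finset.mul_sum, Finset.sum_mul]
        refine Finset.sum_congr rfl fun k _ => ?_
        rw [Finset.mul_sum, Finset.sum_mul]
      rw [e]
      have h1 : (estO n v (xP ω) ^ 2 - 1) ^ 2
          ≤ C ^ 2 / (n : ℝ) ^ 2 * (∑ k ∈ Finset.range n, y k ω) ^ 2 := by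
        rw [div_mul_eq_mul_div, mul_div_assoc, ← div_pow, ← hTs ω]
        have hs1 : s * s = 1 := sp_mul_self η v
        have : estO n v (xP ω) ^ 2 - 1 = (estO n v (xP ω) - s) * (estO n v (xP ω) + s) := by
          linear_combination hs1
        simp only [this, mul_pow]
        rw [mul_comm ((estO n v (xP ω) - s) ^ 2)]
        refine mul_le_mul_of_nonneg_right ?_ (sq_nonneg _)
        have h3 := abs_le.1 (abs_estO_le n v (xP ω))
        have h4 := abs_le.1 (abs_sp η v).le
        exact sq_le_sq' (by linarith) (by linarith)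
      calc A ω * (estO n v (xP ω) ^ 2 - 1) ^ 2 * F ω
          ≤ A ω * (C ^ 2 / (n : ℝ) ^ 2 * (∑ k ∈ Finset.range n, y k ω) ^ 2) * F ω :=
            mul_le_mul_of_nonneg_right (mul_le_mul_of_nonneg_left h1 (evI_mem K n _ ω).1) (hF0 ω)
        _ = _ := by ring
    have bterm : ∀ k l, BM (fun ω => A ω * (y k ω * y l ω) * F ω) := fun k l =>
      (hAb.mul ((hyb k).mul (hyb l))).mul hFb
    have iI : ∀ k ∈ Finset.range n, Integrable
        (fun ω => ∑ l ∈ Finset.range n, A ω * (y k ω * y l ω) * F ω) (PU _) := fun k _ =>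
      integrable_finsetSum _ fun l _ => (bterm k l).integrable _
    refine (integral_mono (((hAb.mul (hH.comp measurable_xP)).mul hFb).integrable _)
      ((integrable_finsetSum _ iI).const_mul _) hpt).trans ?_
    rw [integral_const_mul, integral_finsetSum _ iI]
    have h5 : ∑ k ∈ Finset.range n,
        ∫ ω, (∑ l ∈ Finset.range n, A ω * (y k ω * y l ω) * F ω) ∂PU _ ≤ n * C ^ 2 := by
      calc _ ≤ ∑ _k ∈ Finset.range n, C ^ 2 := by
            refine Finset.sum_le_sum fun k hk => ?_
            rw [integral_finsetSum _ fun l _ => (bterm k l).integrable _,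
              Finset.sum_eq_single k (fun l _ hl => hoff k (Finset.mem_range.1 hk) l hl)
                (fun h => absurd hk h)]
            exact hdiag k
        _ = _ := by simp
    calc _ ≤ C ^ 2 / (n : ℝ) ^ 2 * (n * C ^ 2) := mul_le_mul_of_nonneg_left h5 (by positivity)
      _ = _ := by
          have hn' : (n : ℝ) ≠ 0 := by exact_mod_cast hn.ne'
          field_simp
  refine (EI_mono hθ0 hθ1 _ hb).trans (le_of_eq ?_)
  rw [EI_consistent hT _ {v} M rfl (by simpa using hv) (geo_singleton v) hM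
    (Finset.singleton_nonempty v) _ (fun _ _ _ => rfl), EI_singleton]
  ring

end Vale.Agent.P161.Crit
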