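import Mathlib
import Vale.Agent.P161.Crit.EstLaw

/-!
From Cauchy families of finite-volume samplers at parameters `θs j → θ` to a factor of i.i.d.
whose law is the free Ising state at `θ`.
-/

open MeasureTheory Set Function Filter
open scoped Classical Topology

noncomputable section

namespace Vale.Agent.P161.Crit

variable {V : Type*} {G : SimpleGraph V} {θ : ℝ} {K : ℕ}

/-- observation `i` of the sampler, erased when it is revealed after the horizon -/
def FvS (G : SimpleGraph V) (θ : ℝ) (K : ℕ) (D : Finset V) (i : V × ℕ) (ω : Om V) : ℝ :=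
  if i ∈ box K D ∧ tau ω i < (K : ℝ) then Smp G θ K D ω (Sum.inr i) else 0

lemma measurable_Fv (D : Finset V) (i : V × ℕ) : Measurable (FvS G θ K D i) := by
  have hs : MeasurableSet {ω : Om V | i ∈ box K D ∧ tau ω i < (K : ℝ)} :=
    (MeasurableSet.const (i ∈ box K D)).inter (measurableSet_lt (measurable_tau i) measurable_const)
  exact Measurable.ite hs ((measurable_pi_apply _).comp (measurable_Smp D)) measurable_const

lemma abs_Fv_le (D : Finset V) (i : V × ℕ) (ω : Om V) : |FvS G θ K D i ω| ≤ 1 := by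
  unfold FvS
  split_ifs with h
  · have := Smp_mem (G := G) (θ := θ) D ω h.1
    rw [abs_of_nonneg this.1]; exact this.2
  · simp

lemma Fv_eq {D : Finset V} {i : V × ℕ} {ω : Om V} (hi : i.1 ∈ D) (ht : tau ω i < (K : ℝ)) :
    FvS G θ K D i ω = Smp G θ K D ω (Sum.inr i) := by
  have hk : i.2 < K := by
    have := (le_tim i.2 (ω (Sum.inl i))).trans_lt ht
    exact_mod_cast this
  exact if_pos ⟨mem_box.2 ⟨hi, hk⟩, ht⟩

lemma Fv_of_le {i : V × ℕ} (hi : K ≤ i.2) (D : Finset V) (ω : Om V) : FvS G θ K D i ω = 0 :=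
  if_neg fun h => absurd (mem_box.1 h.1).2 (not_lt.2 hi)

/-- the observation is revealed before `K` -/
def before (K : ℕ) (i : V × ℕ) (ω : Om V) : ℝ := if tau ω i < (K : ℝ) then 1 else 0

lemma bm_before (K : ℕ) (i : V × ℕ) : BM (before K i : Om V → ℝ) := by
  refine ⟨Measurable.ite (measurableSet_lt (measurable_tau i) measurable_const) measurable_const
    measurable_const, 1, fun ω => ?_⟩
  unfold before; split_ifs <;> simp

lemma Fv_horizon {K K' : ℕ} (h : K ≤ K') {D : Finset V} {i : V × ℕ} (hi : i.1 ∈ D) (ω : Om V) :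
    before K i ω * FvS G θ K' D i ω = FvS G θ K D i ω := by
  by_cases ht : tau ω i < (K : ℝ)
  · have hk : i.2 < K := by
      have := (le_tim i.2 (ω (Sum.inl i))).trans_lt ht
      exact_mod_cast this
    rw [Fv_eq hi (ht.trans_le (by exact_mod_cast h)), Fv_eq hi ht, before, if_pos ht, one_mul,
      Smp_horizon h D ω i (mem_box.2 ⟨hi, hk⟩) ht.le]
  · rw [before, if_neg ht, zero_mul, FvS, if_neg fun c => ht c.2]

lemma Fv_act (g : G ≃g G) (D : Finset V) (ω : Om V) {i : V × ℕ} (hi : i.1 ∈ D) :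
    FvS G θ K (D.image g) (g i.1, i.2) (actO g ω) = FvS G θ K D i ω := by
  by_cases ht : tau ω i < (K : ℝ)
  · have hk : i.2 < K := by
      have := (le_tim i.2 (ω (Sum.inl i))).trans_lt ht
      exact_mod_cast this
    rw [Fv_eq (Finset.mem_image_of_mem g hi) (by rw [tau_actO]; exact ht), Fv_eq hi ht,
      Smp_act g D ω (mem_box.2 ⟨hi, hk⟩)]
  · rw [FvS, if_neg (fun c => ht (by simpa [tau_actO] using c.2)), FvS, if_neg fun c => ht c.2]

/-- sampler families with limits -/
structure SLim (G : SimpleGraph V) (θs : ℕ → ℝ) where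
  Y : ℕ → ℕ → V × ℕ → Om V → ℝ
  Z : ℕ → V × ℕ → Om V → ℝ
  lY : ∀ j K i, LT (PU _) (vol G) (fun D => FvS G (θs j) K D i) (Y j K i)
  lZ : ∀ K i, LT (PU _) atTop (fun j => Y j K i) (Z K i)

lemma exists_SLim (hT : G.IsTree) {q : ℕ} (hd : ∀ v, (G.neighborSet v).ncard = q + 1)
    (θs : ℕ → ℝ)
    (hvol : ∀ (j K : ℕ) (i : V × ℕ), i.2 < K → ∀ δ > 0, ∃ E : Finset V, ∀ D M, Geo G D → Geo G M →
      E ⊆ D → E ⊆ M →
      ∫ ω, (if tau ω i < (K:ℝ) then |Smp G (θs j) K D ω (Sum.inr i)
        - Smp G (θs j) K M ω (Sum.inr i)| else 0) ∂PU _ ≤ δ)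
    (hpair : ∀ (K : ℕ) (i : V × ℕ), i.2 < K → ∀ δ > 0, ∃ J, ∀ j ≥ J, ∀ l ≥ J, ∃ E : Finset V,
      ∀ D, Geo G D → E ⊆ D →
      ∫ ω, (if tau ω i < (K:ℝ) then |Smp G (θs j) K D ω (Sum.inr i)
        - Smp G (θs l) K D ω (Sum.inr i)| else 0) ∂PU _ ≤ δ) :
    Nonempty (SLim G θs) := by
  have := vol_neBot hT hd
  have hrw : ∀ (a b : ℝ) (K : ℕ) (i : V × ℕ) (D M : Finset V), i.1 ∈ D → i.1 ∈ M → ∀ ω,
      |FvS G a K D i ω - FvS G b K M i ω|
        = if tau ω i < (K:ℝ) then |Smp G a K D ω (Sum.inr i) - Smp G b K M ω (Sum.inr i)| else 0 := by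
    intro a b K i D M hD hM ω
    by_cases ht : tau ω i < (K:ℝ)
    · rw [if_pos ht, Fv_eq hD ht, Fv_eq hM ht]
    · rw [if_neg ht, FvS, if_neg fun c => ht c.2, FvS, if_neg fun c => ht c.2, sub_self, abs_zero]
  have h1 : ∀ j K i, ∃ Y, LT (PU _) (vol G) (fun D => FvS G (θs j) K D i) Y := by
    intro j K i
    obtain ⟨Y, hY, hYb, hYt⟩ := exists_L1_limit (PU _) (l := vol G)
      (F := fun D => FvS G (θs j) K D i) (fun D => measurable_Fv D i) (fun D => abs_Fv_le D i)
      (fun δ hδ => by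
        by_cases hk : i.2 < K
        · obtain ⟨E, hE⟩ := hvol j K i hk δ hδ
          refine ⟨{D | Geo G D ∧ insert i.1 E ⊆ D},
            eventually_vol (E := insert i.1 E) (fun D h1 h2 => ⟨h1, h2⟩), fun D hD M hM => ?_⟩
          simp only [hrw _ _ K i D M (hD.2 (Finset.mem_insert_self _ _))
            (hM.2 (Finset.mem_insert_self _ _))]
          exact hE D M hD.1 hM.1 ((Finset.subset_insert _ _).trans hD.2)
            ((Finset.subset_insert _ _).trans hM.2)
        · exact ⟨univ, univ_mem, fun D _ M _ => by simp [Fv_of_le (not_lt.1 hk), hδ.le]⟩)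
    exact ⟨Y, fun D => measurable_Fv D i, hY, ⟨1, fun D => abs_Fv_le D i, hYb⟩, hYt⟩
  choose Y hY using h1
  have hYb : ∀ j K i ω, |max (-1) (min 1 (Y j K i ω))| ≤ 1 := fun j K i ω => abs_le.2
    ⟨le_max_left _ _, max_le (by norm_num) (min_le_left _ _)⟩
  -- clamp, so that the bound is uniform in `j`
  have hY' : ∀ j K i, LT (PU _) (vol G) (fun D => FvS G (θs j) K D i)
      (fun ω => max (-1) (min 1 (Y j K i ω))) := by
    intro j K i
    refine LT.of_le (B := fun D ω => |FvS G (θs j) K D i ω - Y j K i ω|) (fun D => measurable_Fv D i)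
      (measurable_const.max (measurable_const.min (hY j K i).measLim))
      ⟨1, fun D => abs_Fv_le D i, hYb j K i⟩
      (fun D => (((hY j K i).bm D).sub (hY j K i).bmLim).abs) (hY j K i).conv (fun D ω => ?_)
    have h := abs_le.1 (abs_Fv_le (G := G) (θ := θs j) (K := K) D i ω)
    calc |FvS G (θs j) K D i ω - max (-1) (min 1 (Y j K i ω))|
        = |max (-1) (min 1 (FvS G (θs j) K D i ω)) - max (-1) (min 1 (Y j K i ω))| := by
          rw [min_eq_right h.2, max_eq_right h.1]
      _ ≤ _ := (abs_max_sub_max_le_max _ _ _ _).trans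
          (max_le (by simp) ((abs_min_sub_min_le_max _ _ _ _).trans (max_le (by simp) le_rfl)))
  set Yc : ℕ → ℕ → V × ℕ → Om V → ℝ := fun j K i ω => max (-1) (min 1 (Y j K i ω)) with hYc
  have h2 : ∀ K i, ∃ Z, LT (PU _) atTop (fun j => Yc j K i) Z := by
    intro K i
    obtain ⟨Z, hZ, hZb, hZt⟩ := exists_L1_limit (PU _) (l := atTop) (F := fun j => Yc j K i)
      (fun j => (hY' j K i).measLim) (fun j => hYb j K i) (fun δ hδ => by
        have key : ∀ j l, (∀ᶠ D in vol G,
            ∫ ω, |FvS G (θs j) K D i ω - FvS G (θs l) K D i ω| ∂PU _ ≤ δ) →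
            ∫ ω, |Yc j K i ω - Yc l K i ω| ∂PU _ ≤ δ := by
          intro j l hev
          have ht := ((hY' j K i).conv.add (hY' l K i).conv).add_const δ
          rw [add_zero, zero_add] at ht
          refine ge_of_tendsto ht (hev.mono fun D hD => ?_)
          have b1 := (((hY' j K i).bm D).sub (hY' j K i).bmLim).abs
          have b2 := (((hY' l K i).bm D).sub (hY' l K i).bmLim).abs
          have b3 := (((hY' j K i).bm D).sub ((hY' l K i).bm D)).abs
          calc ∫ ω, |Yc j K i ω - Yc l K i ω| ∂PU _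
              ≤ ∫ ω, (|FvS G (θs j) K D i ω - Yc j K i ω| + |FvS G (θs l) K D i ω - Yc l K i ω|
                + |FvS G (θs j) K D i ω - FvS G (θs l) K D i ω|) ∂PU _ := by
                refine integral_mono ((((hY' j K i).bmLim.sub (hY' l K i).bmLim).abs).integrable _)
                  (((b1.add b2).add b3).integrable _) fun ω => ?_
                have a1 := abs_sub_le (Yc j K i ω) (FvS G (θs j) K D i ω) (Yc l K i ω)
                have a2 := abs_sub_le (FvS G (θs j) K D i ω) (FvS G (θs l) K D i ω) (Yc l K i ω)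
                rw [abs_sub_comm (Yc j K i ω) (FvS G (θs j) K D i ω)] at a1
                linarith
            _ ≤ _ := by
                rw [integral_add (by exact (b1.add b2).integrable _) (b3.integrable _),
                  integral_add (b1.integrable _) (b2.integrable _)]
                linarith
        by_cases hk : i.2 < K
        · obtain ⟨J, hJ⟩ := hpair K i hk δ hδ
          refine ⟨Ici J, Ici_mem_atTop J, fun j hj l hl => key j l ?_⟩
          obtain ⟨E, hE⟩ := hJ j hj l hl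
          refine eventually_vol (E := insert i.1 E) fun D hD hDE => ?_
          simp only [hrw _ _ K i D D (hDE (Finset.mem_insert_self _ _))
            (hDE (Finset.mem_insert_self _ _))]
          exact hE D hD ((Finset.subset_insert _ _).trans hDE)
        · exact ⟨univ, univ_mem, fun j _ l _ => key j l (Eventually.of_forall fun D => by
            simp [Fv_of_le (not_lt.1 hk), hδ.le])⟩)
    exact ⟨Z, fun j => (hY' j K i).measLim, hZ, ⟨1, fun j => hYb j K i, hZb⟩, hZt⟩
  choose Z hZ using h2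
  exact ⟨⟨Yc, Z, hY', hZ⟩⟩

namespace SLim

variable {θs : ℕ → ℝ} (S : SLim G θs)

/-- the limiting observations -/
def Psi (i : V × ℕ) (ω : Om V) : ℝ := S.Z (⌊tau ω i⌋₊ + 1) i ω

lemma measurable_Psi (i : V × ℕ) : Measurable (S.Psi i) := by
  have h : Measurable (fun p : ℕ × Om V => S.Z p.1 i p.2) :=
    measurable_from_prod_countable_right fun K => (S.lZ K i).measLim
  exact h.comp ((((Nat.measurable_floor.comp (measurable_tau i))).add_const 1).prodMk measurable_id)

variable (hT : G.IsTree) {q : ℕ} (hd : ∀ v, (G.neighborSet v).ncard = q + 1)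

include hT hd in
lemma Z_horizon {K K' : ℕ} (h : K ≤ K') (i : V × ℕ) :
    (fun ω => before K i ω * S.Z K' i ω) =ᵐ[PU _] S.Z K i := by
  have := vol_neBot hT hd
  have hY : ∀ j, (fun ω => before K i ω * S.Y j K' i ω) =ᵐ[PU _] S.Y j K i := fun j =>
    LT.ae_eq ((LT.const (bm_before K i)).mul (S.lY j K' i)) (S.lY j K i)
      (eventually_vol (E := {i.1}) fun D _ hD ω => Fv_horizon h (by simpa using hD) ω)
  have h1 := (LT.const (μ := PU _) (l := (atTop : Filter ℕ)) (bm_before K i)).mul (S.lZ K' i)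
  have h2 : LT (PU _) atTop (fun j ω => before K i ω * S.Y j K' i ω) (S.Z K i) := by
    refine ⟨h1.meas, (S.lZ K i).measLim, ?_, (S.lZ K i).conv.congr fun j => ?_⟩
    · obtain ⟨C, hC, hC'⟩ := h1.bdd
      obtain ⟨E, hE, hE'⟩ := (S.lZ K i).bdd
      exact ⟨max C E, fun j ω => (hC j ω).trans (le_max_left _ _),
        fun ω => (hE' ω).trans (le_max_right _ _)⟩
    · exact integral_congr_ae ((hY j).mono fun ω hω => by simp only [hω])
  exact LT.ae_eq h1 h2 (Eventually.of_forall fun j ω => rfl)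

include hT hd in
lemma Psi_eq [Countable V] : ∀ᵐ ω ∂PU ((V × ℕ) ⊕ (V × ℕ)), ∀ (K : ℕ) (i : V × ℕ), tau ω i < (K : ℝ) →
    S.Psi i ω = S.Z K i ω := by
  have h : ∀ᵐ ω ∂PU ((V × ℕ) ⊕ (V × ℕ)), ∀ (K K' : ℕ) (i : V × ℕ), K ≤ K' →
      before K i ω * S.Z K' i ω = S.Z K i ω := by
    rw [ae_all_iff]; intro K
    rw [ae_all_iff]; intro K'
    rw [ae_all_iff]; intro i
    by_cases hKK : K ≤ K'
    · filter_upwards [S.Z_horizon hT hd hKK i] with ω hω _ using hω
    · exact ae_of_all _ fun ω c => absurd c hKK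
  filter_upwards [h] with ω hω K i ht
  have hle : ⌊tau ω i⌋₊ + 1 ≤ K := (Nat.floor_lt (tim_nonneg _ _)).2 ht
  have := hω _ K i hle
  have hb : before (⌊tau ω i⌋₊ + 1) i ω = 1 := by
    unfold before
    exact if_pos (by push_cast; exact Nat.lt_floor_add_one _)
  rw [hb, one_mul] at this
  exact this.symm

include hT hd in
lemma Z_act (g : G ≃g G) (K : ℕ) (i : V × ℕ) :
    (fun ω => S.Z K (g i.1, i.2) (actO g ω)) =ᵐ[PU _] S.Z K i := by
  have := vol_neBot hT hd
  have hY : ∀ j, (fun ω => S.Y j K (g i.1, i.2) (actO g ω)) =ᵐ[PU _] S.Y j K i := fun j =>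
    LT.ae_eq ((S.lY j K (g i.1, i.2)).comp (tendsto_vol_image hT g) (mp_actO g)) (S.lY j K i)
      (eventually_vol (E := {i.1}) fun D _ hD ω => Fv_act g D ω (by simpa using hD))
  have h1 := (S.lZ K (g i.1, i.2)).comp (tendsto_id (α := ℕ)) (mp_actO g)
  have h2 : LT (PU _) atTop (fun j ω => S.Y j K (g i.1, i.2) (actO g ω)) (S.Z K i) := by
    refine ⟨h1.meas, (S.lZ K i).measLim, ?_, (S.lZ K i).conv.congr fun j => ?_⟩
    · obtain ⟨C, hC, hC'⟩ := h1.bdd
      obtain ⟨E, hE, hE'⟩ := (S.lZ K i).bdd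
      exact ⟨max C E, fun j ω => (hC j ω).trans (le_max_left _ _),
        fun ω => (hE' ω).trans (le_max_right _ _)⟩
    · exact integral_congr_ae ((hY j).mono fun ω hω => by simp only [hω])
  exact LT.ae_eq h1 h2 (Eventually.of_forall fun j ω => rfl)

include hT hd in
lemma Psi_act [Countable V] (g : G ≃g G) : ∀ᵐ ω ∂PU ((V × ℕ) ⊕ (V × ℕ)), ∀ i : V × ℕ,
    S.Psi (g i.1, i.2) (actO g ω) = S.Psi i ω := by
  have h : ∀ᵐ ω ∂PU ((V × ℕ) ⊕ (V × ℕ)), ∀ (K : ℕ) (i : V × ℕ),
      S.Z K (g i.1, i.2) (actO g ω) = S.Z K i ω := by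
    rw [ae_all_iff]; intro K
    rw [ae_all_iff]; intro i
    exact S.Z_act hT hd g K i
  filter_upwards [h] with ω hω i
  unfold SLim.Psi
  rw [tau_actO]
  exact hω _ i

/-- a bounded functional of the observations indexed by `D` and `1, …, n` that passes to
`L¹` limits -/
structure Fun (D : Finset V) (n : ℕ) where
  H : (V × ℕ → ℝ) → ℝ
  bm : BM H
  dep : ∀ x x', (∀ v ∈ D, ∀ k < n, x (v, k + 1) = x' (v, k + 1)) → H x = H x'
  lt1 : ∀ (F : Finset V → V × ℕ → Om V → ℝ) (f : V × ℕ → Om V → ℝ),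
    (∀ i, LT (PU _) (vol G) (fun M => F M i) (f i)) →
    LT (PU _) (vol G) (fun M ω => H (fun i => F M i ω)) (fun ω => H (fun i => f i ω))
  lt2 : ∀ (F : ℕ → V × ℕ → Om V → ℝ) (f : V × ℕ → Om V → ℝ),
    (∀ i, LT (PU _) atTop (fun M => F M i) (f i)) →
    LT (PU _) atTop (fun M ω => H (fun i => F M i ω)) (fun ω => H (fun i => f i ω))

variable {D : Finset V} {n : ℕ} (H : Fun (G := G) D n)

lemma lim_vol (j K : ℕ) :
    Tendsto (fun M => ∫ ω, evI K n D ω * H.H (xP (Smp G (θs j) K M ω)) ∂PU _) (vol G)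
      (𝓝 (∫ ω, evI K n D ω * H.H (fun i => S.Y j K i ω) ∂PU _)) := by
  refine ((LT.const (bm_evI K n D)).mul (H.lt1 _ _ (fun i => S.lY j K i))).integral_tendsto.congr' ?_
  refine eventually_vol (E := D) fun M _ hDM => integral_congr_ae (ae_of_all _ fun ω => ?_)
  show evI K n D ω * _ = evI K n D ω * _
  by_cases h0 : evI K n D ω = 0
  · simp [h0]
  congr 1
  exact H.dep _ _ fun v hv k hk => Fv_eq (hDM hv) (evI_ne_zero h0 hv hk)

include hT hd in
lemma lim_j [Countable V] (K : ℕ) :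
    Tendsto (fun j => ∫ ω, evI K n D ω * H.H (fun i => S.Y j K i ω) ∂PU _) atTop
      (𝓝 (∫ ω, evI K n D ω * H.H (fun i => S.Psi i ω) ∂PU _)) := by
  refine ((LT.const (bm_evI K n D)).mul (H.lt2 _ _ (fun i => S.lZ K i))).integral_tendsto.trans
    (le_of_eq (congrArg 𝓝 (integral_congr_ae ((S.Psi_eq hT hd).mono fun ω hω => ?_))))
  show evI K n D ω * _ = evI K n D ω * _
  by_cases h0 : evI K n D ω = 0
  · simp [h0]
  congr 1
  exact H.dep _ _ fun v hv k hk => (hω K (v, k + 1) (evI_ne_zero h0 hv hk)).symm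

lemma lim_K :
    Tendsto (fun K => ∫ ω, evI K n D ω * H.H (fun i => S.Psi i ω) ∂PU _) atTop
      (𝓝 (∫ ω, H.H (fun i => S.Psi i ω) ∂PU _)) := by
  obtain ⟨C, hC⟩ := H.bm.2
  have hm : Measurable (fun ω => H.H (fun i => S.Psi i ω)) :=
    H.bm.1.comp (measurable_pi_lambda _ fun i => S.measurable_Psi i)
  refine tendsto_integral_of_dominated_convergence (fun _ => |C|)
    (fun K => ((bm_evI K n D).1.mul hm).aestronglyMeasurable) (integrable_const _)
    (fun K => ae_of_all _ fun ω => ?_) (ae_of_all _ fun ω => ?_)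
  · rw [Real.norm_eq_abs, abs_mul]
    calc |evI K n D ω| * |H.H _| ≤ 1 * |C| := mul_le_mul
          (by rw [abs_of_nonneg (evI_mem K n D ω).1]; exact (evI_mem K n D ω).2)
          ((hC _).trans (le_abs_self C)) (abs_nonneg _) zero_le_one
      _ = _ := one_mul _
  · exact tendsto_const_nhds.congr' ((evI_eventually_one n D ω).mono fun K hK => by simp only [hK, one_mul])

end SLim

lemma lt_est {ι : Type*} {l : Filter ι} (n : ℕ) (v : V) {F : ι → V × ℕ → Om V → ℝ}
    {f : V × ℕ → Om V → ℝ} (h : ∀ i, LT (PU _) l (fun M => F M i) (f i)) :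
    LT (PU _) l (fun M ω => estO n v (fun i => F M i ω)) (fun ω => estO n v (fun i => f i ω)) := by
  have := (LT.sum (Finset.range n) (F := fun k M ω => 3 / eps * cc (F M (v, k + 1) ω))
    (f := fun k ω => 3 / eps * cc (f (v, k + 1) ω))
    (fun k _ => ((h (v, k + 1)).comp_cc).const_mul (3 / eps))).mul
      (LT.const (BM.const ((n : ℝ)⁻¹)))
  simpa [estO, Tn, div_eq_mul_inv] using this

lemma lt_prod_est {ι : Type*} {l : Filter ι} (D : Finset V) (n : ℕ) (c : V → ℝ)
    {F : ι → V × ℕ → Om V → ℝ} {f : V × ℕ → Om V → ℝ}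
    (h : ∀ i, LT (PU _) l (fun M => F M i) (f i)) :
    LT (PU _) l (fun M ω => ∏ v ∈ D, (1 + c v * estO n v (fun i => F M i ω)) / 2)
      (fun ω => ∏ v ∈ D, (1 + c v * estO n v (fun i => f i ω)) / 2) := by
  refine LT.prod D fun v _ => ?_
  have := ((LT.const (μ := PU _) (l := l) (BM.const (1:ℝ))).add
    ((lt_est n v h).const_mul (c v))).mul (LT.const (BM.const ((2:ℝ)⁻¹)))
  simpa [div_eq_mul_inv] using this

lemma lt_sq_est {ι : Type*} {l : Filter ι} (n : ℕ) (v : V)
    {F : ι → V × ℕ → Om V → ℝ} {f : V × ℕ → Om V → ℝ}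
    (h : ∀ i, LT (PU _) l (fun M => F M i) (f i)) :
    LT (PU _) l (fun M ω => (estO n v (fun i => F M i ω) ^ 2 - 1) ^ 2)
      (fun ω => (estO n v (fun i => f i ω) ^ 2 - 1) ^ 2) := by
  have a := ((lt_est n v h).mul (lt_est n v h)).add (LT.const (BM.const (-1:ℝ)))
  have := a.mul a
  simpa [pow_two, sub_eq_add_neg] using this

/-- the functional of the cylinder identity -/
def prodFun (G : SimpleGraph V) (D : Finset V) (n : ℕ) (b : V → Bool) : SLim.Fun (G := G) D n where
  H x := ∏ v ∈ D, (1 + spin (b v) * estO n v x) / 2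
  bm := BM.prod D fun v _ => by
    have := (((BM.const (spin (b v))).mul (bm_estO n v)).add (BM.const 1)).mul (BM.const (1/2))
    convert this using 1
    funext x; ring
  dep x x' e := Finset.prod_congr rfl fun v hv => by rw [estO_congr (e v hv)]
  lt1 _ _ h := lt_prod_est D n _ h
  lt2 _ _ h := lt_prod_est D n _ h

/-- the functional of the concentration bound -/
def sqFun (G : SimpleGraph V) (v : V) (n : ℕ) : SLim.Fun (G := G) {v} n where
  H x := (estO n v x ^ 2 - 1) ^ 2
  bm := ((bm_estO n v).sq.sub (BM.const 1)).sq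
  dep x x' e := by rw [estO_congr (e v (Finset.mem_singleton_self v))]
  lt1 _ _ h := lt_sq_est n v h
  lt2 _ _ h := lt_sq_est n v h

lemma continuous_isingCylinder (D : Finset V) (b : V → Bool) :
    Continuous (fun x : ℝ => isingCylinder G x D b) := by
  unfold isingCylinder
  refine continuous_const.mul (continuous_finsetProd _ fun e _ => ?_)
  induction e using Sym2.ind with
  | _ u v => simp only [edgeFactor_mk]; fun_prop

namespace SLim

variable {θs : ℕ → ℝ} (S : SLim G θs) (hT : G.IsTree) {q : ℕ}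
  (hd : ∀ v, (G.neighborSet v).ncard = q + 1) (hs0 : ∀ j, 0 ≤ θs j) (hs1 : ∀ j, θs j < 1)
  (hs : Tendsto θs atTop (𝓝 θ))

include hT hd hs0 hs1 hs in
/-- exact multilinear identity for the limiting estimators -/
lemma integral_prod_Psi [Countable V] {D : Finset V} (hD : Geo G D) (hne : D.Nonempty)
    (b : V → Bool) {n : ℕ} (hn : 0 < n) :
    ∫ ω, ∏ v ∈ D, (1 + spin (b v) * estO n v (fun i => S.Psi i ω)) / 2 ∂PU _
      = isingCylinder G θ D b := by
  have := vol_neBot hT hd
  set p : ℕ → ℝ := fun K => ∫ ω : Om V, evI K n D ω ∂PU _ with hp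
  have hj : ∀ K, n < K → ∫ ω, evI K n D ω * (prodFun G D n b).H (fun i => S.Psi i ω) ∂PU _
      = isingCylinder G θ D b * p K := by
    intro K hK
    refine tendsto_nhds_unique (S.lim_j hT hd (prodFun G D n b) K) ?_
    have e : ∀ j, ∫ ω, evI K n D ω * (prodFun G D n b).H (fun i => S.Y j K i ω) ∂PU _
        = isingCylinder G (θs j) D b * p K := fun j =>
      tendsto_nhds_unique (S.lim_vol (prodFun G D n b) j K)
        (tendsto_const_nhds.congr' ((eventually_vol (E := D) fun M hM hDM => hDM).and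
          (eventually_vol (E := (∅ : Finset V)) fun M hM _ => hM) |>.mono fun M h =>
            (law_prod_est hT (hs0 j) (hs1 j) hD hne h.2 h.1 hn hK b).symm))
    simp only [e]
    exact (((continuous_isingCylinder D b).tendsto θ).comp hs).mul_const _
  have hp1 : Tendsto p atTop (𝓝 1) := by
    have := tendsto_integral_of_dominated_convergence (μ := PU ((V × ℕ) ⊕ (V × ℕ)))
      (F := fun K ω => evI K n D ω) (f := fun _ => 1) (fun _ => 1)
      (fun K => (bm_evI K n D).1.aestronglyMeasurable) (integrable_const _)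
      (fun K => ae_of_all _ fun ω => by
        rw [Real.norm_eq_abs, abs_of_nonneg (evI_mem K n D ω).1]; exact (evI_mem K n D ω).2)
      (ae_of_all _ fun ω => tendsto_const_nhds.congr'
        ((evI_eventually_one n D ω).mono fun K hK => hK.symm))
    simpa using this
  refine tendsto_nhds_unique (S.lim_K (prodFun G D n b)) ?_
  have := hp1.const_mul (isingCylinder G θ D b)
  rw [mul_one] at this
  exact this.congr' ((eventually_gt_atTop n).mono fun K hK => (hj K hK).symm)

include hT hd hs0 hs1 in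
lemma integral_sq_Psi [Countable V] (v : V) {n : ℕ} (hn : 0 < n) :
    ∫ ω, (estO n v (fun i => S.Psi i ω) ^ 2 - 1) ^ 2 ∂PU _ ≤ (3 / eps + 1) ^ 4 / n := by
  have := vol_neBot hT hd
  refine le_of_tendsto (S.lim_K (sqFun G v n)) ((eventually_gt_atTop n).mono fun K hK => ?_)
  refine le_of_tendsto (S.lim_j hT hd (sqFun G v n) K) (Eventually.of_forall fun j => ?_)
  refine le_of_tendsto (S.lim_vol (sqFun G v n) j K)
    (eventually_vol (E := {v}) fun M hM hvM => ?_)
  exact law_sq_est hT (hs0 j) (hs1 j) hM (by simpa using hvM) hn hK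

/-- the spins -/
def spinsO (ω : Om V) (v : V) : Bool :=
  decide (∃ J, ∀ j ≥ J, 0 < estO ((j + 1) ^ 2) v (fun i => S.Psi i ω))

lemma measurable_est_Psi (n : ℕ) (v : V) :
    Measurable (fun ω => estO n v (fun i => S.Psi i ω)) := by
  have h : Measurable (fun (ω : Om V) (i : V × ℕ) => S.Psi i ω) :=
    measurable_pi_lambda _ fun i => S.measurable_Psi i
  have hb : Measurable (fun x : V × ℕ → ℝ => estO n v x) := (bm_estO n v).1
  have := hb.comp h
  simpa only [Function.comp_def] using this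

lemma measurable_spinsO : Measurable S.spinsO := by
  apply measurable_pi_lambda
  intro v
  apply measurable_to_bool
  have : (fun ω => S.spinsO ω v) ⁻¹' {true}
      = ⋃ J : ℕ, ⋂ j ∈ Ici J, {ω | 0 < estO ((j + 1) ^ 2) v (fun i => S.Psi i ω)} := by
    ext ω; simp [spinsO]
  rw [this]
  exact MeasurableSet.iUnion fun J => MeasurableSet.biInter (Ici J).to_countable
    fun j _ => measurableSet_lt measurable_const (S.measurable_est_Psi _ v)

include hT hd hs0 hs1 in
lemma ae_tendsto_est [Countable V] : ∀ᵐ ω ∂PU ((V × ℕ) ⊕ (V × ℕ)), ∀ v : V,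
    Tendsto (fun j : ℕ => estO ((j + 1) ^ 2) v (fun i => S.Psi i ω)) atTop
      (𝓝 (spin (S.spinsO ω v))) := by
  rw [ae_all_iff]
  intro v
  have hsum : Summable (fun j : ℕ => (3 / eps + 1) ^ 4 * (1 / ((j : ℝ) + 1) ^ 2)) := by
    refine Summable.mul_left _ ?_
    have := (summable_nat_add_iff 1).2 (Real.summable_one_div_nat_pow.2 one_lt_two)
    simpa using this
  filter_upwards [ae_summable_of_summable_integral (PU ((V × ℕ) ⊕ (V × ℕ)))
    (f := fun j ω => (estO ((j + 1) ^ 2) v (fun i => S.Psi i ω) ^ 2 - 1) ^ 2)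
    (fun j => (((bm_estO _ v).sq.sub (BM.const 1)).sq).comp
      (measurable_pi_lambda _ fun i => S.measurable_Psi i))
    (fun j ω => sq_nonneg _) hsum
    (fun j => (S.integral_sq_Psi hT hd hs0 hs1 v (by positivity)).trans
      (le_of_eq (by push_cast; ring)))] with ω hω
  set t : ℕ → ℝ := fun j => estO ((j + 1) ^ 2) v (fun i => S.Psi i ω) with ht
  have h1 : Tendsto (fun j => (t j ^ 2 - 1) ^ 2) atTop (𝓝 0) := hω.tendsto_atTop_zero
  have h2 : Tendsto (fun j => |t j|) atTop (𝓝 1) := by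
    have e : Tendsto (fun j => t j ^ 2 - 1) atTop (𝓝 0) := by
      rw [tendsto_zero_iff_abs_tendsto_zero]
      have := h1.sqrt
      simpa [Real.sqrt_sq_eq_abs, Function.comp_def] using this
    have := (e.add_const 1).sqrt
    simpa [Real.sqrt_sq_eq_abs] using this
  have h3 : Tendsto (fun j => |t (j + 1) - t j|) atTop (𝓝 0) := by
    refine squeeze_zero (fun j => abs_nonneg _) (g := fun j : ℕ => 2 * (3 / eps) * 3 / ((j : ℝ) + 1))
      (fun j => ?_) ?_
    · refine (Tn_consec eps_pos _ _ (Nat.pow_le_pow_left (by omega) 2) (by positivity) v _).trans ?_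
      have hε := eps_pos
      push_cast
      rw [div_le_div_iff₀ (by positivity) (by positivity)]
      have : (((j:ℝ) + 1 + 1) ^ 2 - ((j:ℝ) + 1) ^ 2) * ((j:ℝ) + 1) ≤ 3 * ((j:ℝ) + 1 + 1) ^ 2 := by
        nlinarith [sq_nonneg (j:ℝ), (Nat.cast_nonneg j : (0:ℝ) ≤ j)]
      calc 2 * (3 / eps) * (((j:ℝ) + 1 + 1) ^ 2 - ((j:ℝ) + 1) ^ 2) * ((j:ℝ) + 1)
          = 2 * (3 / eps) * ((((j:ℝ) + 1 + 1) ^ 2 - ((j:ℝ) + 1) ^ 2) * ((j:ℝ) + 1)) := by ring
        _ ≤ 2 * (3 / eps) * (3 * ((j:ℝ) + 1 + 1) ^ 2) :=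
            mul_le_mul_of_nonneg_left this (by positivity)
        _ = _ := by ring
    · have := (tendsto_one_div_add_atTop_nhds_zero_nat).const_mul (2 * (3 / eps) * 3)
      simpa [mul_zero, mul_one_div, div_eq_mul_inv] using this
  obtain ⟨J, hJ⟩ := eventually_atTop.1 ((h2.eventually (lt_mem_nhds (show (1/2:ℝ) < 1 by norm_num))).and
    (h3.eventually (gt_mem_nhds (show (0:ℝ) < 1/2 by norm_num))))
  have hsign : ∀ j ≥ J, (0 < t j ↔ 0 < t J) := by
    intro j hj
    induction j, hj using Nat.le_induction with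
    | base => rfl
    | succ j hj ih =>
      rw [← ih]
      obtain ⟨a1, a2⟩ := hJ j hj
      obtain ⟨a3, -⟩ := hJ (j + 1) (by omega)
      have := abs_lt.1 a2
      constructor
      · intro h
        rcases lt_or_ge 0 (t j) with h' | h'
        · exact h'
        · rw [abs_of_pos h] at a3; linarith
      · intro h
        rcases lt_or_ge 0 (t (j + 1)) with h' | h'
        · exact h'
        · rw [abs_of_pos h] at a1; linarith
  by_cases hpos : 0 < t J
  · have hsp : S.spinsO ω v = true := by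
      simp only [spinsO, decide_eq_true_eq]
      exact ⟨J, fun j hj => (hsign j hj).2 hpos⟩
    rw [hsp]
    refine h2.congr' ?_
    filter_upwards [eventually_ge_atTop J] with j hj using abs_of_pos ((hsign j hj).2 hpos)
  · have hneg : ∀ j ≥ J, t j ≤ 0 := fun j hj => not_lt.1 (fun h => hpos ((hsign j hj).1 h))
    have hsp : S.spinsO ω v = false := by
      simp only [spinsO, decide_eq_false_iff_not]
      rintro ⟨K, hK⟩
      have := hK (max J K) (le_max_right _ _)
      have := hneg (max J K) (le_max_left _ _)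
      simp only [ht] at this
      linarith
    rw [hsp, show spin false = -1 from rfl]
    refine h2.neg.congr' ?_
    filter_upwards [eventually_ge_atTop J] with j hj
    rw [abs_of_nonpos (hneg j hj), neg_neg]

include hT hd hs0 hs1 hs in
/-- finite marginals of the spins -/
lemma spinsO_cylinder [Countable V] {D : Finset V} (hD : Geo G D) (hne : D.Nonempty) (b : V → Bool) :
    (PU ((V × ℕ) ⊕ (V × ℕ))) {ω | ∀ v ∈ D, S.spinsO ω v = b v}
      = ENNReal.ofReal (isingCylinder G θ D b) := by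
  have hms : MeasurableSet {ω | ∀ v ∈ D, S.spinsO ω v = b v} := by
    have : {ω | ∀ v ∈ D, S.spinsO ω v = b v} = ⋂ v ∈ D, (fun ω => S.spinsO ω v) ⁻¹' {b v} := by
      ext ω; simp
    rw [this]
    exact Finset.measurableSet_biInter D fun v _ =>
      ((measurable_pi_apply v).comp S.measurable_spinsO) (measurableSet_singleton _)
  set φ : ℕ → Om V → ℝ := fun j ω =>
    ∏ v ∈ D, (1 + spin (b v) * estO ((j + 1) ^ 2) v (fun i => S.Psi i ω)) / 2 with hφ
  have hbd : ∀ (j : ℕ) (ω : Om V), |φ j ω| ≤ ((1 + 3 / eps) / 2) ^ D.card := by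
    intro j ω
    simp only [hφ, Finset.abs_prod]
    refine (Finset.prod_le_prod (fun v _ => abs_nonneg _) (fun v _ => ?_)).trans
      (le_of_eq (Finset.prod_const _))
    rw [abs_div, abs_two]
    refine div_le_div_of_nonneg_right ((abs_add_le _ _).trans (add_le_add abs_one.le ?_)) zero_le_two
    rw [abs_mul, abs_spin, one_mul]
    exact abs_estO_le _ v _
  have hm : ∀ j, Measurable (φ j) := fun j => Finset.measurable_prod _ fun v _ =>
    ((measurable_const.add (measurable_const.mul (S.measurable_est_Psi _ v))).div_const _)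
  have hlim : Tendsto (fun j => ∫ ω, φ j ω ∂PU ((V × ℕ) ⊕ (V × ℕ))) atTop
      (𝓝 (∫ ω, Set.indicator {ω | ∀ v ∈ D, S.spinsO ω v = b v} (fun _ => (1:ℝ)) ω
        ∂PU ((V × ℕ) ⊕ (V × ℕ)))) := by
    refine tendsto_integral_of_dominated_convergence _ (fun j => (hm j).aestronglyMeasurable)
      (integrable_const _) (fun j => ae_of_all _ fun ω => (Real.norm_eq_abs _).le.trans (hbd j ω)) ?_
    filter_upwards [S.ae_tendsto_est hT hd hs0 hs1] with ω hω
    have : Tendsto (fun j => φ j ω) atTop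
        (𝓝 (∏ v ∈ D, (1 + spin (b v) * spin (S.spinsO ω v)) / 2)) :=
      tendsto_finsetProd _ fun v _ => (((hω v).const_mul _).const_add 1).div_const 2
    refine this.trans (le_of_eq ?_)
    congr 1
    by_cases h : ω ∈ {ω | ∀ v ∈ D, S.spinsO ω v = b v}
    · rw [Set.indicator_of_mem h]
      refine Finset.prod_eq_one fun v hv => ?_
      rw [h v hv]
      cases b v <;> norm_num [spin]
    · rw [Set.indicator_of_notMem h]
      simp only [Set.mem_ofPred_eq] at h
      push Not at h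
      obtain ⟨v, hv, hvb⟩ := h
      refine Finset.prod_eq_zero hv ?_
      cases hb : b v <;> cases hs : S.spinsO ω v <;> simp_all [spin]
  have e : ∀ j, ∫ ω, φ j ω ∂PU ((V × ℕ) ⊕ (V × ℕ)) = isingCylinder G θ D b :=
    fun j => S.integral_prod_Psi hT hd hs0 hs1 hs hD hne b (by positivity)
  rw [funext e, integral_indicator_const _ hms, smul_eq_mul, mul_one] at hlim
  rw [tendsto_nhds_unique tendsto_const_nhds hlim]
  exact (ofReal_measureReal (measure_ne_top _ _)).symm

include hT hd in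
lemma spinsO_act [Countable V] (g : G ≃g G) : ∀ᵐ ω ∂PU ((V × ℕ) ⊕ (V × ℕ)),
    S.spinsO (actO g ω) = fun v => S.spinsO ω (g.symm v) := by
  filter_upwards [S.Psi_act hT hd g] with ω hω
  funext v
  have e : ∀ n, estO n v (fun i => S.Psi i (actO g ω))
      = estO n (g.symm v) (fun i => S.Psi i ω) := by
    intro n
    unfold estO Tn
    congr 1
    refine Finset.sum_congr rfl fun k _ => ?_
    simp only []
    rw [← hω (g.symm v, k + 1)]
    simp
  simp only [spinsO, e]

end SLim

/-- Cauchy families of samplers at parameters tending to `θ` give the free Ising state at `θ`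
as a factor of i.i.d. -/
theorem fiid_of_sampler_limit [Countable V] (hT : G.IsTree) {q : ℕ}
    (hd : ∀ v, (G.neighborSet v).ncard = q + 1) {θ : ℝ}
    (θs : ℕ → ℝ) (hs0 : ∀ j, 0 ≤ θs j) (hs1 : ∀ j, θs j < 1) (hs : Tendsto θs atTop (𝓝 θ))
    (hvol : ∀ (j K : ℕ) (i : V × ℕ), i.2 < K → ∀ δ > 0, ∃ E : Finset V, ∀ D M, Geo G D → Geo G M →
      E ⊆ D → E ⊆ M →
      ∫ ω, (if tau ω i < (K:ℝ) then |Smp G (θs j) K D ω (Sum.inr i)
        - Smp G (θs j) K M ω (Sum.inr i)| else 0) ∂PU _ ≤ δ)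
    (hpair : ∀ (K : ℕ) (i : V × ℕ), i.2 < K → ∀ δ > 0, ∃ J, ∀ j ≥ J, ∀ l ≥ J, ∃ E : Finset V,
      ∀ D, Geo G D → E ⊆ D →
      ∫ ω, (if tau ω i < (K:ℝ) then |Smp G (θs j) K D ω (Sum.inr i)
        - Smp G (θs l) K D ω (Sum.inr i)| else 0) ∂PU _ ≤ δ) :
    (∃ ν, IsFreeIsing G θ ν) ∧ ∀ ν, IsFreeIsing G θ ν → IsFactorOfIID G ν := by
  obtain ⟨S⟩ := exists_SLim hT hd θs hvol hpair
  obtain ⟨Θ, hΘ, hΘg⟩ := exists_decodeO G
  set Φ : (V → unitInterval) → (V → Bool) := fun U => S.spinsO (Θ U) with hΦ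
  have hΦm : Measurable Φ := S.measurable_spinsO.comp hΘ.measurable
  set ν₀ := (iidUniform V).map Φ with hν₀
  have hν : IsFreeIsing G θ ν₀ := by
    intro D hD b
    have hne : D.Nonempty := by
      obtain ⟨⟨v, hv⟩⟩ := hD.nonempty
      exact ⟨v, hv⟩
    have hms : MeasurableSet {σ : V → Bool | ∀ v ∈ D, σ v = b v} := by
      have : {σ : V → Bool | ∀ v ∈ D, σ v = b v} = ⋂ v ∈ D, (fun σ => σ v) ⁻¹' {b v} := by
        ext σ; simp
      rw [this]
      exact Finset.measurableSet_biInter D fun v _ =>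
        measurable_pi_apply v (measurableSet_singleton _)
    rw [← S.spinsO_cylinder hT hd hs0 hs1 hs (geo_of_connected hT hD) hne b, hν₀,
      show Φ = S.spinsO ∘ Θ from rfl, ← Measure.map_map S.measurable_spinsO hΘ.measurable,
      hΘ.map_eq, Measure.map_apply S.measurable_spinsO hms]
    rfl
  refine ⟨⟨ν₀, hν⟩, fun ν hν' => ⟨Φ, hΦm, fun g => ?_,
    isFreeIsing_unique hT (nb_finite hd) hν hν'⟩⟩
  filter_upwards [hΘ.quasiMeasurePreserving.ae (S.spinsO_act hT hd g)] with U hU
  simp only [hΦ, hΘg]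
  exact hU

end Vale.Agent.P161.Crit
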