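import Mathlib
import Vale.Agent.P161.Crit.Fam
import Vale.Agent.P161.Crit.Choose

/-!
Sums of squared influences over spheres, weighted by invariant observables.
-/

open MeasureTheory Set Function Filter
open scoped Classical Topology

noncomputable section

namespace Vale.Agent.P161.Crit

variable {V : Type*}

/-- the time scale -/
def sig (t : ℝ) : ℝ := t ^ ((1 : ℝ) / 32)

lemma sig_nonneg {t : ℝ} (ht : 0 ≤ t) : 0 ≤ sig t := Real.rpow_nonneg ht _

lemma sig_pos {t : ℝ} (ht : 0 < t) : 0 < sig t := Real.rpow_pos_of_pos ht _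

lemma sig_pow {t : ℝ} (ht : 0 ≤ t) (k : ℕ) : sig t ^ k = t ^ ((k : ℝ) / 32) := by
  rw [sig, ← Real.rpow_natCast, ← Real.rpow_mul ht]
  congr 1
  ring

lemma sig_pow_mul {t : ℝ} (ht : 0 ≤ t) (k : ℕ) : sig t ^ (32 * k) = t ^ k := by
  rw [sig_pow ht, ← Real.rpow_natCast t k]
  congr 1
  push_cast
  ring

lemma sig_mono {s t : ℝ} (hs : 0 ≤ s) (hst : s ≤ t) : sig s ≤ sig t :=
  Real.rpow_le_rpow hs hst (by norm_num)

/-- the bound obtained by splitting at the threshold `Λ` -/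
def splitB (Λ M x : ℝ) : ℝ := Λ * x + 2 * M * Real.exp 2 * Real.exp (-(Λ / 2))

namespace Env

variable (P : Env V)

/-- the constant of the decay rate -/
def cG : ℝ :=
  cRate P.θ0 P.θ1 * Real.sqrt ((1 / (2 * (1 + (P.K : ℝ)))) ^ 4 / ((1 + P.K) * (2 + P.K)))

lemma cG_pos : 0 < P.cG :=
  mul_pos (cRate_pos P.pos P.θ1_nonneg P.lt_one) (Real.sqrt_pos.2 (by positivity))

/-- decay rate per step -/
def gam (t : ℝ) : ℝ := P.cG * sig t ^ 80

/-- decay factor per step -/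
def rho (t : ℝ) : ℝ := Real.exp (-P.gam t)

/-- decay after `n` steps -/
def dec (t : ℝ) (n : ℕ) : ℝ := Real.exp (-(P.gam t * n / 4))

variable {P}
variable {θ t : ℝ}

lemma gam_pos (ht : 0 < t) : 0 < P.gam t := mul_pos P.cG_pos (pow_pos (sig_pos ht) _)

lemma w0_pos (ht : 0 < t) (htK : t ≤ P.K) : 0 < w0 t :=
  lt_of_lt_of_le (by positivity) (w0_lower ht htK)

lemma gam_le (ht : 0 < t) (htK : t ≤ P.K) : P.gam t ≤ cRate P.θ0 P.θ1 * Real.sqrt (w0 t) := by
  unfold gam cG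
  rw [mul_assoc]
  refine mul_le_mul_of_nonneg_left ?_ (cRate_pos P.pos P.θ1_nonneg P.lt_one).le
  refine Real.le_sqrt_of_sq_le ?_
  rw [mul_pow, Real.sq_sqrt (by positivity), ← pow_mul, show 80 * 2 = 32 * 5 from rfl,
    sig_pow_mul ht.le]
  exact w0_lower ht htK

lemma gam_le_quarter (ht : 0 < t) (htK : t ≤ P.K) : P.gam t ≤ 1 / 4 := by
  refine (gam_le ht htK).trans ?_
  calc cRate P.θ0 P.θ1 * Real.sqrt (w0 t) ≤ 1 / 4 * 1 :=
        mul_le_mul (min_le_left _ _) (by rw [Real.sqrt_le_one]; exact w0_le_one) (Real.sqrt_nonneg _)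
          (by norm_num)
    _ = _ := by norm_num

lemma rho_pos : 0 < P.rho t := Real.exp_pos _

lemma rate_le_rho (ht : 0 < t) (htK : t ≤ P.K) : rate P.θ0 P.θ1 t ≤ P.rho t :=
  Real.exp_le_exp.2 (neg_le_neg (gam_le ht htK))

lemma rho_pow_le (ht : 0 < t) (htK : t ≤ P.K) {j n : ℕ} (h : n ≤ 4 * (j + 1)) :
    P.rho t ^ j ≤ 2 * P.dec t n := by
  have hg := gam_le_quarter ht htK
  have hg0 := (gam_pos (P := P) ht).le
  have h' : (n : ℝ) ≤ 4 * ((j : ℝ) + 1) := by exact_mod_cast h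
  have h2 : Real.exp (P.gam t) ≤ 2 := by
    have := Real.abs_exp_sub_one_le (x := P.gam t) (by rw [abs_of_nonneg hg0]; linarith)
    rw [abs_of_nonneg hg0] at this
    linarith [(abs_le.1 this).2]
  calc P.rho t ^ j ≤ Real.exp (P.gam t) * P.dec t n := by
        rw [rho, dec, ← Real.exp_nat_mul, ← Real.exp_add]
        refine Real.exp_le_exp.2 ?_
        nlinarith
    _ ≤ _ := mul_le_mul_of_nonneg_right h2 (Real.exp_pos _).le

lemma rho_pow_le_dec (ht : 0 < t) (n : ℕ) : P.rho t ^ n ≤ P.dec t n := by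
  rw [rho, dec, ← Real.exp_nat_mul]
  refine Real.exp_le_exp.2 ?_
  have : 0 ≤ P.gam t * n := mul_nonneg (gam_pos ht).le (Nat.cast_nonneg _)
  linarith

variable [Countable V]

lemma law_Zs (hθ : P.Adm θ) {D : Finset V} (hD : Geo P.G D) (hne : D.Nonempty) {φ : ℝ → ℝ}
    (hφ : Measurable φ) {C : ℝ} (hC : ∀ z ∈ Icc (0:ℝ) 1, |φ z| ≤ C) {n : ℕ} {x y : V}
    (ha : P.G.Adj x y) (t : ℝ) :
    BM (fun ω => φ (Zs P.G θ P.K t D n x y (Smp P.G θ P.K D ω))) ∧
    ∫ ω, φ (Zs P.G θ P.K t D n x y (Smp P.G θ P.K D ω)) ∂PU _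
      = ∫ ω, φ (Zs P.G θ P.K t D n x y ω) * Zw P.G θ P.K t D ω ∂PU _ := by
  have hb : BM (fun ω => φ (Zs P.G θ P.K t D n x y ω)) :=
    ⟨hφ.comp (bm_Zs hθ.nonneg hθ.lt_one' D n x y).1, C, fun ω =>
      hC _ ⟨Zs_nonneg hθ.nonneg hθ.lt_one' D n x y ω,
        Zs_le_one P.deg hθ.nonneg hθ.lt_one' hθ.crit' (by have := P.two_le; omega) D n x y ha ω⟩⟩
  refine ⟨hb.comp (measurable_Smp D), P.law_fields hθ hD hne hb (fun ω ω' h => ?_)⟩
  simp only [(fields_congr (G := P.G) (θ := θ) h).2.1]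

lemma zs_bounds (hθ : P.Adm θ) (ht : 0 < t) (htK : t ≤ P.K) {D : Finset V} (hD : Geo P.G D)
    (n : ℕ) {x y : V} (ha : P.G.Adj x y) (hR : Rch P.G y (n + lev t + 1) D) :
    ∫ ω, Zs P.G θ P.K t D n x y (Smp P.G θ P.K D ω) ∂PU _ ≤ P.rho t ^ n ∧
    ∫ ω, Real.exp (Zs P.G θ P.K t D n x y (Smp P.G θ P.K D ω) / P.rho t ^ (n / 2)) ∂PU _
      ≤ Real.exp 2 := by
  have hw := w0_pos (P := P) ht htK
  obtain ⟨δ, hδ, hr⟩ := exists_step (q := P.q) P.pos hθ.1 hθ.2 P.lt_one P.crit hw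
  have hr' := hr.trans (rate_le_rho ht htK)
  constructor
  · rw [(law_Zs hθ hD ⟨y, hR.mem⟩ (φ := fun z => z) measurable_id (C := 1)
      (fun z hz => by rw [abs_of_nonneg hz.1]; exact hz.2) ha t).2]
    exact integral_Zs_le P.tree P.deg hθ.nonneg hθ.lt_one' P.hK hθ.crit' P.two_le (lev t) hδ hw hr'
      hD n x y ha hR rho_pos.le
  · have hμ : 0 < P.rho t ^ (n / 2) := pow_pos rho_pos _
    rw [(law_Zs hθ hD ⟨y, hR.mem⟩ (φ := fun z => Real.exp (z / P.rho t ^ (n / 2)))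
      (measurable_id.div_const _).exp (C := Real.exp (1 / P.rho t ^ (n / 2)))
      (fun z hz => by
        rw [abs_of_pos (Real.exp_pos _)]
        exact Real.exp_le_exp.2 (div_le_div_of_nonneg_right hz.2 hμ.le)) ha t).2]
    refine integral_exp_Zs_scale P.tree P.deg hθ.nonneg hθ.lt_one' P.hK hθ.crit' P.two_le (lev t) hδ
      hw hr' hD rho_pos ?_ n ha hR
    have h2 : (2:ℝ) ≤ P.q := by exact_mod_cast P.two_le
    have h3 := (half_le_rate (θ0 := P.θ0) (θ1 := P.θ1) (t := t)).trans (rate_le_rho ht htK)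
    nlinarith

omit [Countable V] in
lemma branch_eq (hθ : P.Adm θ) (t : ℝ) {x y : V} (ha : P.G.Adj x y) (m : ℕ) {D : Finset V}
    (hx : x ∈ D) (hR : Rch P.G y m D) (ω : Om V) :
    ∑ u ∈ fw P.G m x y, P.W θ t x u D ω ^ 2
      = 1 / (P.q : ℝ) * Zs P.G θ P.K t D (m + 1) x y (Smp P.G θ P.K D ω) := by
  have hq : (P.q : ℝ) ≠ 0 := by have := P.two_le; positivity
  rw [Zs_eq_sum P.tree P.deg hθ.nonneg hθ.2 P.lt_one m x y ha hx hR, ← mul_assoc,
    one_div_mul_cancel hq, one_mul]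
  rfl

lemma reg_XW (hθ : P.Below θ) (ht : t ∈ Icc (0:ℝ) P.K) {X : Finset V → Om V → ℝ} (hX : Reg P.G X)
    (x u : V) : Reg P.G (fun D ω => X D ω * P.W θ t x u D ω ^ 2) :=
  hX.mul (reg_W hθ ht x u).sq

/-- influences from `x` through the edge `x → y`, weighted by a bounded observable -/
lemma branch_decay (hθ : P.Below θ) (ht : 0 < t) (htK : t ≤ P.K) {X : Finset V → Om V → ℝ}
    (hX : Reg P.G X) {M Λ : ℝ} (hΛ : 0 ≤ Λ) (h0 : ∀ᶠ D in vol P.G, ∀ ω, 0 ≤ X D ω ∧ X D ω ≤ M)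
    {x y : V} (ha : P.G.Adj x y) (m : ℕ) :
    ∑ u ∈ fw P.G m x y, limI P.G (fun D ω => X D ω * P.W θ t x u D ω ^ 2)
      ≤ 1 / (P.q : ℝ) * (P.rho t ^ ((m + 1) / 2) * splitB Λ M (limI P.G X)) := by
  have := P.neBot
  have htI : t ∈ Icc (0:ℝ) P.K := ⟨ht.le, htK⟩
  rw [← Reg.lim_sum _ (fun u _ => reg_XW hθ htI hX x u)]
  set μ := P.rho t ^ ((m + 1) / 2) with hμ
  have hμ0 : 0 < μ := pow_pos rho_pos _
  refine (Reg.sum _ (fun u _ => reg_XW hθ htI hX x u)).lim_le (fun δ hδ => ?_)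
  set c := Λ * μ / (P.q : ℝ) with hc
  have hq : (0:ℝ) < P.q := by have := P.two_le; positivity
  have hc0 : 0 ≤ c := by positivity
  obtain ⟨CX, hCX⟩ := hX.bdd
  filter_upwards [h0, hCX, P.eventually_rch x (m + lev t + 3),
    hX.tendsto.eventually (gt_mem_nhds (show limI P.G X < limI P.G X + δ / (c + 1) by
      have : 0 < δ / (c + 1) := by positivity
      linarith))] with D hD0 hDb hR hlim
  have hRy : Rch P.G y (m + 1 + lev t + 1) D := hR.2.step P.tree ha (by omega)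
  obtain ⟨bexp, -⟩ := law_Zs hθ.1 hR.1 ⟨y, hRy.mem⟩ (φ := fun z => Real.exp (z / μ))
      (measurable_id.div_const _).exp (C := Real.exp (1 / μ))
      (fun z hz => by
        rw [abs_of_pos (Real.exp_pos _)]
        exact Real.exp_le_exp.2 (div_le_div_of_nonneg_right hz.2 hμ0.le)) (n := m + 1) ha t
  obtain ⟨bz, -⟩ := law_Zs hθ.1 hR.1 ⟨y, hRy.mem⟩ (φ := fun z => z) measurable_id (C := 1)
      (fun z hz => by rw [abs_of_nonneg hz.1]; exact hz.2) (n := m + 1) ha t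
  have bX : BM (X D) := ⟨hDb.1, CX, hDb.2⟩
  set Z : Om V → ℝ := fun ω => Zs P.G θ P.K t D (m + 1) x y (Smp P.G θ P.K D ω) with hZ
  set e : ℝ := 2 * M * μ * Real.exp (-(Λ / 2)) / (P.q : ℝ) with he
  have pt : ∀ ω, ∑ u ∈ fw P.G m x y, X D ω * P.W θ t x u D ω ^ 2
      ≤ c * X D ω + e * Real.exp (Z ω / μ) := by
    intro ω
    rw [← Finset.mul_sum, branch_eq hθ.1 t ha m hR.2.mem (hRy.mono (by omega)) ω]
    have := mul_le_split (Λ := Λ) (Zs_nonneg (G := P.G) (K := P.K) (t := t) hθ.1.nonneg hθ.1.lt_one' D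
      (m + 1) x y (Smp P.G θ P.K D ω)) hμ0 (hD0 ω).1 (hD0 ω).2
    calc X D ω * (1 / (P.q : ℝ) * Z ω) = 1 / (P.q : ℝ) * (X D ω * Z ω) := by ring
      _ ≤ 1 / (P.q : ℝ) * _ := mul_le_mul_of_nonneg_left this (by positivity)
      _ = _ := by rw [hc, he]; ring
  have e0 : 0 ≤ e := by
    have hM : 0 ≤ M := (hD0 (fun _ => 0)).1.trans (hD0 (fun _ => 0)).2
    positivity
  refine (integral_mono_of_nonneg (ae_of_all _ (fun ω => Finset.sum_nonneg (fun u _ =>
      mul_nonneg (hD0 ω).1 (sq_nonneg _)))) (((bX.integrable _).const_mul c).add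
      ((bexp.integrable _).const_mul e)) (ae_of_all _ pt)).trans ?_
  simp only [Pi.add_apply]
  rw [integral_add ((bX.integrable _).const_mul c) ((bexp.integrable _).const_mul e),
    integral_const_mul, integral_const_mul]
  have hz := (zs_bounds hθ.1 ht htK hR.1 (m + 1) ha hRy).2
  refine (add_le_add (mul_le_mul_of_nonneg_left hlim.le hc0) (mul_le_mul_of_nonneg_left hz e0)).trans ?_
  have : c * (δ / (c + 1)) ≤ δ := by
    rw [mul_div_assoc', div_le_iff₀ (by positivity)]; nlinarith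
  have e' : c * limI P.G X + e * Real.exp 2
      = 1 / (P.q : ℝ) * (μ * splitB Λ M (limI P.G X)) := by rw [hc, he, splitB]; ring
  linarith

/-- influences from `x` through the edge `x → y` -/
lemma branch_mean (hθ : P.Below θ) (ht : 0 < t) (htK : t ≤ P.K) {x y : V} (ha : P.G.Adj x y) (m : ℕ) :
    ∑ u ∈ fw P.G m x y, limI P.G (fun D ω => P.W θ t x u D ω ^ 2)
      ≤ 1 / (P.q : ℝ) * P.rho t ^ (m + 1) := by
  have := P.neBot
  have htI : t ∈ Icc (0:ℝ) P.K := ⟨ht.le, htK⟩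
  rw [← Reg.lim_sum _ (fun u _ => (reg_W hθ htI x u).sq)]
  refine (Reg.sum _ (fun u _ => (reg_W hθ htI x u).sq)).lim_le (fun δ hδ => ?_)
  filter_upwards [P.eventually_rch x (m + lev t + 3)] with D hR
  have hRy : Rch P.G y (m + 1 + lev t + 1) D := hR.2.step P.tree ha (by omega)
  simp only [branch_eq hθ.1 t ha m hR.2.mem (hRy.mono (by omega))]
  rw [integral_const_mul]
  have := mul_le_mul_of_nonneg_left (zs_bounds hθ.1 ht htK hR.1 (m + 1) ha hRy).1
    (show (0:ℝ) ≤ 1 / (P.q : ℝ) by positivity)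
  linarith

/-- influences beyond an edge, weighted by an observable of the edge -/
lemma edge_decay (hθ : P.Below θ) (ht : 0 < t) (htK : t ≤ P.K) {X : Finset V → Om V → ℝ}
    (hX : Reg P.G X) {M Λ : ℝ} (hΛ : 1 ≤ Λ) (h0 : ∀ᶠ D in vol P.G, ∀ ω, 0 ≤ X D ω ∧ X D ω ≤ M)
    {a b : V} (ha : P.G.Adj a b) (m : ℕ) :
    ∑ u ∈ fw P.G m a b, limI P.G (fun D ω => X D ω * P.W θ t b u D ω ^ 2)
      ≤ P.rho t ^ (m / 2) * splitB Λ M (limI P.G X) := by
  have := P.neBot
  cases m with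
  | zero =>
    have e : limI P.G (fun D ω => X D ω * P.W θ t b b D ω ^ 2) = limI P.G X := by
      refine tendsto_nhds_unique (reg_XW hθ ⟨ht.le, htK⟩ hX b b).tendsto (hX.tendsto.congr' ?_)
      filter_upwards [P.eventually_rch b 0] with D hD
      refine integral_congr_ae (ae_of_all _ (fun ω => ?_))
      simp [W, bw_self (K := P.K) (t := t) P.tree P.deg hθ.1.nonneg hθ.1.2 P.lt_one hD.2.mem]
    simp only [fw, Finset.sum_singleton, e, Nat.zero_div, pow_zero, one_mul, splitB]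
    have h1 : 0 ≤ limI P.G X := hX.lim_nonneg (h0.mono (fun D hD ω => (hD ω).1))
    obtain ⟨D, hD⟩ := h0.exists
    have hM : 0 ≤ M := (hD (fun _ => 0)).1.trans (hD (fun _ => 0)).2
    have : 0 ≤ 2 * M * Real.exp 2 * Real.exp (-(Λ / 2)) := by positivity
    nlinarith
  | succ m =>
    rw [fw, Finset.sum_biUnion (fw_pairwise P.tree P.deg m)]
    refine (Finset.sum_le_sum (fun c hc =>
      branch_decay hθ ht htK hX (zero_le_one.trans hΛ) h0 ((mem_chd P.deg).1 hc).1 m)).trans ?_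
    rw [Finset.sum_const, card_chd P.deg ha, nsmul_eq_mul, ← mul_assoc,
      mul_one_div_cancel (by have := P.two_le; positivity), one_mul]

omit [Countable V] in
lemma sph_zero (v : V) : sph P.G P.fin v 0 = {v} := by
  ext u
  rw [P.mem_sph, Finset.mem_singleton, P.tree.connected.dist_eq_zero_iff, eq_comm]

/-- spheres, weighted by an observable of the centre -/
lemma sphere_decay (hθ : P.Below θ) (ht : 0 < t) (htK : t ≤ P.K) {X : Finset V → Om V → ℝ}
    (hX : Reg P.G X) {M Λ : ℝ} (hΛ : 1 ≤ Λ) (h0 : ∀ᶠ D in vol P.G, ∀ ω, 0 ≤ X D ω ∧ X D ω ≤ M)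
    (v : V) (n : ℕ) :
    ∑ u ∈ sph P.G P.fin v n, limI P.G (fun D ω => X D ω * P.W θ t v u D ω ^ 2)
      ≤ 4 * P.dec t n * splitB Λ M (limI P.G X) := by
  have := P.neBot
  have hS : 0 ≤ splitB Λ M (limI P.G X) := by
    obtain ⟨D, hD⟩ := h0.exists
    have hM : 0 ≤ M := (hD (fun _ => 0)).1.trans (hD (fun _ => 0)).2
    have h1 : 0 ≤ limI P.G X := hX.lim_nonneg (h0.mono (fun D hD ω => (hD ω).1))
    unfold splitB
    positivity
  cases n with
  | zero =>
    obtain ⟨a, ha⟩ : ∃ a, P.G.Adj a v := by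
      obtain ⟨b, hb⟩ : (nbs P.G v).Nonempty := by
        rw [← Finset.card_pos, card_nbs P.deg]; omega
      exact ⟨b, ((mem_nbs P.deg).1 hb).symm⟩
    have h := edge_decay hθ ht htK hX hΛ h0 ha 0
    simp only [fw, Nat.zero_div, pow_zero, one_mul] at h
    rw [sph_zero]
    refine h.trans ?_
    simp only [dec, Nat.cast_zero, mul_zero, zero_div, neg_zero, Real.exp_zero, mul_one]
    linarith
  | succ n =>
    rw [P.sum_sph_succ]
    refine (Finset.sum_le_sum (fun y hy =>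
      branch_decay hθ ht htK hX (zero_le_one.trans hΛ) h0 ((mem_nbs P.deg).1 hy) n)).trans ?_
    rw [Finset.sum_const, card_nbs P.deg, nsmul_eq_mul]
    have h2 : (2:ℝ) ≤ P.q := by exact_mod_cast P.two_le
    have hq : ((P.q + 1 : ℕ) : ℝ) * (1 / (P.q : ℝ)) ≤ 2 := by
      push_cast
      rw [mul_one_div, div_le_iff₀ (by linarith)]
      linarith
    have hr := rho_pow_le (P := P) ht htK (j := (n + 1) / 2) (n := n + 1) (by omega)
    calc _ = (((P.q + 1 : ℕ) : ℝ) * (1 / (P.q : ℝ))) * (P.rho t ^ ((n + 1) / 2) * splitB Λ M (limI P.G X)) := by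
          ring
      _ ≤ 2 * (2 * P.dec t (n + 1) * splitB Λ M (limI P.G X)) :=
          mul_le_mul hq (mul_le_mul_of_nonneg_right hr hS) (mul_nonneg (pow_nonneg rho_pos.le _) hS)
            (by norm_num)
      _ = _ := by ring

/-- spheres, mean squared influence -/
lemma sphere_mean (hθ : P.Below θ) (ht : 0 < t) (htK : t ≤ P.K) (v : V) (n : ℕ) :
    ∑ u ∈ sph P.G P.fin v n, limI P.G (fun D ω => P.W θ t v u D ω ^ 2) ≤ 2 * P.dec t n := by
  have := P.neBot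
  cases n with
  | zero =>
    have e : limI P.G (fun D ω => P.W θ t v v D ω ^ 2) = 1 := by
      refine tendsto_nhds_unique (reg_W hθ ⟨ht.le, htK⟩ v v).sq.tendsto (tendsto_const_nhds.congr' ?_)
      filter_upwards [P.eventually_rch v 0] with D hD
      simp [W, bw_self (K := P.K) (t := t) P.tree P.deg hθ.1.nonneg hθ.1.2 P.lt_one hD.2.mem]
    simp [sph_zero, e, dec]
  | succ n =>
    rw [P.sum_sph_succ]
    refine (Finset.sum_le_sum (fun y hy => branch_mean hθ ht htK ((mem_nbs P.deg).1 hy) n)).trans ?_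
    rw [Finset.sum_const, card_nbs P.deg, nsmul_eq_mul, ← mul_assoc]
    have h2 : (2:ℝ) ≤ P.q := by exact_mod_cast P.two_le
    refine mul_le_mul ?_ (rho_pow_le_dec ht (n + 1)) (pow_nonneg rho_pos.le _) (by norm_num)
    push_cast
    rw [mul_one_div, div_le_iff₀ (by linarith)]
    linarith

omit [Countable V] in
/-- crude bound on a sphere -/
lemma sphere_crude (hθ : P.Adm θ) (t : ℝ) {v : V} {n : ℕ} {D : Finset V} (hR : Rch P.G v n D)
    (ω : Om V) : ∑ u ∈ sph P.G P.fin v n, P.W θ t v u D ω ^ 2 ≤ 2 := by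
  refine (Finset.sum_le_card_nsmul _ _ ((θ ^ 2) ^ n) (fun u hu => ?_)).trans ?_
  · rw [← sq_abs, ← pow_mul, mul_comm 2, pow_mul]
    exact pow_le_pow_left₀ (abs_nonneg _) (abs_bw_le hθ _ n v u (P.mem_sph.1 hu) hR) 2
  · rw [nsmul_eq_mul]
    refine (mul_le_mul_of_nonneg_right (P.card_sph_le v n) (by positivity)).trans ?_
    rw [mul_assoc, ← mul_pow]
    have := pow_le_one₀ (n := n) (by positivity) hθ.crit'
    linarith

lemma sphere_crude_lim (hθ : P.Below θ) (ht : t ∈ Icc (0:ℝ) P.K) {X : Finset V → Om V → ℝ}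
    (hX : Reg P.G X) (h0 : ∀ᶠ D in vol P.G, ∀ ω, 0 ≤ X D ω) (v : V) (n : ℕ) :
    ∑ u ∈ sph P.G P.fin v n, limI P.G (fun D ω => X D ω * P.W θ t v u D ω ^ 2) ≤ 2 * limI P.G X := by
  have := P.neBot
  rw [← Reg.lim_sum _ (fun u _ => reg_XW hθ ht hX v u), ← hX.lim_const_mul 2]
  refine (Reg.sum _ (fun u _ => reg_XW hθ ht hX v u)).lim_mono ((Reg.const 2).mul hX) ?_
  filter_upwards [h0, P.eventually_rch v n] with D hD hR ω
  rw [← Finset.mul_sum, mul_comm (2:ℝ)]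
  exact mul_le_mul_of_nonneg_left (sphere_crude hθ.1 t hR.2 ω) (hD ω)

/-- observables at the far end, seen from the centre -/
lemma swap_le (hθ : P.Below θ) (ht : t ∈ Icc (0:ℝ) P.K) {X : V → Finset V → Om V → ℝ}
    (hX : ∀ a, Reg P.G (X a))
    (hinv : ∀ (g : P.G ≃g P.G) a, ∀ᶠ D in vol P.G, ∀ ω, X (g a) (D.image g) (actO g ω) = X a D ω)
    (h0 : ∀ a, ∀ᶠ D in vol P.G, ∀ ω, 0 ≤ X a D ω) (v u : V) :
    limI P.G (fun D ω => X u D ω * P.W θ t v u D ω ^ 2)
      ≤ 1 / kapK P.q P.K P.θ1 ^ 2 * limI P.G (fun D ω => X v D ω * P.W θ t v u D ω ^ 2) := by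
  have := P.neBot
  obtain ⟨g, gu, gv⟩ := P.exists_iso_pair (a := u) (b := v) (a' := v) (b' := u) P.G.dist_comm
  have e : limI P.G (fun D ω => X v D ω * P.W θ t v u D ω ^ 2)
      = limI P.G (fun D ω => X u D ω * P.W θ t u v D ω ^ 2) :=
    Reg.lim_image P.tree g (reg_XW hθ ht (hX u) u v) (reg_XW hθ ht (hX v) v u) (by
      filter_upwards [hinv g u] with D hD ω
      have h1 := hD ω
      have h2 := W_image (P := P) θ t g u v D ω
      rw [gu] at h1
      rw [gu, gv] at h2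
      rw [h1, h2])
  rw [e, ← (reg_XW hθ ht (hX u) u v).lim_const_mul]
  refine (reg_XW hθ ht (hX u) v u).lim_mono ((Reg.const _).mul (reg_XW hθ ht (hX u) u v)) ?_
  filter_upwards [h0 u, eventually_vol (G := P.G) (E := {u, v}) (p := fun D => u ∈ D ∧ v ∈ D)
    (fun D _ h => ⟨h (by simp), h (by simp)⟩)] with D h h' ω
  have hk := kapK_pos P.θ1_nonneg P.lt_one P.q P.K
  have hr := bw_reverse (K := P.K) (t := t) P.deg hθ.1.nonneg hθ.1.2 P.lt_one h'.2 h'.1
    (Smp P.G θ P.K D ω)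
  have h2 : P.W θ t v u D ω ^ 2 ≤ 1 / kapK P.q P.K P.θ1 ^ 2 * P.W θ t u v D ω ^ 2 := by
    rw [div_mul_eq_mul_div, one_mul, le_div_iff₀ (pow_pos hk 2), ← sq_abs (P.W θ t v u D ω),
      ← sq_abs (P.W θ t u v D ω), ← mul_pow, mul_comm]
    exact pow_le_pow_left₀ (mul_nonneg hk.le (abs_nonneg _)) hr 2
  calc X u D ω * P.W θ t v u D ω ^ 2 ≤ X u D ω * (_ * P.W θ t u v D ω ^ 2) :=
        mul_le_mul_of_nonneg_left h2 (h ω)
    _ = _ := by ring

omit [Countable V] in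
lemma W_split (hθ : P.Adm θ) (t : ℝ) {n : ℕ} {p : ℕ → V} (hp : IsGeod P.G n p) {D : Finset V}
    (hR : Rch P.G (p 0) n D) (ω : Om V) :
    ∀ j ≤ n, P.W θ t (p 0) (p n) D ω = P.W θ t (p 0) (p j) D ω * P.W θ t (p j) (p n) D ω := by
  induction n generalizing p with
  | zero =>
    intro j hj
    obtain rfl : j = 0 := by omega
    simp [W, bw_self (K := P.K) (t := t) P.tree P.deg hθ.nonneg hθ.2 P.lt_one hR.mem]
  | succ n ih =>
    intro j hj
    cases j with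
    | zero => simp [W, bw_self (K := P.K) (t := t) P.tree P.deg hθ.nonneg hθ.2 P.lt_one hR.mem]
    | succ j =>
      have ha : P.G.Adj (p 0) (p 1) := hp.1 0 (Nat.succ_pos n)
      have mem : ∀ i ≤ n + 1, p i ∈ D := fun i hi => hR _ (by rw [hp.dist_eq P.tree (Nat.zero_le i) hi]; omega)
      have hd : P.G.dist (p 1) (p (n + 1)) = n := by rw [hp.dist_eq P.tree (by omega) le_rfl]; omega
      have hp' : IsGeod P.G n (fun i => p (i + 1)) := ⟨fun i hi => hp.1 (i + 1) (by omega), hd⟩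
      have h := ih hp' (hR.step P.tree ha le_rfl) j (by omega)
      have m := fun (u : V) (hu : u ∈ D) (hd' : P.G.dist (p 1) u + 1 = P.G.dist (p 0) u) =>
        bw_mul (K := P.K) (t := t) P.tree P.deg hθ.nonneg hθ.2 P.lt_one (mem 0 (by omega))
          (mem 1 (by omega)) hu ha hd' (Smp P.G θ P.K D ω)
      simp only [W] at *
      rw [m _ (mem _ le_rfl) (by rw [hp.2, hd]), m _ (mem (j + 1) hj) (by
        rw [hp.dist_eq P.tree (by omega) hj, hp.dist_eq P.tree (Nat.zero_le _) hj]; omega), h]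
      ring

/-- an observable of an inner edge against the influence along a geodesic -/
lemma path_forward (hθ : P.Below θ) (ht : 0 < t) (htK : t ≤ P.K) {H : V → V → Finset V → Om V → ℝ}
    (hH : ∀ a b, P.G.Adj a b → Reg P.G (H a b))
    (hinv : ∀ (g : P.G ≃g P.G) a b, P.G.Adj a b →
      ∀ᶠ D in vol P.G, ∀ ω, H (g a) (g b) (D.image g) (actO g ω) = H a b D ω)
    {M Λ V0 : ℝ} (hΛ : 1 ≤ Λ)
    (h0 : ∀ a b, P.G.Adj a b → ∀ᶠ D in vol P.G, ∀ ω, 0 ≤ H a b D ω ∧ H a b D ω ≤ M)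
    (hV : ∀ a b, P.G.Adj a b → limI P.G (H a b) = V0)
    {n : ℕ} {p : ℕ → V} (hp : IsGeod P.G n p) {k : ℕ} (hk : k < n) :
    (P.q : ℝ) ^ n * limI P.G (fun D ω => H (p k) (p (k + 1)) D ω * P.W θ t (p 0) (p n) D ω ^ 2)
      ≤ P.rho t ^ ((n - k - 1) / 2) * splitB Λ M V0 := by
  have := P.neBot
  have htI : t ∈ Icc (0:ℝ) P.K := ⟨ht.le, htK⟩
  obtain ⟨m, hm⟩ : ∃ m, k + 1 + m = n := ⟨n - k - 1, by omega⟩
  rw [show (n - k - 1) = m by omega]
  set a := p k
  set b := p (k + 1)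
  have hab : P.G.Adj a b := hp.1 k hk
  set X := H a b
  set c := limI P.G (fun D ω => X D ω * P.W θ t b (p n) D ω ^ 2) with hc
  have hterm : limI P.G (fun D ω => X D ω * P.W θ t (p 0) (p n) D ω ^ 2) ≤ (θ ^ 2) ^ (k + 1) * c := by
    rw [hc, ← (reg_XW hθ htI (hH a b hab) b (p n)).lim_const_mul]
    refine (reg_XW hθ htI (hH a b hab) (p 0) (p n)).lim_mono
      ((Reg.const _).mul (reg_XW hθ htI (hH a b hab) b (p n))) ?_
    filter_upwards [h0 a b hab, P.eventually_rch (p 0) n] with D hD hR ω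
    rw [W_split hθ.1 t hp hR.2 ω (k + 1) (by omega), mul_pow]
    have h1 : P.W θ t (p 0) b D ω ^ 2 ≤ (θ ^ 2) ^ (k + 1) := by
      rw [← sq_abs, ← pow_mul, mul_comm 2, pow_mul]
      exact pow_le_pow_left₀ (abs_nonneg _) (abs_bw_le hθ.1 _ (k + 1) _ _
        (by rw [hp.dist_eq P.tree (Nat.zero_le _) (by omega)]; omega) (hR.2.mono (by omega))) 2
    calc X D ω * (P.W θ t (p 0) b D ω ^ 2 * P.W θ t b (p n) D ω ^ 2)
        ≤ X D ω * ((θ ^ 2) ^ (k + 1) * P.W θ t b (p n) D ω ^ 2) := by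
          refine mul_le_mul_of_nonneg_left (mul_le_mul_of_nonneg_right h1 (sq_nonneg _)) (hD ω).1
      _ = _ := by ring
  have hsum : (P.q : ℝ) ^ m * c ≤ P.rho t ^ (m / 2) * splitB Λ M V0 := by
    refine le_trans (le_of_eq ?_) ((edge_decay hθ ht htK (hH a b hab) hΛ (h0 a b hab) hab m).trans
      (by rw [hV a b hab]))
    have hP : IsGeod P.G (m + 1) (fun i => p (k + i)) := by
      refine ⟨fun i hi => hp.1 (k + i) (by omega), ?_⟩
      show P.G.dist (p (k + 0)) (p (k + (m + 1))) = m + 1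
      rw [hp.dist_eq P.tree (by omega) (by omega)]; omega
    have : ∀ u ∈ fw P.G m a b, limI P.G (fun D ω => X D ω * P.W θ t b u D ω ^ 2) = c := by
      intro u hu
      obtain ⟨d1, d2⟩ := (fw_dist P.tree P.deg m a b hab u).1 hu
      obtain ⟨r, hr, r0, r1, rn⟩ := exists_geod_through P.tree hab m u
        (by rw [P.G.dist_comm]; exact d1) (by rw [P.G.dist_comm]; omega)
      obtain ⟨g, hg⟩ := exists_iso_path P.tree P.deg (m + 1) _ r hP.1 hP.2 hr.1 hr.2
      have ga : g a = a := (hg 0 (by omega)).trans r0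
      have gb : g b = b := (hg 1 (by omega)).trans r1
      have gn : g (p n) = u := by
        rw [← rn, ← hg (m + 1) le_rfl]
        show g (p n) = g (p (k + (m + 1)))
        rw [show k + (m + 1) = n by omega]
      refine Reg.lim_image P.tree g (reg_XW hθ htI (hH a b hab) b (p n))
        (reg_XW hθ htI (hH a b hab) b u) ?_
      filter_upwards [hinv g a b hab] with D hD ω
      have h1 := hD ω
      have h2 := W_image (P := P) θ t g b (p n) D ω
      rw [ga, gb] at h1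
      rw [gb, gn] at h2
      simp only [X]
      rw [h1, h2]
    rw [Finset.sum_congr rfl this, Finset.sum_const, card_fw P.tree P.deg m a b hab, nsmul_eq_mul]
    push_cast
    rfl
  have hS : 0 ≤ (P.q : ℝ) ^ m * c := mul_nonneg (by positivity)
    ((reg_XW hθ htI (hH a b hab) b (p n)).lim_nonneg ((h0 a b hab).mono (fun D hD ω =>
      mul_nonneg (hD ω).1 (sq_nonneg _))))
  calc (P.q : ℝ) ^ n * limI P.G (fun D ω => X D ω * P.W θ t (p 0) (p n) D ω ^ 2)
      ≤ (P.q : ℝ) ^ n * ((θ ^ 2) ^ (k + 1) * c) := mul_le_mul_of_nonneg_left hterm (by positivity)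
    _ = ((P.q : ℝ) * θ ^ 2) ^ (k + 1) * ((P.q : ℝ) ^ m * c) := by
        rw [mul_pow, ← hm, pow_add]; ring
    _ ≤ 1 * (P.rho t ^ (m / 2) * splitB Λ M V0) :=
        mul_le_mul (pow_le_one₀ (by positivity) hθ.1.crit') hsum hS zero_le_one
    _ = _ := one_mul _

/-- the same from whichever end is farther -/
lemma path_decay (hθ : P.Below θ) (ht : 0 < t) (htK : t ≤ P.K) {H : V → V → Finset V → Om V → ℝ}
    (hH : ∀ a b, P.G.Adj a b → Reg P.G (H a b))
    (hinv : ∀ (g : P.G ≃g P.G) a b, P.G.Adj a b →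
      ∀ᶠ D in vol P.G, ∀ ω, H (g a) (g b) (D.image g) (actO g ω) = H a b D ω)
    {M Λ V0 : ℝ} (hΛ : 1 ≤ Λ)
    (h0 : ∀ a b, P.G.Adj a b → ∀ᶠ D in vol P.G, ∀ ω, 0 ≤ H a b D ω ∧ H a b D ω ≤ M)
    (hV : ∀ a b, P.G.Adj a b → limI P.G (H a b) = V0)
    {n : ℕ} {p : ℕ → V} (hp : IsGeod P.G n p) {k : ℕ} (hk : k < n) :
    (P.q : ℝ) ^ n * limI P.G (fun D ω => H (p k) (p (k + 1)) D ω * P.W θ t (p 0) (p n) D ω ^ 2)
      ≤ 2 / kapK P.q P.K P.θ1 ^ 2 * P.dec t n * splitB Λ M V0 := by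
  have := P.neBot
  have htI : t ∈ Icc (0:ℝ) P.K := ⟨ht.le, htK⟩
  have hab : P.G.Adj (p k) (p (k + 1)) := hp.1 k hk
  have hkap := kapK_pos P.θ1_nonneg P.lt_one P.q P.K
  have hV0 : 0 ≤ V0 := by
    rw [← hV _ _ hab]
    exact (hH _ _ hab).lim_nonneg ((h0 _ _ hab).mono (fun D hD ω => (hD ω).1))
  have hS : 0 ≤ splitB Λ M V0 := by
    obtain ⟨D, hD⟩ := (h0 _ _ hab).exists
    have hM : 0 ≤ M := (hD (fun _ => 0)).1.trans (hD (fun _ => 0)).2
    unfold splitB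
    positivity
  have h1 : 1 ≤ 1 / kapK P.q P.K P.θ1 ^ 2 := by
    rw [le_div_iff₀ (pow_pos hkap 2), one_mul]
    exact pow_le_one₀ hkap.le (kapK_le_one P.θ1_nonneg P.lt_one _ _)
  have hd0 : 0 ≤ P.dec t n := (Real.exp_pos _).le
  by_cases hc : n ≤ 2 * (k + 1)
  · set p' : ℕ → V := fun i => p (n - i) with hp'
    have hP' : IsGeod P.G n p' := hp.rev
    have hk' : n - k - 1 < n := by omega
    have h := path_forward hθ ht htK (H := fun a b => H b a) (fun a b h => hH b a h.symm)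
      (fun g a b h => hinv g b a h.symm) hΛ (fun a b h => h0 b a h.symm) (fun a b h => hV b a h.symm)
      hP' hk'
    simp only [hp', Nat.sub_zero, Nat.sub_self, show n - (n - k - 1) = k + 1 by omega,
      show n - (n - k - 1 + 1) = k by omega, show n - (n - k - 1) - 1 = k by omega] at h
    have e : limI P.G (fun D ω => H (p k) (p (k + 1)) D ω * P.W θ t (p 0) (p n) D ω ^ 2)
        ≤ 1 / kapK P.q P.K P.θ1 ^ 2
          * limI P.G (fun D ω => H (p k) (p (k + 1)) D ω * P.W θ t (p n) (p 0) D ω ^ 2) := by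
      rw [← (reg_XW hθ htI (hH _ _ hab) (p n) (p 0)).lim_const_mul]
      refine (reg_XW hθ htI (hH _ _ hab) (p 0) (p n)).lim_mono
        ((Reg.const _).mul (reg_XW hθ htI (hH _ _ hab) (p n) (p 0))) ?_
      filter_upwards [h0 _ _ hab, P.eventually_rch (p 0) n] with D hD hR ω
      have hr := bw_reverse (K := P.K) (t := t) P.deg hθ.1.nonneg hθ.1.2 P.lt_one hR.2.mem
        (hR.2 (p n) hp.2.le) (Smp P.G θ P.K D ω)
      have h2 : P.W θ t (p 0) (p n) D ω ^ 2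
          ≤ 1 / kapK P.q P.K P.θ1 ^ 2 * P.W θ t (p n) (p 0) D ω ^ 2 := by
        rw [div_mul_eq_mul_div, one_mul, le_div_iff₀ (pow_pos hkap 2),
          ← sq_abs (P.W θ t (p 0) (p n) D ω), ← sq_abs (P.W θ t (p n) (p 0) D ω), ← mul_pow, mul_comm]
        exact pow_le_pow_left₀ (mul_nonneg hkap.le (abs_nonneg _)) hr 2
      calc _ ≤ H (p k) (p (k + 1)) D ω * (_ * P.W θ t (p n) (p 0) D ω ^ 2) :=
            mul_le_mul_of_nonneg_left h2 (hD ω).1
        _ = _ := by ring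
    calc _ ≤ (P.q : ℝ) ^ n * (1 / kapK P.q P.K P.θ1 ^ 2 * _) :=
          mul_le_mul_of_nonneg_left e (by positivity)
      _ = 1 / kapK P.q P.K P.θ1 ^ 2 * ((P.q : ℝ) ^ n * _) := by ring
      _ ≤ 1 / kapK P.q P.K P.θ1 ^ 2 * (2 * P.dec t n * splitB Λ M V0) :=
          mul_le_mul_of_nonneg_left (h.trans (mul_le_mul_of_nonneg_right
            (rho_pow_le ht htK (by omega)) hS)) (by positivity)
      _ = _ := by ring
  · refine (path_forward hθ ht htK hH hinv hΛ h0 hV hp hk).trans ?_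
    refine (mul_le_mul_of_nonneg_right (rho_pow_le ht htK (n := n) (by omega)) hS).trans ?_
    refine mul_le_mul_of_nonneg_right (mul_le_mul_of_nonneg_right ?_ hd0) hS
    calc (2:ℝ) = 2 * 1 := (mul_one 2).symm
      _ ≤ 2 * (1 / kapK P.q P.K P.θ1 ^ 2) := by linarith
      _ = _ := by ring

end Env

end Vale.Agent.P161.Crit
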