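import Mathlib
import Vale.Agent.P161.Crit.Spheres

/-!
Second and exponential moments of the limiting means.
-/

open MeasureTheory Set Function Filter
open scoped Classical Topology

noncomputable section

namespace Vale.Agent.P161.Crit

variable {V : Type*}

lemma exists_pow_exp_le (p : ℕ) {c : ℝ} (hc : 0 < c) :
    ∃ C, 0 ≤ C ∧ ∀ x : ℝ, 0 ≤ x → x ^ p * Real.exp (-(c * x)) ≤ C := by
  refine ⟨(p.factorial : ℝ) / c ^ p, by positivity, fun x hx => ?_⟩
  have h := Real.pow_div_factorial_le_exp (c * x) (by positivity) p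
  rw [div_le_iff₀ (by exact_mod_cast p.factorial_pos), mul_pow] at h
  rw [Real.exp_neg, ← div_eq_mul_inv, div_le_div_iff₀ (Real.exp_pos _) (by positivity)]
  linarith

lemma sum_exp_neg_le {x : ℝ} (h0 : 0 < x) (h1 : x ≤ 1) (R : ℕ) :
    ∑ n ∈ Finset.range R, Real.exp (-x) ^ n ≤ 2 / x := by
  have hlt : Real.exp (-x) < 1 := Real.exp_lt_one_iff.2 (by linarith)
  refine ((summable_geometric_of_lt_one (Real.exp_pos _).le hlt).sum_le_tsum _
    (fun n _ => pow_nonneg (Real.exp_pos _).le n)).trans ?_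
  rw [tsum_geometric_of_lt_one (Real.exp_pos _).le hlt, inv_eq_one_div,
    div_le_div_iff₀ (by linarith) h0]
  have h := Real.add_one_le_exp x
  have e : Real.exp (-x) * Real.exp x = 1 := by rw [← Real.exp_add]; simp
  nlinarith [mul_le_mul_of_nonneg_left h (Real.exp_pos (-x)).le]

lemma str_sq_le {s : ℝ} (hs : 0 ≤ s) : str s ^ 2 ≤ sig s ^ 128 := by
  rw [show (128:ℕ) = 32 * 4 from rfl, sig_pow_mul hs, str, ← pow_mul]
  exact pow_le_pow_left₀ (le_min zero_le_one hs) (min_le_right _ _) _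

lemma abs_exp_sub_le {B x y : ℝ} (hx : |x| ≤ B) (hy : |y| ≤ B) :
    |Real.exp x - Real.exp y| ≤ Real.exp B * |x - y| := by
  have key : ∀ {a b : ℝ}, b ≤ a → a ≤ B → Real.exp a - Real.exp b ≤ Real.exp B * (a - b) := by
    intro a b hab ha
    have h := Real.add_one_le_exp (b - a)
    rw [Real.exp_sub, le_div_iff₀ (Real.exp_pos a)] at h
    have := mul_le_mul_of_nonneg_right (Real.exp_le_exp.2 ha) (sub_nonneg.2 hab)
    linarith
  rcases le_total y x with c | c
  · rw [abs_of_nonneg (sub_nonneg.2 (Real.exp_le_exp.2 c)), abs_of_nonneg (sub_nonneg.2 c)]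
    exact key c (le_abs_self x |>.trans hx)
  · rw [abs_sub_comm, abs_sub_comm x, abs_of_nonneg (sub_nonneg.2 (Real.exp_le_exp.2 c)),
      abs_of_nonneg (sub_nonneg.2 c)]
    exact key c (le_abs_self y |>.trans hy)

lemma measurable_sig : Measurable sig := by
  show Measurable (fun t : ℝ => t ^ ((1:ℝ) / 32))
  fun_prop

namespace Env

variable (P : Env V)

/-- covariances at time `t` -/
def Ct (θ t : ℝ) (v u : V) : Finset V → Om V → ℝ := fun D ω => cT P.G θ P.K D t v u ω

/-- constant of the time integrals -/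
def cA : ℝ := (1 + (P.K : ℝ)) * P.K

lemma cA_nonneg : 0 ≤ P.cA := by unfold cA; positivity

/-- largest value of the time scale -/
def sK : ℝ := sig P.K

lemma one_le_sK : 1 ≤ P.sK :=
  Real.one_le_rpow (by exact_mod_cast P.hK) (by norm_num)

variable {P}
variable {θ t : ℝ}

lemma sig_le_sK (ht : 0 ≤ t) (htK : t ≤ P.K) : sig t ≤ P.sK := sig_mono ht htK

lemma sum_dec_le (ht : 0 < t) (htK : t ≤ P.K) (R : ℕ) :
    ∑ n ∈ Finset.range R, P.dec t n ≤ 8 / P.gam t := by
  have hg := gam_pos (P := P) ht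
  have hg1 := gam_le_quarter (P := P) ht htK
  have h := sum_exp_neg_le (x := P.gam t / 4) (by positivity) (by linarith) R
  refine le_trans (le_of_eq (Finset.sum_congr rfl (fun n _ => ?_))) (h.trans (le_of_eq ?_))
  · rw [dec, ← Real.exp_nat_mul]; ring_nf
  · field_simp; norm_num

variable [Countable V]

/-- sums over observations become time integrals of the limiting sphere sums -/
lemma budget {F : ℝ → V → Finset V → Om V → ℝ} (v : V) (ht : t ∈ Icc (0:ℝ) P.K)
    (hm : ∀ u D, Measurable (fun p : ℝ × Om V => F p.1 u D p.2))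
    (h0 : ∀ s u D ω, 0 ≤ F s u D ω) {C b : ℝ} (hb0 : 0 < b) (hb : (P.q : ℝ) * b < 1)
    (hC : ∀ D, Geo P.G D → v ∈ D → ∀ s u ω, F s u D ω ≤ C * b ^ P.G.dist v u)
    (hind : ∀ D s (u : V) (k : ℕ) ω y y', s ≤ tim k y → s ≤ tim k y' →
      F s u D (upd ω (Sum.inl (u, k)) y) = F s u D (upd ω (Sum.inl (u, k)) y'))
    (hreg : ∀ s ∈ Ioo 0 t, ∀ u, Reg P.G (F s u))
    {f : ℝ → ℝ} (hf : Measurable f) (hf0 : ∀ s, 0 ≤ f s) (hf1 : ∀ s, f s ≤ 1)
    {h : ℝ → ℝ} (hhi : IntegrableOn h (Ioo 0 t)) (hhm : Measurable h)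
    (hh0 : ∀ s ∈ Ioo 0 t, 0 ≤ h s)
    (hle : ∀ s ∈ Ioo 0 t, ∀ R : ℕ,
      f s * ∑ n ∈ Finset.range R, ∑ u ∈ sph P.G P.fin v n, limI P.G (F s u) ≤ h s)
    {δ : ℝ} (hδ : 0 < δ) :
    ∀ᶠ D in vol P.G, ∑ i ∈ box P.K D,
        ∫ ω, (if tau ω i < t then f (tau ω i) * F (tau ω i) i.1 D ω else 0) ∂PU _
      ≤ P.cA * (∫ s in Ioo 0 t, h s) + δ := by
  have := P.neBot
  have hC0 : 0 ≤ C := by
    obtain ⟨D, hD, hR⟩ := (P.eventually_rch v 0).exists
    have h1 := (h0 0 v D (fun _ => 0)).trans (hC D hD hR.mem 0 v (fun _ => 0))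
    simpa using h1
  have hint : ∀ {D : Finset V}, Geo P.G D → v ∈ D → ∀ s u,
      ∫ ω, F s u D ω ∂PU _ ≤ C * b ^ P.G.dist v u := by
    intro D hD hv s u
    have h := integral_mono_of_nonneg (μ := PU ((V × ℕ) ⊕ (V × ℕ))) (ae_of_all _ (fun ω => h0 s u D ω))
      (integrable_const (C * b ^ P.G.dist v u)) (ae_of_all _ (fun ω => hC D hD hv s u ω))
    rwa [integral_const, probReal_univ, one_smul] at h
  set g : Finset V → ℝ → ℝ := fun D s => f s * ∑ u ∈ D, ∫ ω, F s u D ω ∂PU _ with hg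
  have hgm : ∀ D, Measurable (g D) := fun D => hf.mul (Finset.measurable_sum _ (fun u _ =>
    ((hm u D).stronglyMeasurable.integral_prod_right').measurable))
  have hg0 : ∀ D s, 0 ≤ g D s := fun D s =>
    mul_nonneg (hf0 s) (Finset.sum_nonneg (fun u _ => integral_nonneg (fun ω => h0 s u D ω)))
  have hgC : ∀ᶠ D in vol P.G, ∀ s, g D s ≤ C * (2 / (1 - P.q * b)) := by
    filter_upwards [P.eventually_rch v 0] with D hD s
    refine (mul_le_of_le_one_left (Finset.sum_nonneg (fun u _ => integral_nonneg (fun ω => h0 s u D ω)))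
      (hf1 s)).trans ((Finset.sum_le_sum (fun u _ => hint hD.1 hD.2.mem s u)).trans ?_)
    rw [← Finset.mul_sum]
    refine mul_le_mul_of_nonneg_left ?_ hC0
    simp only [P.G.dist_comm (u := v)]
    exact sum_pow_dist_le P.tree P.deg P.one_le_q hb0.le hb v D
  have hgle : ∀ s ∈ Ioo 0 t, ∀ δ > 0, ∀ᶠ D in vol P.G, g D s ≤ h s + δ := by
    intro s hs δ hδ
    have hq0 : (0:ℝ) < P.q := by exact_mod_cast P.one_le_q
    set c := (1 + 1 / ((P.q : ℝ) * b)) / 2 with hc
    have hqb : 0 < (P.q : ℝ) * b := by positivity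
    have hc1 : 1 < c := by
      have : 1 < 1 / ((P.q : ℝ) * b) := by rw [lt_div_iff₀ hqb]; linarith
      rw [hc]; linarith
    have hqc : (P.q : ℝ) * (b * c) < 1 := by
      rw [← mul_assoc, hc, mul_div_assoc', mul_add, mul_one_div, div_self hqb.ne', div_lt_one two_pos]
      linarith
    obtain ⟨N, hN⟩ : ∃ N : ℕ, C * (2 / (1 - P.q * (b * c)) * c⁻¹ ^ N) ≤ δ / 2 := by
      have hl := ((tendsto_pow_atTop_nhds_zero_of_lt_one (inv_nonneg.2 (by linarith : (0:ℝ) ≤ c))
        (inv_lt_one_of_one_lt₀ hc1)).const_mul (2 / (1 - P.q * (b * c)))).const_mul C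
      rw [mul_zero, mul_zero] at hl
      obtain ⟨N, hN⟩ := (hl.eventually (gt_mem_nhds (half_pos hδ))).exists
      exact ⟨N, hN.le⟩
    have hT : Tendsto (fun D => f s * ∑ n ∈ Finset.range (N + 1), ∑ u ∈ sph P.G P.fin v n,
        ∫ ω, F s u D ω ∂PU _) (vol P.G)
        (𝓝 (f s * ∑ n ∈ Finset.range (N + 1), ∑ u ∈ sph P.G P.fin v n, limI P.G (F s u))) :=
      (tendsto_finsetSum _ (fun n _ => tendsto_finsetSum _ (fun u _ => (hreg s hs u).tendsto))).const_mul _
    filter_upwards [hT.eventually (gt_mem_nhds (lt_add_of_pos_right _ (half_pos hδ))),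
      eventually_vol (G := P.G) (E := ball P.G P.fin v N) (p := fun D => Geo P.G D ∧ ball P.G P.fin v N ⊆ D)
        (fun D h1 h2 => ⟨h1, h2⟩)] with D hlim hD
    have hv : v ∈ D := hD.2 (self_mem_ball P.tree P.fin v N)
    simp only [hg]
    rw [P.sum_sph v N D _ hD.2, mul_add]
    suffices hfar : f s * ∑ u ∈ D.filter (fun u => N < P.G.dist v u), ∫ ω, F s u D ω ∂PU _ ≤ δ / 2 by
      linarith [hle s hs (N + 1)]
    refine (mul_le_of_le_one_left (Finset.sum_nonneg (fun u _ => integral_nonneg (fun ω => h0 s u D ω)))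
      (hf1 s)).trans ((Finset.sum_le_sum (fun u _ => hint hD.1 hv s u)).trans (le_trans ?_ hN))
    rw [← Finset.mul_sum]
    refine mul_le_mul_of_nonneg_left ?_ hC0
    simp only [P.G.dist_comm (u := v)]
    exact sum_pow_dist_far_le P.tree P.deg P.one_le_q hb0 hc1 hqc v N _ (fun w hw => by
      have := (Finset.mem_filter.1 hw).2
      have := P.G.dist_comm (u := v) (v := w)
      omega)
  have hA := P.cA_nonneg
  filter_upwards [P.rate_limit hgm hg0 hgC hhi hhm hh0 hgle (δ := δ / (P.cA + 1)) (by positivity),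
    P.eventually_rch v 0] with D hD hv
  refine (P.sum_time_le ht.1 ht.2 (I := D) (F := fun s u ω => F s u D ω) (fun u => hm u D)
    (fun s u ω => h0 s u D ω) (C := C) (fun s u _ ω => (hC D hv.1 hv.2.mem s u ω).trans
      (mul_le_of_le_one_right hC0 (pow_le_one₀ hb0.le (by
        have : (1:ℝ) ≤ P.q := by exact_mod_cast P.one_le_q
        nlinarith))))
    (fun s u k ω y y' => hind D s u k ω y y') hf hf0 hf1).trans ?_
  have h1 : P.cA * (∫ s in Ioo 0 t, g D s) ≤ P.cA * ((∫ s in Ioo 0 t, h s) + δ / (P.cA + 1)) :=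
    mul_le_mul_of_nonneg_left hD hA
  refine h1.trans ?_
  have : P.cA * (δ / (P.cA + 1)) ≤ δ := by
    rw [mul_div_assoc', div_le_iff₀ (by positivity)]; nlinarith
  linarith

omit [Countable V] in
lemma measurable_Ct (hθ : P.Adm θ) (v u : V) (D : Finset V) :
    Measurable (fun p : ℝ × Om V => P.Ct θ p.1 v u D p.2) :=
  measurable_cT hθ.nonneg hθ.lt_one' D v u

lemma reg_Ct (hθ : P.Below θ) (ht : t ∈ Icc (0:ℝ) P.K) (v u : V) : Reg P.G (P.Ct θ t v u) := by
  refine (((Reg.const 1).sub (reg_M hθ ht v).sq).mul (reg_W hθ ht v u)).congr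
    (eventually_vol (E := {v, u}) (fun D _ h => ?_))
  funext ω
  exact cT_eq hθ.1 (h (by simp)) (h (by simp)) ω

omit [Countable V] in
lemma Ct_sq_le_W (hθ : P.Adm θ) (t : ℝ) (v u : V) :
    ∀ᶠ D in vol P.G, ∀ ω, P.Ct θ t v u D ω ^ 2 ≤ P.W θ t v u D ω ^ 2 :=
  eventually_vol (E := {v, u}) (fun D _ h ω => by
    rw [Ct, cT_eq hθ (h (by simp)) (h (by simp)), mul_pow]
    refine mul_le_of_le_one_left (sq_nonneg _) ?_
    have := (sq_le_one_iff_abs_le_one _).2 (abs_mT_le (G := P.G) (K := P.K) hθ.nonneg hθ.lt_one' D t v ω)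
    nlinarith [sq_nonneg (mT P.G θ P.K D t v ω)])

omit [Countable V] in
lemma cT_indep (θ : ℝ) (v w : V) {D : Finset V} {s : ℝ} {u : V} {k : ℕ} {ω : Om V} {y y' : ℝ}
    (hy : s ≤ tim k y) (hy' : s ≤ tim k y') :
    P.Ct θ s v w D (upd ω (Sum.inl (u, k)) y) = P.Ct θ s v w D (upd ω (Sum.inl (u, k)) y') ∧
    P.M θ s w D (upd ω (Sum.inl (u, k)) y) = P.M θ s w D (upd ω (Sum.inl (u, k)) y') := by
  obtain ⟨-, m1, c1⟩ := P.state_indep (θ := θ) D (i := (u, k)) (ω := ω) hy hy'
  exact ⟨c1 v w, m1 w⟩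

/-- second moments of increments -/
lemma lim_sq_change (hθ : P.Below θ) {s : ℝ} (hs : 0 ≤ s) (hst : s ≤ t) (htK : t ≤ P.K) (v : V) :
    limI P.G (fun D ω => (P.M θ t v D ω - P.M θ s v D ω) ^ 2)
      ≤ P.cA * ∫ r in Ioo 0 t, (if s ≤ r then 16 / P.cG * sig r ^ 48 else 0) := by
  have := P.neBot
  have ht : t ∈ Icc (0:ℝ) P.K := ⟨hs.trans hst, htK⟩
  have hsI : s ∈ Icc (0:ℝ) P.K := ⟨hs, hst.trans htK⟩
  refine (((reg_M hθ ht v).sub (reg_M hθ hsI v)).sq).lim_le (fun δ hδ => ?_)
  set f : ℝ → ℝ := fun r => if r ∈ Icc s (P.K : ℝ) then str r ^ 2 else 0 with hf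
  have hfm : Measurable f := Measurable.ite measurableSet_Icc (measurable_str.pow_const 2) measurable_const
  have hf0 : ∀ r, 0 ≤ f r := fun r => by simp only [hf]; split_ifs <;> positivity
  have hf1 : ∀ r, f r ≤ 1 := fun r => by
    simp only [hf]; split_ifs with c
    · exact pow_le_one₀ (str_mem (hs.trans c.1)).1 (str_mem (hs.trans c.1)).2
    · exact zero_le_one
  have hθp : 0 < θ ^ 2 := pow_pos hθ.1.posθ 2
  have hcG := P.cG_pos
  have hhm : Measurable (fun r : ℝ => if s ≤ r then 16 / P.cG * sig r ^ 48 else 0) :=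
    Measurable.ite measurableSet_Ici (measurable_const.mul (measurable_sig.pow_const 48)) measurable_const
  have hh0 : ∀ r ∈ Ioo 0 t, 0 ≤ (if s ≤ r then 16 / P.cG * sig r ^ 48 else 0) := fun r hr => by
    have := sig_nonneg hr.1.le
    split_ifs <;> positivity
  have hhi : IntegrableOn (fun r : ℝ => if s ≤ r then 16 / P.cG * sig r ^ 48 else 0) (Ioo 0 t) := by
    refine Measure.integrableOn_of_bounded measure_Ioo_lt_top.ne hhm.aestronglyMeasurable
      (M := 16 / P.cG * P.sK ^ 48) ?_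
    filter_upwards [ae_restrict_mem measurableSet_Ioo] with r hr
    rw [Real.norm_eq_abs, abs_of_nonneg (hh0 r hr)]
    have := sig_nonneg hr.1.le
    have := P.one_le_sK
    split_ifs
    · gcongr
      exact sig_le_sK hr.1.le (hr.2.le.trans htK)
    · positivity
  have hle : ∀ r ∈ Ioo 0 t, ∀ R : ℕ, f r * ∑ n ∈ Finset.range R, ∑ u ∈ sph P.G P.fin v n,
      limI P.G (fun D ω => P.Ct θ r v u D ω ^ 2) ≤ (if s ≤ r then 16 / P.cG * sig r ^ 48 else 0) := by
    intro r hr R
    simp only [hf]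
    have hrK : r ≤ P.K := hr.2.le.trans htK
    by_cases c : s ≤ r
    · rw [if_pos (show r ∈ Icc s (P.K:ℝ) from ⟨c, hrK⟩), if_pos c]
      have hsum : ∑ n ∈ Finset.range R, ∑ u ∈ sph P.G P.fin v n,
          limI P.G (fun D ω => P.Ct θ r v u D ω ^ 2) ≤ 16 / P.gam r := by
        refine (Finset.sum_le_sum (fun n _ => (Finset.sum_le_sum (fun u _ =>
          (reg_Ct hθ ⟨hr.1.le, hrK⟩ v u).sq.lim_mono (reg_W hθ ⟨hr.1.le, hrK⟩ v u).sq
            (Ct_sq_le_W hθ.1 r v u))).trans (sphere_mean hθ hr.1 hrK v n))).trans ?_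
        rw [← Finset.mul_sum]
        calc 2 * ∑ n ∈ Finset.range R, P.dec r n ≤ 2 * (8 / P.gam r) :=
              mul_le_mul_of_nonneg_left (sum_dec_le hr.1 hrK R) (by norm_num)
          _ = _ := by ring
      refine (mul_le_mul_of_nonneg_left hsum (sq_nonneg _)).trans ?_
      refine (mul_le_mul_of_nonneg_right (str_sq_le hr.1.le)
        (div_nonneg (by norm_num) (gam_pos hr.1).le)).trans (le_of_eq ?_)
      have := sig_pos hr.1
      rw [gam]
      field_simp
    · rw [if_neg (fun h : r ∈ Icc s (P.K:ℝ) => c h.1), zero_mul, if_neg c]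
  filter_upwards [budget (F := fun r u D ω => P.Ct θ r v u D ω ^ 2) v ht
    (fun u D => (measurable_Ct hθ.1 v u D).pow_const 2) (fun _ _ _ _ => sq_nonneg _) (C := 1) hθp
    (hθ.1.sub hθ.2)
    (fun D hD hv r u ω => by rw [one_mul]; exact cT_sq_le hθ.1 hD hv u ω)
    (fun D r u k ω y y' hy hy' => by rw [(cT_indep θ v u hy hy').1])
    (fun r hr u => (reg_Ct hθ ⟨hr.1.le, hr.2.le.trans htK⟩ v u).sq) hfm hf0 hf1 hhi hhm hh0
    hle hδ, P.eventually_rch v 0] with D hD hv
  refine (sq_change_le P.tree hθ.1.nonneg hθ.1.lt_one' hv.1 hv.2.mem hst).trans (le_trans (le_of_eq ?_) hD)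
  refine Finset.sum_congr rfl (fun i _ => integral_congr_ae (ae_of_all _ (fun ω => ?_)))
  by_cases c : tau ω i < t
  · by_cases c2 : s ≤ tau ω i
    · have : tau ω i ∈ Icc s (P.K : ℝ) := ⟨c2, c.le.trans htK⟩
      simp only [hf, Ct, if_pos c, if_pos this, if_pos (And.intro c2 c)]
    · have : tau ω i ∉ Icc s (P.K : ℝ) := fun h => c2 h.1
      simp only [hf, if_pos c, if_neg this, zero_mul, if_neg (fun h : s ≤ tau ω i ∧ tau ω i < t => c2 h.1)]
  · simp [c]

omit [Countable V] in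
lemma M_zero (hθ : P.Adm θ) {D : Finset V} (hD : Geo P.G D) {v : V} (hv : v ∈ D) (ω : Om V) :
    P.M θ 0 v D ω = 0 :=
  mT_initial P.tree hθ.nonneg hθ.lt_one' hD (Finset.Subset.refl D) hv (fun i _ => tim_nonneg _ _)

/-- second moment of the means -/
lemma lim_sq (hθ : P.Below θ) (ht : t ∈ Icc (0:ℝ) P.K) (v : V) :
    limI P.G (fun D ω => P.M θ t v D ω ^ 2) ≤ P.cA * (7 / P.cG) * sig t ^ 80 := by
  have := P.neBot
  have h0 : (0:ℝ) ∈ Icc (0:ℝ) P.K := ⟨le_rfl, Nat.cast_nonneg _⟩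
  have e : limI P.G (fun D ω => (P.M θ t v D ω - P.M θ 0 v D ω) ^ 2)
      = limI P.G (fun D ω => P.M θ t v D ω ^ 2) := by
    refine tendsto_nhds_unique ((reg_M hθ ht v).sub (reg_M hθ h0 v)).sq.tendsto
      ((reg_M hθ ht v).sq.tendsto.congr' ?_)
    filter_upwards [P.eventually_rch v 0] with D hD
    simp [M_zero hθ.1 hD.1 hD.2.mem]
  rw [← e]
  refine (lim_sq_change hθ le_rfl ht.1 ht.2 v).trans ?_
  rw [mul_assoc]
  refine mul_le_mul_of_nonneg_left ?_ P.cA_nonneg
  have hcG := P.cG_pos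
  obtain ⟨hi, he⟩ := integral_Ioo_rpow (β := 5 / 2) (by norm_num) ht.1
  have hp : ∀ r ∈ Ioo 0 t, (if 0 ≤ r then 16 / P.cG * sig r ^ 48 else 0)
      = 16 / P.cG * r ^ ((5:ℝ) / 2 - 1) := fun r hr => by
    rw [if_pos hr.1.le, sig_pow hr.1.le]; norm_num
  rw [setIntegral_congr_fun measurableSet_Ioo hp, integral_const_mul, he, sig_pow ht.1,
    show ((80:ℕ):ℝ) / 32 = 5 / 2 by norm_num]
  have : 0 ≤ t ^ ((5:ℝ) / 2) := Real.rpow_nonneg ht.1 _
  rw [show 16 / P.cG * (t ^ ((5:ℝ) / 2) / (5 / 2)) = (32 / 5) / P.cG * t ^ ((5:ℝ) / 2) by ring]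
  gcongr
  norm_num

/-- Lipschitz dependence on time in mean square -/
lemma lim_sq_lip (hθ : P.Below θ) {s : ℝ} (hs : 0 ≤ s) (hst : s ≤ t) (htK : t ≤ P.K) (v : V) :
    limI P.G (fun D ω => (P.M θ t v D ω - P.M θ s v D ω) ^ 2)
      ≤ P.cA * (16 / P.cG * P.sK ^ 48) * (t - s) := by
  refine (lim_sq_change hθ hs hst htK v).trans ?_
  rw [mul_assoc]
  refine mul_le_mul_of_nonneg_left ?_ P.cA_nonneg
  have hcG := P.cG_pos
  have hsK := P.one_le_sK
  have : IsFiniteMeasure (volume.restrict (Ioo (0:ℝ) t)) := isFiniteMeasure_restrict.2 measure_Ioo_lt_top.ne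
  set B := 16 / P.cG * P.sK ^ 48
  refine (integral_mono_of_nonneg (g := (Ici s).indicator fun _ => B) ?_
    ((integrable_const B).indicator measurableSet_Ici) ?_).trans ?_
  · filter_upwards [ae_restrict_mem measurableSet_Ioo] with r hr
    have := sig_nonneg hr.1.le
    show 0 ≤ (if s ≤ r then 16 / P.cG * sig r ^ 48 else 0)
    split_ifs <;> positivity
  · filter_upwards [ae_restrict_mem measurableSet_Ioo] with r hr
    by_cases c : s ≤ r
    · rw [if_pos c, Set.indicator_of_mem (show r ∈ Ici s from c)]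
      have := sig_nonneg hr.1.le
      simp only [B]
      gcongr
      exact sig_le_sK hr.1.le (hr.2.le.trans htK)
    · rw [if_neg c, Set.indicator_of_notMem (by simpa using c)]
  · rw [integral_indicator_const _ measurableSet_Ici, measureReal_restrict_apply measurableSet_Ici,
      smul_eq_mul, mul_comm B]
    refine mul_le_mul_of_nonneg_right ?_ (by positivity)
    calc volume.real (Ici s ∩ Ioo 0 t) ≤ volume.real (Ico s t) :=
          measureReal_mono (fun r hr => ⟨hr.1, hr.2.2⟩) measure_Ico_lt_top.ne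
      _ = t - s := Real.volume_real_Ico_of_le hst

omit [Countable V] in
lemma cosh_le_exp_abs (x : ℝ) : Real.cosh x ≤ Real.exp |x| := by
  rw [Real.cosh_eq]
  linarith [Real.exp_le_exp.2 (le_abs_self x), Real.exp_le_exp.2 (neg_le_abs x)]

lemma reg_cosh (hθ : P.Below θ) (ht : t ∈ Icc (0:ℝ) P.K) (v : V) {l : ℝ} (hl : 0 ≤ l) :
    Reg P.G (fun D ω => Real.cosh (l * P.M θ t v D ω)) := by
  refine (reg_M hθ ht v).comp_lipschitz (f := fun x => Real.cosh (l * x)) (B := 1) (C := Real.exp l)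
    (L := Real.exp l * l) (measurable_const.mul measurable_id).cosh (by positivity)
    (Eventually.of_forall (fun D ω => abs_M_le hθ.1 t v D ω)) (fun x hx => ?_) (fun x y hx hy => ?_)
  · rw [abs_of_pos (Real.cosh_pos _)]
    refine (cosh_le_exp_abs _).trans (Real.exp_le_exp.2 ?_)
    rw [abs_mul, abs_of_nonneg hl]
    exact mul_le_of_le_one_right hl hx
  · have b1 : |l * x| ≤ l := by rw [abs_mul, abs_of_nonneg hl]; exact mul_le_of_le_one_right hl hx
    have b2 : |l * y| ≤ l := by rw [abs_mul, abs_of_nonneg hl]; exact mul_le_of_le_one_right hl hy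
    have c1 := abs_exp_sub_le b1 b2
    have c2 := abs_exp_sub_le (B := l) (x := -(l * x)) (y := -(l * y)) (by rwa [abs_neg]) (by rwa [abs_neg])
    rw [show -(l * x) - -(l * y) = -(l * x - l * y) by ring, abs_neg] at c2
    rw [Real.cosh_eq, Real.cosh_eq, show |l * x - l * y| = l * |x - y| by
      rw [← mul_sub, abs_mul, abs_of_nonneg hl]] at *
    obtain ⟨a1, a2⟩ := abs_le.1 c1
    obtain ⟨a3, a4⟩ := abs_le.1 c2
    rw [abs_le]
    constructor <;> linarith

variable (P) in
/-- exponential moments at the natural scale -/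
lemma exists_cosh_bound : ∃ C, 0 ≤ C ∧ ∀ θ : ℝ, P.Below θ → ∀ t : ℝ, 0 < t → t ≤ P.K → ∀ v,
    limI P.G (fun D ω => Real.cosh ((sig t ^ 16)⁻¹ * P.M θ t v D ω)) ≤ C := by
  have hA := P.cA_nonneg
  have hcG := P.cG_pos
  set c1 := P.cA * (64 / P.cG) with hc1
  have hsK := P.one_le_sK
  refine ⟨(1 + 6 * c1 * P.sK ^ 48) * Real.exp (c1 * (2 * P.sK ^ 32 + 2 * P.sK ^ 48)),
    by positivity, fun θ hθ t ht htK v => ?_⟩
  have := P.neBot
  set S := sig t
  have hS : 0 < S := sig_pos ht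
  have hSK : S ≤ P.sK := sig_le_sK ht.le htK
  have hS32 : S ^ 32 = t := by
    have := sig_pow_mul ht.le 1
    simpa using this
  set l := (S ^ 16)⁻¹ with hl
  have hl0 : 0 < l := by positivity
  have hlt : ∀ r, 0 ≤ r → r < t → l * str r ≤ 1 := by
    intro r hr hrt
    rw [hl, inv_mul_le_iff₀ (by positivity), mul_one]
    rcases le_or_gt t 1 with h1 | h1
    · have hS1 : S ≤ 1 := Real.rpow_le_one ht.le h1 (by norm_num)
      calc str r ≤ min 1 r := by
            unfold str; exact pow_le_of_le_one (le_min zero_le_one hr) (min_le_left _ _) two_ne_zero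
        _ ≤ t := (min_le_right _ _).trans hrt.le
        _ = S ^ 32 := hS32.symm
        _ ≤ S ^ 16 := pow_le_pow_of_le_one hS.le hS1 (by norm_num)
    · exact (str_mem hr).2.trans (one_le_pow₀ (Real.one_le_rpow h1.le (by norm_num)))
  set F : ℝ → ℝ := fun r => limI P.G (fun D ω => Real.cosh (l * P.M θ (P.clamp r) v D ω)) with hF
  have hrg : ∀ r ∈ Icc (0:ℝ) P.K, Reg P.G (fun D ω => Real.cosh (l * P.M θ r v D ω)) :=
    fun r hr => reg_cosh hθ hr v hl0.le
  have hFm : Measurable F := measurable_lim (F := fun r D ω => Real.cosh (l * P.M θ r v D ω))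
    (fun D => (measurable_const.mul (measurable_mT D v)).cosh) hrg
  have hF0 : ∀ r, 0 ≤ F r := fun r =>
    (hrg _ (P.clamp_mem r)).lim_nonneg (Eventually.of_forall (fun D ω => (Real.cosh_pos _).le))
  have hFM : ∀ r, F r ≤ Real.exp l := fun r => (hrg _ (P.clamp_mem r)).lim_le (fun δ hδ => by
    refine Eventually.of_forall (fun D => le_trans ?_ (le_add_of_nonneg_right hδ.le))
    have := integral_mono_of_nonneg (μ := PU ((V × ℕ) ⊕ (V × ℕ)))
      (ae_of_all _ (fun ω => (Real.cosh_pos (l * P.M θ (P.clamp r) v D ω)).le))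
      (integrable_const (Real.exp l)) (ae_of_all _ (fun ω => by
        refine (cosh_le_exp_abs _).trans (Real.exp_le_exp.2 ?_)
        rw [abs_mul, abs_of_pos hl0]
        exact mul_le_of_le_one_right hl0.le (abs_M_le hθ.1 _ v D ω)))
    rwa [integral_const, probReal_univ, one_smul] at this)
  set Λ := 2 * l + 2 with hΛ
  set f : ℝ → ℝ := fun r => if r ∈ Icc (0:ℝ) P.K then str r ^ 2 else 0 with hf
  have hfm : Measurable f := Measurable.ite measurableSet_Icc (measurable_str.pow_const 2) measurable_const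
  have hf0 : ∀ r, 0 ≤ f r := fun r => by simp only [hf]; split_ifs <;> positivity
  have hf1 : ∀ r, f r ≤ 1 := fun r => by
    simp only [hf]; split_ifs with c
    · exact pow_le_one₀ (str_mem c.1).1 (str_mem c.1).2
    · exact zero_le_one
  set k0 := 32 / P.cG * S ^ 48 with hk0
  have key : ∀ u ∈ Icc 0 t, F u ≤ (1 + 6 * c1 * S ^ 48) + (2 * l ^ 2 * P.cA * k0 * Λ)
      * ∫ r in Ioo 0 u, r ^ ((1:ℝ) - 1) * F r := by
    intro u hu
    have huK : u ∈ Icc (0:ℝ) P.K := ⟨hu.1, hu.2.trans htK⟩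
    simp only [sub_self, Real.rpow_zero, one_mul]
    have iF : IntegrableOn F (Ioo 0 u) :=
      Measure.integrableOn_of_bounded measure_Ioo_lt_top.ne hFm.aestronglyMeasurable (M := Real.exp l)
        (ae_of_all _ (fun r => by rw [Real.norm_eq_abs, abs_of_nonneg (hF0 r)]; exact hFM r))
    have iF2 : IntegrableOn (fun r => k0 * (Λ * F r + 6)) (Ioo 0 u) :=
      ((iF.const_mul Λ).add (integrableOn_const measure_Ioo_lt_top.ne)).const_mul k0
    have step : F u ≤ 1 + 2 * l ^ 2 * (P.cA * ∫ r in Ioo 0 u, k0 * (Λ * F r + 6)) := by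
      simp only [hF, P.clamp_eq huK]
      refine (hrg u huK).lim_le (fun δ hδ => ?_)
      set δ' := δ / (2 * l ^ 2) with hδ'
      have hle : ∀ r ∈ Ioo 0 u, ∀ R : ℕ, f r * ∑ n ∈ Finset.range R, ∑ w ∈ sph P.G P.fin v n,
          limI P.G (fun D ω => Real.cosh (l * P.M θ r v D ω) * P.Ct θ r v w D ω ^ 2)
            ≤ k0 * (Λ * F r + 6) := by
        intro r hr R
        have hrI : r ∈ Icc (0:ℝ) P.K := ⟨hr.1.le, hr.2.le.trans huK.2⟩
        have hsum : ∑ n ∈ Finset.range R, ∑ w ∈ sph P.G P.fin v n,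
            limI P.G (fun D ω => Real.cosh (l * P.M θ r v D ω) * P.Ct θ r v w D ω ^ 2)
              ≤ 32 / P.gam r * (Λ * F r + 6) := by
          have hX : ∀ᶠ D in vol P.G, ∀ ω, 0 ≤ Real.cosh (l * P.M θ r v D ω)
              ∧ Real.cosh (l * P.M θ r v D ω) ≤ Real.exp l :=
            Eventually.of_forall (fun D ω => ⟨(Real.cosh_pos _).le, (cosh_le_exp_abs _).trans
              (Real.exp_le_exp.2 (by
                rw [abs_mul, abs_of_pos hl0]
                exact mul_le_of_le_one_right hl0.le (abs_M_le hθ.1 r v D ω)))⟩)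
          have hsp : splitB Λ (Real.exp l) (limI P.G (fun D ω => Real.cosh (l * P.M θ r v D ω)))
              ≤ Λ * F r + 6 := by
            unfold splitB
            simp only [hF, P.clamp_eq hrI]
            have : Real.exp l * Real.exp 2 * Real.exp (-(Λ / 2)) = Real.exp 1 := by
              rw [← Real.exp_add, ← Real.exp_add, hΛ]; ring_nf
            linarith [Real.exp_one_lt_d9]
          refine (Finset.sum_le_sum (fun n _ => (Finset.sum_le_sum (fun w _ =>
            ((hrg r hrI).mul (reg_Ct hθ hrI v w).sq).lim_mono ((hrg r hrI).mul (reg_W hθ hrI v w).sq)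
              ((Ct_sq_le_W hθ.1 r v w).mono (fun D hD ω =>
                mul_le_mul_of_nonneg_left (hD ω) (Real.cosh_pos _).le)))).trans
            (sphere_decay hθ hr.1 hrI.2 (hrg r hrI) (show 1 ≤ Λ by linarith) hX v n))).trans ?_
          rw [← Finset.sum_mul, ← Finset.mul_sum]
          refine mul_le_mul ?_ hsp ?_ (div_nonneg (by norm_num) (gam_pos hr.1).le)
          · calc 4 * ∑ n ∈ Finset.range R, P.dec r n ≤ 4 * (8 / P.gam r) :=
                  mul_le_mul_of_nonneg_left (sum_dec_le hr.1 hrI.2 R) (by norm_num)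
              _ = _ := by ring
          · have := (hrg r hrI).lim_nonneg (Eventually.of_forall (fun D ω => (Real.cosh_pos _).le))
            unfold splitB
            positivity
        refine (mul_le_mul_of_nonneg_left hsum (hf0 r)).trans ?_
        rw [← mul_assoc]
        refine mul_le_mul_of_nonneg_right ?_ (by have := hF0 r; positivity)
        simp only [hf, if_pos hrI]
        refine (mul_le_mul_of_nonneg_right (str_sq_le hr.1.le)
          (div_nonneg (by norm_num) (gam_pos hr.1).le)).trans ?_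
        have hsr := sig_pos hr.1
        calc sig r ^ 128 * (32 / P.gam r) = 32 / P.cG * sig r ^ 48 := by rw [gam]; field_simp
          _ ≤ _ := by
              rw [hk0]; gcongr
              exact sig_mono hr.1.le (hr.2.le.trans hu.2)
      filter_upwards [budget (F := fun r w D ω => Real.cosh (l * P.M θ r v D ω) * P.Ct θ r v w D ω ^ 2)
        v huK (fun w D => ((measurable_const.mul (measurable_mT D v)).cosh).mul
          ((measurable_Ct hθ.1 v w D).pow_const 2))
        (fun _ _ _ _ => mul_nonneg (Real.cosh_pos _).le (sq_nonneg _)) (C := Real.exp l)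
        (pow_pos hθ.1.posθ 2) (hθ.1.sub hθ.2)
        (fun D hD hv r w ω => mul_le_mul ((cosh_le_exp_abs _).trans (Real.exp_le_exp.2 (by
            rw [abs_mul, abs_of_pos hl0]
            exact mul_le_of_le_one_right hl0.le (abs_M_le hθ.1 r v D ω))))
          (cT_sq_le hθ.1 hD hv w ω) (sq_nonneg _) (Real.exp_pos _).le)
        (fun D r w k ω y y' hy hy' => by
          rw [(cT_indep θ v w hy hy').1, (cT_indep θ v v hy hy').2])
        (fun r hr w => (hrg r ⟨hr.1.le, hr.2.le.trans huK.2⟩).mul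
          (reg_Ct hθ ⟨hr.1.le, hr.2.le.trans huK.2⟩ v w).sq) hfm hf0 hf1
        (h := fun r => k0 * (Λ * F r + 6)) iF2
        (measurable_const.mul ((measurable_const.mul hFm).add measurable_const))
        (fun r _ => by have := hF0 r; positivity) hle (show 0 < δ' by positivity),
        P.eventually_rch v 0] with D hD hv
      refine (cosh_le P.tree hθ.1.nonneg hθ.1.lt_one' hv.1 hv.2.mem hl0.le
        (fun r h1 h2 => hlt r h1 (lt_of_lt_of_le h2 hu.2))).trans ?_
      have e : ∀ i ∈ box P.K D, ∫ ω, (if tau ω i < u then 2 * l ^ 2 * str (tau ω i) ^ 2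
            * (Real.cosh (l * mT P.G θ P.K D (tau ω i) v ω) * cT P.G θ P.K D (tau ω i) v i.1 ω ^ 2)
            else 0) ∂PU _
          = 2 * l ^ 2 * ∫ ω, (if tau ω i < u then f (tau ω i)
            * (Real.cosh (l * P.M θ (tau ω i) v D ω) * P.Ct θ (tau ω i) v i.1 D ω ^ 2) else 0) ∂PU _ := by
        intro i _
        rw [← integral_const_mul]
        refine integral_congr_ae (ae_of_all _ (fun ω => ?_))
        by_cases c : tau ω i < u
        · have : tau ω i ∈ Icc (0:ℝ) P.K := ⟨tim_nonneg _ _, c.le.trans huK.2⟩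
          simp only [hf, if_pos c, if_pos this, M, Ct]
          ring
        · simp [c]
      rw [Finset.sum_congr rfl e, ← Finset.mul_sum]
      have := mul_le_mul_of_nonneg_left hD (show 0 ≤ 2 * l ^ 2 by positivity)
      have e2 : 2 * l ^ 2 * δ' = δ := by rw [hδ']; field_simp
      linarith
    refine step.trans ?_
    rw [integral_const_mul, integral_add (iF.const_mul Λ) (integrableOn_const measure_Ioo_lt_top.ne),
      integral_const_mul, setIntegral_const, smul_eq_mul, Real.volume_real_Ioo_of_le hu.1, sub_zero]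
    have e : 2 * l ^ 2 * (P.cA * (k0 * (u * 6))) ≤ 6 * c1 * S ^ 48 := by
      calc 2 * l ^ 2 * (P.cA * (k0 * (u * 6))) ≤ 2 * l ^ 2 * (P.cA * (k0 * (t * 6))) := by
            gcongr
            exact hu.2
        _ = _ := by rw [hk0, hl, hc1, ← hS32]; field_simp; ring
    linarith
  have hg := gronwall (β := 1) hFm (by positivity) (by positivity) one_pos (fun u _ => hF0 u)
    (fun u _ => hFM u) key (right_mem_Icc.2 ht.le)
  simp only [hF, P.clamp_eq ⟨ht.le, htK⟩] at hg
  refine hg.trans (mul_le_mul ?_ (Real.exp_le_exp.2 ?_) (Real.exp_pos _).le (by positivity))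
  · gcongr
  · rw [Real.rpow_one, div_one]
    calc 2 * l ^ 2 * P.cA * k0 * Λ * t = c1 * (2 * S ^ 32 + 2 * S ^ 48) := by
          rw [hΛ, hk0, hl, hc1, ← hS32]; field_simp; ring
      _ ≤ _ := by gcongr

end Env

end Vale.Agent.P161.Crit
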