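import Mathlib
import Vale.Agent.P161.Crit.Moments
import Vale.Agent.P161.Crit.Bsv

/-!
Sources of discrepancy between the limits at two parameters, sphere by sphere.
-/

open MeasureTheory Set Function Filter
open scoped Classical Topology

noncomputable section

namespace Vale.Agent.P161.Crit

variable {V : Type*}

lemma add_sq_le' (x y : ℝ) : (x + y) ^ 2 ≤ 2 * x ^ 2 + 2 * y ^ 2 := by nlinarith [sq_nonneg (x - y)]

/-- squares of differences of exponentials -/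
lemma sq_sub_exp_le {A B e S : ℝ} (he : 0 ≤ e) (h : |A - B| ≤ e + |S|) :
    (Real.exp A - Real.exp B) ^ 2
      ≤ 4 * (Real.exp A ^ 2 + Real.exp B ^ 2) * (Real.sqrt e + S ^ 2) := by
  have key : ∀ {a b : ℝ}, b ≤ a → Real.exp a - Real.exp b ≤ Real.exp a * min 1 (a - b) := by
    intro a b hab
    rw [mul_min_of_nonneg _ _ (Real.exp_pos a).le, mul_one, le_min_iff]
    refine ⟨by linarith [Real.exp_pos b], ?_⟩
    have h := Real.add_one_le_exp (b - a)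
    rw [Real.exp_sub, le_div_iff₀ (Real.exp_pos a)] at h
    linarith
  set m := min 1 |A - B|
  have hm0 : 0 ≤ m := le_min zero_le_one (abs_nonneg _)
  have h1 : |Real.exp A - Real.exp B| ≤ (Real.exp A + Real.exp B) * m := by
    rcases le_total B A with c | c
    · rw [abs_of_nonneg (sub_nonneg.2 (Real.exp_le_exp.2 c))]
      refine (key c).trans ?_
      have e1 : m = min 1 (A - B) := by simp only [m, abs_of_nonneg (sub_nonneg.2 c)]
      rw [← e1]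
      exact mul_le_mul_of_nonneg_right (by linarith [Real.exp_pos B]) hm0
    · rw [abs_sub_comm, abs_of_nonneg (sub_nonneg.2 (Real.exp_le_exp.2 c))]
      refine (key c).trans ?_
      have e1 : m = min 1 (B - A) := by simp only [m, abs_sub_comm A, abs_of_nonneg (sub_nonneg.2 c)]
      rw [← e1]
      exact mul_le_mul_of_nonneg_right (by linarith [Real.exp_pos A]) hm0
  have h2 : (Real.exp A + Real.exp B) ^ 2 ≤ 2 * (Real.exp A ^ 2 + Real.exp B ^ 2) :=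
    (add_sq_le' _ _).trans (le_of_eq (by ring))
  have h3 : m ^ 2 ≤ 2 * (Real.sqrt e + S ^ 2) := by
    have hm : m ≤ min 1 e + |S| := by
      have a1 : m ≤ 1 := min_le_left _ _
      have a2 : m ≤ e + |S| := (min_le_right _ _).trans h
      rcases le_total 1 e with c | c
      · rw [min_eq_left c]; linarith [abs_nonneg S]
      · rw [min_eq_right c]; exact a2
    refine (pow_le_pow_left₀ hm0 hm 2).trans ((add_sq_le' _ _).trans ?_)
    rw [sq_abs, mul_add]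
    refine add_le_add (mul_le_mul_of_nonneg_left ?_ zero_le_two) le_rfl
    rcases le_total 1 e with c | c
    · rw [min_eq_left c, one_pow]; exact Real.one_le_sqrt.2 c
    · rw [min_eq_right c]
      refine Real.le_sqrt_of_sq_le ?_
      rw [← pow_mul]
      exact pow_le_of_le_one he c (by norm_num)
  rw [← sq_abs]
  refine (pow_le_pow_left₀ (abs_nonneg _) h1 2).trans ?_
  rw [mul_pow]
  calc (Real.exp A + Real.exp B) ^ 2 * m ^ 2
      ≤ (2 * (Real.exp A ^ 2 + Real.exp B ^ 2)) * (2 * (Real.sqrt e + S ^ 2)) :=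
        mul_le_mul h2 h3 (sq_nonneg _) (by positivity)
    _ = _ := by ring

/-- the squared difference of two edge observables, in terms of the endpoint means -/
lemma sq_obs_le {f g x y x' y' L d T Y c1 c2 c3 c4 : ℝ} (hL : 0 ≤ L) (hd : 0 ≤ d) (hT : 0 ≤ T)
    (f0 : 0 ≤ f) (f1 : f ≤ L * (|x| + |y|) ^ 2) (g0 : 0 ≤ g) (g1 : g ≤ L * (|x'| + |y'|) ^ 2)
    (h : |f - g| ≤ L * ((|x - x'| + |y - y'|) * (|x| + |y| + |x'| + |y'|) + d))
    (hc : 0 ≤ c1 + c2 + c3 + c4)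
    (hQ : x ^ 2 + y ^ 2 + x' ^ 2 + y' ^ 2 ≤ 4 * Y + 2 * T * (c1 + c2 + c3 + c4))
    (bx : |x| ≤ 1) (by₁ : |y| ≤ 1) (bx' : |x'| ≤ 1) (by₂ : |y'| ≤ 1) :
    (f - g) ^ 2 ≤ 8 * L ^ 2 * (4 * Y) * ((x - x') ^ 2 + (y - y') ^ 2)
      + 8 * L ^ 2 * (16 * T) * (c1 + c2 + c3 + c4)
      + 2 * (L * d) * (2 * L) * (x ^ 2 + y ^ 2 + x' ^ 2 + y' ^ 2) := by
  set Q0 := x ^ 2 + y ^ 2 + x' ^ 2 + y' ^ 2 with hQ0
  set C0 := c1 + c2 + c3 + c4 with hC0
  set E0 := (x - x') ^ 2 + (y - y') ^ 2 with hE0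
  set A := L * ((|x - x'| + |y - y'|) * (|x| + |y| + |x'| + |y'|)) with hA
  have hd' : |f - g| ≤ A + L * d := by rw [hA, ← mul_add]; exact h
  clear_value Q0 C0 E0 A
  have s1 : (|x| + |y|) ^ 2 ≤ 2 * (x ^ 2 + y ^ 2) :=
    (add_sq_le' _ _).trans (le_of_eq (by rw [sq_abs, sq_abs]; ring))
  have s2 : (|x'| + |y'|) ^ 2 ≤ 2 * (x' ^ 2 + y' ^ 2) :=
    (add_sq_le' _ _).trans (le_of_eq (by rw [sq_abs, sq_abs]; ring))
  have hsm : |f - g| ≤ 2 * L * Q0 := by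
    have q1 := f1.trans (mul_le_mul_of_nonneg_left s1 hL)
    have q2 := g1.trans (mul_le_mul_of_nonneg_left s2 hL)
    have h3 := mul_nonneg hL (add_nonneg (sq_nonneg x) (sq_nonneg y))
    have h4 := mul_nonneg hL (add_nonneg (sq_nonneg x') (sq_nonneg y'))
    rw [abs_le, hQ0]
    constructor <;> linarith
  have hA2 : A ^ 2 ≤ L ^ 2 * (2 * E0) * (4 * Q0) := by
    rw [show A ^ 2 = L ^ 2 * (|x - x'| + |y - y'|) ^ 2 * (|x| + |y| + |x'| + |y'|) ^ 2 by rw [hA]; ring]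
    have q1 : (|x - x'| + |y - y'|) ^ 2 ≤ 2 * E0 :=
      (add_sq_le' _ _).trans (le_of_eq (by rw [sq_abs, sq_abs, hE0]; ring))
    have q2 : (|x| + |y| + |x'| + |y'|) ^ 2 ≤ 4 * Q0 := by
      rw [add_assoc (|x| + |y|)]
      refine (add_sq_le' _ _).trans ?_
      rw [hQ0]; linarith
    exact mul_le_mul (mul_le_mul_of_nonneg_left q1 (sq_nonneg L)) q2 (sq_nonneg _)
      (mul_nonneg (sq_nonneg L) ((sq_nonneg _).trans q1))
  have key : (f - g) ^ 2 ≤ A ^ 2 + 2 * (L * d) * |f - g| := by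
    have := mul_le_mul_of_nonneg_left hd' (abs_nonneg (f - g))
    nlinarith [sq_nonneg (|f - g| - A), sq_abs (f - g)]
  have hE : E0 ≤ 8 := by
    have e1 := (sq_le_one_iff_abs_le_one _).2 bx
    have e2 := (sq_le_one_iff_abs_le_one _).2 by₁
    have e3 := (sq_le_one_iff_abs_le_one _).2 bx'
    have e4 := (sq_le_one_iff_abs_le_one _).2 by₂
    rw [hE0]
    have a1 := add_sq_le' x (-x')
    have a2 := add_sq_le' y (-y')
    rw [neg_sq, ← sub_eq_add_neg] at a1 a2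
    linarith
  have k1 : E0 * Q0 ≤ 4 * Y * E0 + 16 * T * C0 := by
    have := mul_le_mul_of_nonneg_left hQ (show 0 ≤ E0 by rw [hE0]; positivity)
    have := mul_le_mul_of_nonneg_right hE (show 0 ≤ 2 * T * C0 by positivity)
    linarith
  have k2 := mul_le_mul_of_nonneg_left k1 (show 0 ≤ 8 * L ^ 2 by positivity)
  have k3 := mul_le_mul_of_nonneg_left hsm (show 0 ≤ 2 * (L * d) by positivity)
  linarith

namespace Env

variable (P : Env V)

/-- distance of the parameters on the logarithmic scale -/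
def eps' (θ θ' : ℝ) : ℝ := |θ - θ'| / P.θ0

lemma eps'_nonneg (θ θ' : ℝ) : 0 ≤ P.eps' θ θ' := div_nonneg (abs_nonneg _) P.pos.le

/-- mean squared discrepancy of the limiting means -/
def dist2 (θ θ' t : ℝ) (v : V) : ℝ :=
  limI P.G (fun D ω => (P.M θ t v D ω - P.M θ' t v D ω) ^ 2)

/-- discrepancy along a path -/
def dS (θ θ' t : ℝ) (n : ℕ) (p : ℕ → V) : Finset V → Om V → ℝ :=
  fun D ω => ∑ k ∈ Finset.range n, P.dPh θ θ' t (p k) (p (k + 1)) D ω

/-- source of discrepancy -/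
def Gp (θ θ' t : ℝ) (v u : V) : Finset V → Om V → ℝ :=
  fun D ω => gap P.G θ θ' P.K D D t v u ω

lemma sph_nonempty {P : Env V} (v : V) : ∀ n, (sph P.G P.fin v n).Nonempty := by
  intro n
  cases n with
  | zero => exact ⟨v, P.mem_sph.2 (by simp)⟩
  | succ m =>
    obtain ⟨y, hy⟩ : (nbs P.G v).Nonempty := by rw [← Finset.card_pos, card_nbs P.deg]; omega
    have ha := (mem_nbs P.deg).1 hy
    obtain ⟨u, hu⟩ : (fw P.G m v y).Nonempty := by
      rw [← Finset.card_pos, card_fw P.tree P.deg m v y ha]; exact pow_pos (by have := P.two_le; omega) m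
    exact ⟨u, P.mem_sph.2 ((sphere_eq_fw P.tree P.deg v m u).2 ⟨y, hy, hu⟩)⟩

lemma exists_path (a b : V) : ∃ p : ℕ → V, IsGeod P.G (P.G.dist a b) p ∧ p 0 = a ∧ p (P.G.dist a b) = b := by
  obtain ⟨n, hn⟩ : ∃ n, P.G.dist a b = n := ⟨_, rfl⟩
  rw [hn]
  cases n with
  | zero =>
    rw [P.tree.connected.dist_eq_zero_iff] at hn
    exact ⟨fun _ => a, ⟨fun i hi => absurd hi (by omega), by simp⟩, rfl, hn⟩
  | succ m =>
    obtain ⟨y, ha, hy⟩ := exists_toward P.tree (show a ≠ b by rintro rfl; simp at hn)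
    obtain ⟨p, h1, h2, -, h3⟩ := exists_geod_through P.tree ha m b
      (by rw [P.G.dist_comm]; omega) (by rw [P.G.dist_comm]; omega)
    exact ⟨p, h1, h2, h3⟩

variable {P}
variable {θ θ' t : ℝ}

lemma W_eq_exp (hθ : P.Adm θ) (t : ℝ) : ∀ {n : ℕ} {p : ℕ → V}, IsGeod P.G n p → ∀ {D : Finset V},
    Rch P.G (p 0) n D → ∀ ω, P.W θ t (p 0) (p n) D ω
      = Real.exp ((n : ℝ) * Real.log θ - ∑ k ∈ Finset.range n, P.Ph θ t (p k) (p (k + 1)) D ω) := by
  intro n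
  induction n with
  | zero =>
    intro p _ D hR ω
    simp [W, bw_self (K := P.K) (t := t) P.tree P.deg hθ.nonneg hθ.2 P.lt_one hR.mem]
  | succ n ih =>
    intro p hp D hR ω
    have hp' : IsGeod P.G n p :=
      ⟨fun i hi => hp.1 i (by omega), by rw [hp.dist_eq P.tree (Nat.zero_le _) (by omega)]; omega⟩
    have mem : ∀ i ≤ n + 1, p i ∈ D := fun i hi =>
      hR _ (by rw [hp.dist_eq P.tree (Nat.zero_le i) hi]; omega)
    have ha : P.G.Adj (p n) (p (n + 1)) := hp.1 n (by omega)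
    rw [W_split hθ t hp hR ω n (by omega), ih hp' (hR.mono (by omega)) ω, Finset.sum_range_succ]
    have hk : 0 < wv P.G θ P.K t D (p n) (p (n + 1)) (Smp P.G θ P.K D ω) :=
      lt_of_lt_of_le (kapK_pos P.θ1_nonneg P.lt_one P.q P.K) (kapK_le_wv (K := P.K) (t := t) P.deg
        hθ.nonneg hθ.2 P.lt_one (self_mem_side P.tree (mem _ le_rfl) ha.symm) _)
    have e : P.W θ t (p n) (p (n + 1)) D ω = Real.exp (Real.log θ - P.Ph θ t (p n) (p (n + 1)) D ω) := by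
      rw [Ph, phi, sub_neg_eq_add, Real.exp_add, Real.exp_log hθ.posθ, Real.exp_log hk, W,
        bw_edge P.tree P.deg hθ.nonneg hθ.2 P.lt_one (mem n (by omega)) (mem _ le_rfl) ha]
    rw [e, ← Real.exp_add]
    congr 1
    push_cast
    ring

lemma W_diff_sq (hθ : P.Adm θ) (hθ' : P.Adm θ') (t : ℝ) {n : ℕ} {p : ℕ → V} (hp : IsGeod P.G n p)
    {D : Finset V} (hR : Rch P.G (p 0) n D) (ω : Om V) :
    (P.W θ t (p 0) (p n) D ω - P.W θ' t (p 0) (p n) D ω) ^ 2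
      ≤ 4 * (P.W θ t (p 0) (p n) D ω ^ 2 + P.W θ' t (p 0) (p n) D ω ^ 2)
        * (Real.sqrt n * Real.sqrt (P.eps' θ θ') + P.dS θ θ' t n p D ω ^ 2) := by
  rw [W_eq_exp hθ t hp hR, W_eq_exp hθ' t hp hR, ← Real.sqrt_mul (Nat.cast_nonneg n)]
  refine sq_sub_exp_le (mul_nonneg (Nat.cast_nonneg n) (P.eps'_nonneg θ θ')) ?_
  have hl : |Real.log θ - Real.log θ'| ≤ P.eps' θ θ' := abs_log_sub_le P.pos hθ.1 hθ'.1
  simp only [dS, dPh, Finset.sum_sub_distrib]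
  set a := ∑ k ∈ Finset.range n, P.Ph θ t (p k) (p (k + 1)) D ω
  set b := ∑ k ∈ Finset.range n, P.Ph θ' t (p k) (p (k + 1)) D ω
  rw [show (n:ℝ) * Real.log θ - a - ((n:ℝ) * Real.log θ' - b)
    = (n:ℝ) * (Real.log θ - Real.log θ') + -(a - b) by ring]
  refine (abs_add_le _ _).trans ?_
  rw [abs_neg, abs_mul, Nat.abs_cast]
  gcongr

variable [Countable V]

lemma reg_dPh (hθ : P.Below θ) (hθ' : P.Below θ') (ht : t ∈ Icc (0:ℝ) P.K) {a b : V}
    (ha : P.G.Adj a b) : Reg P.G (P.dPh θ θ' t a b) :=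
  (reg_Ph hθ ht ha).sub (reg_Ph hθ' ht ha)

lemma reg_dS (hθ : P.Below θ) (hθ' : P.Below θ') (ht : t ∈ Icc (0:ℝ) P.K) {n : ℕ} {p : ℕ → V}
    (hp : IsGeod P.G n p) : Reg P.G (P.dS θ θ' t n p) :=
  Reg.sum _ (fun k hk => reg_dPh hθ hθ' ht (hp.1 k (Finset.mem_range.1 hk)))

omit [Countable V] in
lemma dPh_image (hθ : P.Adm θ) (hθ' : P.Adm θ') (t : ℝ) (g : P.G ≃g P.G) {a b : V} (ha : P.G.Adj a b) :
    ∀ᶠ D in vol P.G, ∀ ω, P.dPh θ θ' t (g a) (g b) (D.image g) (actO g ω) = P.dPh θ θ' t a b D ω := by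
  filter_upwards [Ph_image hθ t g ha, Ph_image hθ' t g ha] with D h h' ω
  simp only [dPh, h ω, h' ω]

lemma reg_Gp (hθ : P.Below θ) (hθ' : P.Below θ') (ht : t ∈ Icc (0:ℝ) P.K) (v u : V) :
    Reg P.G (P.Gp θ θ' t v u) :=
  (((reg_Ct hθ ht v u).sub (reg_Ct hθ' ht v u)).sq).add
    ((reg_Ct hθ' ht v u).sq.mul ((reg_M hθ ht u).sub (reg_M hθ' ht u)).sq)

omit [Countable V] in
lemma Gp_le (hθ : P.Adm θ) (hθ' : P.Adm θ') (t : ℝ) (v u : V) : ∀ᶠ D in vol P.G, ∀ ω,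
    P.Gp θ θ' t v u D ω ≤ 8 * ((P.M θ t v D ω - P.M θ' t v D ω) ^ 2 * P.W θ t v u D ω ^ 2)
      + 2 * (P.W θ t v u D ω - P.W θ' t v u D ω) ^ 2
      + (P.M θ t u D ω - P.M θ' t u D ω) ^ 2 * P.W θ' t v u D ω ^ 2 :=
  eventually_vol (E := {v, u}) (fun D _ h ω => by
    have hv : v ∈ D := h (by simp)
    have hu : u ∈ D := h (by simp)
    simp only [Gp, gap, M, W, cT_eq hθ hv hu, cT_eq hθ' hv hu]
    have a3 := (abs_le.1 (abs_mT_le (G := P.G) (K := P.K) hθ.nonneg hθ.lt_one' D t v ω))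
    have a4 := (abs_le.1 (abs_mT_le (G := P.G) (K := P.K) hθ'.nonneg hθ'.lt_one' D t v ω))
    set a := mT P.G θ P.K D t v ω
    set a' := mT P.G θ' P.K D t v ω
    set b := bw P.G θ P.K t D v u (Smp P.G θ P.K D ω)
    set b' := bw P.G θ' P.K t D v u (Smp P.G θ' P.K D ω)
    set d := mT P.G θ P.K D t u ω - mT P.G θ' P.K D t u ω
    have hvar : ((1 - a ^ 2) - (1 - a' ^ 2)) ^ 2 ≤ 4 * (a - a') ^ 2 := by
      have : (a + a') ^ 2 ≤ 4 := by nlinarith [sq_nonneg (a - a')]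
      calc ((1 - a ^ 2) - (1 - a' ^ 2)) ^ 2 = (a + a') ^ 2 * (a - a') ^ 2 := by ring
        _ ≤ _ := mul_le_mul_of_nonneg_right this (sq_nonneg _)
    have hv1 : (1 - a' ^ 2) ^ 2 ≤ 1 := by
      have : a' ^ 2 ≤ 1 := by nlinarith
      nlinarith [sq_nonneg a']
    rw [show (1 - a ^ 2) * b - (1 - a' ^ 2) * b'
        = ((1 - a ^ 2) - (1 - a' ^ 2)) * b + (1 - a' ^ 2) * (b - b') by ring]
    refine (add_le_add_left (add_sq_le' _ _) _).trans ?_
    rw [mul_pow, mul_pow, mul_pow]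
    have q1 := mul_le_mul_of_nonneg_right hvar (sq_nonneg b)
    have q2 := mul_le_mul_of_nonneg_right hv1 (sq_nonneg (b - b'))
    have q3 := mul_le_mul_of_nonneg_right hv1 (mul_nonneg (sq_nonneg b') (sq_nonneg d))
    linarith)

lemma dist2_eq (hθ : P.Below θ) (hθ' : P.Below θ') (ht : t ∈ Icc (0:ℝ) P.K) (u v : V) :
    P.dist2 θ θ' t u = P.dist2 θ θ' t v := by
  have := P.neBot
  obtain ⟨g, gv, -⟩ := P.exists_iso_pair (a := v) (b := v) (a' := u) (b' := u) (by simp)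
  refine Reg.lim_image P.tree g ((reg_M hθ ht v).sub (reg_M hθ' ht v)).sq
    ((reg_M hθ ht u).sub (reg_M hθ' ht u)).sq (Eventually.of_forall (fun D ω => ?_))
  rw [← gv]
  simp only [M_image]

lemma dist2_nonneg (hθ : P.Below θ) (hθ' : P.Below θ') (ht : t ∈ Icc (0:ℝ) P.K) (v : V) :
    0 ≤ P.dist2 θ θ' t v := by
  have := P.neBot
  exact ((reg_M hθ ht v).sub (reg_M hθ' ht v)).sq.lim_nonneg
    (Eventually.of_forall (fun D ω => sq_nonneg _))

omit [Countable V] in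
lemma sq_M_diff_le (hθ : P.Adm θ) (hθ' : P.Adm θ') (t : ℝ) (v : V) (D : Finset V) (ω : Om V) :
    (P.M θ t v D ω - P.M θ' t v D ω) ^ 2 ≤ 4 := by
  obtain ⟨a, a'⟩ := abs_le.1 (abs_M_le hθ t v D ω)
  obtain ⟨b, b'⟩ := abs_le.1 (abs_M_le hθ' t v D ω)
  nlinarith [sq_nonneg (P.M θ t v D ω + P.M θ' t v D ω)]

/-- one sphere, reduced to influences weighted by observables of the centre and of paths -/
lemma sphere_gap_le (hθ : P.Below θ) (hθ' : P.Below θ') (ht : t ∈ Icc (0:ℝ) P.K) (v : V) (n : ℕ)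
    {BA BA' BT BT' BU BU' : ℝ}
    (hA : ∑ u ∈ sph P.G P.fin v n, limI P.G (fun D ω =>
      (P.M θ t v D ω - P.M θ' t v D ω) ^ 2 * P.W θ t v u D ω ^ 2) ≤ BA)
    (hA' : ∑ u ∈ sph P.G P.fin v n, limI P.G (fun D ω =>
      (P.M θ t v D ω - P.M θ' t v D ω) ^ 2 * P.W θ' t v u D ω ^ 2) ≤ BA')
    (hT : ∑ u ∈ sph P.G P.fin v n, limI P.G (fun D ω => P.W θ t v u D ω ^ 2) ≤ BT)
    (hT' : ∑ u ∈ sph P.G P.fin v n, limI P.G (fun D ω => P.W θ' t v u D ω ^ 2) ≤ BT')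
    (hU : ∀ p, IsGeod P.G n p → p 0 = v → (2 * (P.q : ℝ) ^ n) *
      limI P.G (fun D ω => P.dS θ θ' t n p D ω ^ 2 * P.W θ t v (p n) D ω ^ 2) ≤ BU)
    (hU' : ∀ p, IsGeod P.G n p → p 0 = v → (2 * (P.q : ℝ) ^ n) *
      limI P.G (fun D ω => P.dS θ θ' t n p D ω ^ 2 * P.W θ' t v (p n) D ω ^ 2) ≤ BU') :
    ∑ u ∈ sph P.G P.fin v n, limI P.G (P.Gp θ θ' t v u)
      ≤ 8 * BA + 1 / kapK P.q P.K P.θ1 ^ 2 * BA'
        + 8 * (Real.sqrt n * Real.sqrt (P.eps' θ θ')) * (BT + BT') + 8 * (BU + BU') := by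
  have := P.neBot
  set Δ : V → Finset V → Om V → ℝ := fun u D ω => (P.M θ t u D ω - P.M θ' t u D ω) ^ 2 with hΔ
  have rΔ : ∀ u, Reg P.G (Δ u) := fun u => ((reg_M hθ ht u).sub (reg_M hθ' ht u)).sq
  set k2 := 1 / kapK P.q P.K P.θ1 ^ 2
  have hk2 : 0 ≤ k2 := by positivity
  set se := Real.sqrt n * Real.sqrt (P.eps' θ θ')
  have hse : 0 ≤ se := by positivity
  choose p hp p0 pn using fun u => P.exists_path v u
  have hpu : ∀ u ∈ sph P.G P.fin v n, IsGeod P.G n (p u) ∧ p u n = u := fun u hu => by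
    rw [← P.mem_sph.1 hu]; exact ⟨hp u, pn u⟩
  set w : V → Finset V → Om V → ℝ := fun u D ω => P.W θ t v u D ω ^ 2
  set w' : V → Finset V → Om V → ℝ := fun u D ω => P.W θ' t v u D ω ^ 2
  have rw1 : ∀ u, Reg P.G (w u) := fun u => (reg_W hθ ht v u).sq
  have rw2 : ∀ u, Reg P.G (w' u) := fun u => (reg_W hθ' ht v u).sq
  set S2 : V → Finset V → Om V → ℝ := fun u D ω => P.dS θ θ' t n (p u) D ω ^ 2
  have one : ∀ u ∈ sph P.G P.fin v n, limI P.G (P.Gp θ θ' t v u)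
      ≤ 8 * limI P.G (fun D ω => Δ v D ω * w u D ω) + k2 * limI P.G (fun D ω => Δ v D ω * w' u D ω)
        + 8 * se * (limI P.G (w u) + limI P.G (w' u))
        + 8 * (limI P.G (fun D ω => S2 u D ω * w u D ω) + limI P.G (fun D ω => S2 u D ω * w' u D ω)) := by
    intro u hu
    obtain ⟨hgu, hun⟩ := hpu u hu
    have rS : Reg P.G (S2 u) := (reg_dS hθ hθ' ht hgu).sq
    have hswap : limI P.G (fun D ω => Δ u D ω * w' u D ω)
        ≤ k2 * limI P.G (fun D ω => Δ v D ω * w' u D ω) :=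
      swap_le hθ' ht rΔ (fun g a => Eventually.of_forall (fun D ω => by simp only [hΔ, M_image]))
        (fun a => Eventually.of_forall (fun D ω => sq_nonneg _)) v u
    have rA := ((Reg.const 8).mul ((rΔ v).mul (rw1 u)))
    have rB := ((rΔ u).mul (rw2 u))
    have rC := (Reg.const (8 * se)).mul ((rw1 u).add (rw2 u))
    have rE := (Reg.const 8).mul ((rS.mul (rw1 u)).add (rS.mul (rw2 u)))
    refine ((reg_Gp hθ hθ' ht v u).lim_mono (((rA.add rB).add rC).add rE) ?_).trans ?_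
    · filter_upwards [Gp_le hθ.1 hθ'.1 t v u, P.eventually_rch v n] with D hD hR ω
      refine (hD ω).trans ?_
      have h2 := W_diff_sq hθ.1 hθ'.1 t hgu (D := D) (by rw [p0]; exact hR.2) ω
      rw [p0, hun] at h2
      simp only [Δ, w, w', S2]
      linarith
    · rw [((rA.add rB).add rC).lim_add rE, (rA.add rB).lim_add rC, rA.lim_add rB,
        ((rΔ v).mul (rw1 u)).lim_const_mul, ((rw1 u).add (rw2 u)).lim_const_mul,
        ((rS.mul (rw1 u)).add (rS.mul (rw2 u))).lim_const_mul, (rw1 u).lim_add (rw2 u),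
        (rS.mul (rw1 u)).lim_add (rS.mul (rw2 u))]
      linarith
  refine (Finset.sum_le_sum one).trans ?_
  simp only [Finset.sum_add_distrib, ← Finset.mul_sum]
  have card : ∀ {W : V → Finset V → Om V → ℝ} {B : ℝ},
      (∀ u ∈ sph P.G P.fin v n, 0 ≤ limI P.G (W u)) →
      (∀ u ∈ sph P.G P.fin v n, (2 * (P.q : ℝ) ^ n) * limI P.G (W u) ≤ B) →
      ∑ u ∈ sph P.G P.fin v n, limI P.G (W u) ≤ B := by
    intro W B h0 hB
    have hq : (0:ℝ) < 2 * (P.q : ℝ) ^ n := by have := P.two_le; positivity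
    obtain ⟨u, hu⟩ := sph_nonempty (P := P) v n
    have c : 0 ≤ B := (mul_nonneg hq.le (h0 u hu)).trans (hB u hu)
    refine (Finset.sum_le_card_nsmul _ _ (B / (2 * (P.q : ℝ) ^ n)) (fun u hu => ?_)).trans ?_
    · rw [le_div_iff₀ hq, mul_comm]; exact hB u hu
    · rw [nsmul_eq_mul]
      exact (mul_le_mul_of_nonneg_right (P.card_sph_le v n) (div_nonneg c hq.le)).trans
        (le_of_eq (mul_div_cancel₀ _ hq.ne'))
  have u1 : ∑ u ∈ sph P.G P.fin v n, limI P.G (fun D ω => S2 u D ω * w u D ω) ≤ BU := card (fun u hu => Reg.lim_nonneg ((reg_dS hθ hθ' ht (hpu u hu).1).sq.mul (rw1 u))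
      (Eventually.of_forall (fun _ _ => mul_nonneg (sq_nonneg _) (sq_nonneg _)))) (fun u hu => by
    obtain ⟨hgu, hun⟩ := hpu u hu
    have := hU _ hgu (p0 u)
    rw [hun] at this
    exact this)
  have u2 : ∑ u ∈ sph P.G P.fin v n, limI P.G (fun D ω => S2 u D ω * w' u D ω) ≤ BU' := card (fun u hu => Reg.lim_nonneg ((reg_dS hθ hθ' ht (hpu u hu).1).sq.mul (rw2 u))
      (Eventually.of_forall (fun _ _ => mul_nonneg (sq_nonneg _) (sq_nonneg _)))) (fun u hu => by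
    obtain ⟨hgu, hun⟩ := hpu u hu
    have := hU' _ hgu (p0 u)
    rw [hun] at this
    exact this)
  have t1 := mul_le_mul_of_nonneg_left (add_le_add hT hT') (show 0 ≤ 8 * se by positivity)
  have t2 := mul_le_mul_of_nonneg_left hA' hk2
  linarith

/-- near spheres -/
lemma sphere_gap_near (hθ : P.Below θ) (hθ' : P.Below θ') (ht : t ∈ Icc (0:ℝ) P.K) (v : V) (n : ℕ)
    {BS : ℝ} (hS : ∀ p, IsGeod P.G n p → limI P.G (fun D ω => P.dS θ θ' t n p D ω ^ 2) ≤ BS) :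
    ∑ u ∈ sph P.G P.fin v n, limI P.G (P.Gp θ θ' t v u)
      ≤ (16 + 2 / kapK P.q P.K P.θ1 ^ 2) * P.dist2 θ θ' t v
        + 32 * (Real.sqrt n * Real.sqrt (P.eps' θ θ')) + 32 * BS := by
  have := P.neBot
  have crudeT : ∀ {θ}, P.Below θ →
      ∑ u ∈ sph P.G P.fin v n, limI P.G (fun D ω => P.W θ t v u D ω ^ 2) ≤ 2 := by
    intro θ hθ
    have h := sphere_crude_lim hθ ht (X := fun _ _ => (1:ℝ)) (Reg.const 1)
      (Eventually.of_forall (fun _ _ => zero_le_one)) v n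
    simpa [Reg.lim_const] using h
  have hpath : ∀ {θ₂}, P.Below θ₂ → ∀ p, IsGeod P.G n p → p 0 = v → (2 * (P.q : ℝ) ^ n) *
      limI P.G (fun D ω => P.dS θ θ' t n p D ω ^ 2 * P.W θ₂ t v (p n) D ω ^ 2) ≤ 2 * BS := by
    intro θ₂ h2 p hp hp0
    have rS := (reg_dS hθ hθ' ht hp).sq
    have h := (reg_XW h2 ht rS v (p n)).lim_mono ((Reg.const ((θ₂ ^ 2) ^ n)).mul rS) (by
      filter_upwards [P.eventually_rch v n] with D hR ω
      rw [mul_comm]
      refine mul_le_mul_of_nonneg_right ?_ (sq_nonneg _)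
      rw [← sq_abs, ← pow_mul, mul_comm 2, pow_mul]
      exact pow_le_pow_left₀ (abs_nonneg _) (abs_bw_le h2.1 _ n v (p n) (by rw [← hp0]; exact hp.2) hR.2) 2)
    rw [rS.lim_const_mul] at h
    have h0 : 0 ≤ limI P.G (fun D ω => P.dS θ θ' t n p D ω ^ 2) :=
      rS.lim_nonneg (Eventually.of_forall (fun _ _ => sq_nonneg _))
    calc _ ≤ (2 * (P.q : ℝ) ^ n) * ((θ₂ ^ 2) ^ n * limI P.G (fun D ω => P.dS θ θ' t n p D ω ^ 2)) :=
          mul_le_mul_of_nonneg_left h (by positivity)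
      _ = 2 * (((P.q : ℝ) * θ₂ ^ 2) ^ n * limI P.G (fun D ω => P.dS θ θ' t n p D ω ^ 2)) := by ring
      _ ≤ 2 * (1 * BS) := mul_le_mul_of_nonneg_left (mul_le_mul (pow_le_one₀ (by positivity) h2.1.crit')
          (hS p hp) h0 zero_le_one) (by norm_num)
      _ = _ := by ring
  have rΔ := ((reg_M hθ ht v).sub (reg_M hθ' ht v)).sq
  refine (sphere_gap_le hθ hθ' ht v n
    (sphere_crude_lim hθ ht rΔ (Eventually.of_forall (fun _ _ => sq_nonneg _)) v n)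
    (sphere_crude_lim hθ' ht rΔ (Eventually.of_forall (fun _ _ => sq_nonneg _)) v n)
    (crudeT hθ) (crudeT hθ') (hpath hθ) (hpath hθ')).trans (le_of_eq ?_)
  unfold dist2
  ring

/-- far spheres -/
lemma sphere_gap_far (hθ : P.Below θ) (hθ' : P.Below θ') (ht : 0 < t) (htK : t ≤ P.K) (v : V) (n : ℕ)
    {Λ V0 : ℝ} (hΛ : 1 ≤ Λ)
    (hV : ∀ a b, P.G.Adj a b → limI P.G (fun D ω => P.dPh θ θ' t a b D ω ^ 2) = V0) :
    ∑ u ∈ sph P.G P.fin v n, limI P.G (P.Gp θ θ' t v u)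
      ≤ (32 + 4 / kapK P.q P.K P.θ1 ^ 2) * (P.dec t n * splitB Λ 4 (P.dist2 θ θ' t v))
        + 32 * (Real.sqrt n * Real.sqrt (P.eps' θ θ')) * P.dec t n
        + 64 / kapK P.q P.K P.θ1 ^ 2 * (n : ℝ) ^ 2
          * (P.dec t n * splitB Λ (4 / kapK P.q P.K P.θ1 ^ 2) V0) := by
  have := P.neBot
  have htI : t ∈ Icc (0:ℝ) P.K := ⟨ht.le, htK⟩
  have hk := kapK_pos P.θ1_nonneg P.lt_one P.q P.K
  have hH : ∀ a b, P.G.Adj a b → ∀ᶠ D in vol P.G, ∀ ω,
      0 ≤ P.dPh θ θ' t a b D ω ^ 2 ∧ P.dPh θ θ' t a b D ω ^ 2 ≤ 4 / kapK P.q P.K P.θ1 ^ 2 := fun a b ha =>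
    eventually_vol (E := {a, b}) (fun D _ h ω => by
      refine ⟨sq_nonneg _, ?_⟩
      have hb : b ∈ D := h (by simp)
      obtain ⟨x0, x1⟩ := abs_phi_le (K := P.K) (t := t) P.tree P.deg hθ.1.nonneg hθ.1.2 P.lt_one hb ha
        (Smp P.G θ P.K D ω)
      obtain ⟨y0, y1⟩ := abs_phi_le (K := P.K) (t := t) P.tree P.deg hθ'.1.nonneg hθ'.1.2 P.lt_one hb ha
        (Smp P.G θ' P.K D ω)
      rw [show (4:ℝ) / kapK P.q P.K P.θ1 ^ 2 = (2 * (1 / kapK P.q P.K P.θ1)) ^ 2 by ring, ← sq_abs]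
      refine pow_le_pow_left₀ (abs_nonneg _) ?_ 2
      simp only [dPh, Ph]
      rw [abs_le]
      constructor <;> linarith)
  have hpath : ∀ {θ₂}, P.Below θ₂ → ∀ p, IsGeod P.G n p → p 0 = v → (2 * (P.q : ℝ) ^ n) *
      limI P.G (fun D ω => P.dS θ θ' t n p D ω ^ 2 * P.W θ₂ t v (p n) D ω ^ 2)
      ≤ 4 / kapK P.q P.K P.θ1 ^ 2 * (n : ℝ) ^ 2 * (P.dec t n * splitB Λ (4 / kapK P.q P.K P.θ1 ^ 2) V0) := by
    intro θ₂ h2 p hp hp0
    subst hp0
    have rk : ∀ k ∈ Finset.range n, Reg P.G (fun D ω =>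
        P.dPh θ θ' t (p k) (p (k + 1)) D ω ^ 2 * P.W θ₂ t (p 0) (p n) D ω ^ 2) := fun k hk =>
      reg_XW h2 htI (reg_dPh hθ hθ' htI (hp.1 k (Finset.mem_range.1 hk))).sq (p 0) (p n)
    have h := (reg_XW h2 htI (reg_dS hθ hθ' htI hp).sq (p 0) (p n)).lim_mono
      ((Reg.const (n : ℝ)).mul (Reg.sum _ rk)) (Eventually.of_forall (fun D ω => by
        rw [← Finset.sum_mul, ← mul_assoc]
        refine mul_le_mul_of_nonneg_right ?_ (sq_nonneg _)
        have := sq_sum_le_card_mul_sum_sq (s := Finset.range n)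
          (f := fun k => P.dPh θ θ' t (p k) (p (k + 1)) D ω)
        simpa [dS] using this))
    rw [(Reg.sum _ rk).lim_const_mul, Reg.lim_sum _ rk] at h
    refine (mul_le_mul_of_nonneg_left h (by positivity)).trans ?_
    calc 2 * (P.q : ℝ) ^ n * ((n : ℝ) * ∑ k ∈ Finset.range n, limI P.G (fun D ω =>
          P.dPh θ θ' t (p k) (p (k + 1)) D ω ^ 2 * P.W θ₂ t (p 0) (p n) D ω ^ 2))
        = 2 * (n : ℝ) * ∑ k ∈ Finset.range n, (P.q : ℝ) ^ n * limI P.G (fun D ω =>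
          P.dPh θ θ' t (p k) (p (k + 1)) D ω ^ 2 * P.W θ₂ t (p 0) (p n) D ω ^ 2) := by
          rw [Finset.mul_sum, Finset.mul_sum, Finset.mul_sum]
          exact Finset.sum_congr rfl (fun k _ => by ring)
      _ ≤ 2 * (n : ℝ) * ∑ _k ∈ Finset.range n, (2 / kapK P.q P.K P.θ1 ^ 2 * P.dec t n
            * splitB Λ (4 / kapK P.q P.K P.θ1 ^ 2) V0) := by
          refine mul_le_mul_of_nonneg_left (Finset.sum_le_sum (fun k hk => ?_)) (by positivity)
          exact path_decay h2 ht htK (H := fun a b D ω => P.dPh θ θ' t a b D ω ^ 2)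
            (fun a b h => (reg_dPh hθ hθ' htI h).sq)
            (fun g a b h => (dPh_image hθ.1 hθ'.1 t g h).mono (fun D hD ω => by rw [hD ω]))
            hΛ hH hV hp (Finset.mem_range.1 hk)
      _ = _ := by rw [Finset.sum_const, Finset.card_range, nsmul_eq_mul]; ring
  have rΔ := ((reg_M hθ htI v).sub (reg_M hθ' htI v)).sq
  have h04 : ∀ᶠ D in vol P.G, ∀ ω, 0 ≤ (P.M θ t v D ω - P.M θ' t v D ω) ^ 2
      ∧ (P.M θ t v D ω - P.M θ' t v D ω) ^ 2 ≤ 4 :=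
    Eventually.of_forall (fun D ω => ⟨sq_nonneg _, sq_M_diff_le hθ.1 hθ'.1 t v D ω⟩)
  refine (sphere_gap_le hθ hθ' htI v n (sphere_decay hθ ht htK rΔ hΛ h04 v n)
    (sphere_decay hθ' ht htK rΔ hΛ h04 v n) (sphere_mean hθ ht htK v n) (sphere_mean hθ' ht htK v n)
    (hpath hθ) (hpath hθ')).trans (le_of_eq ?_)
  unfold dist2
  ring

variable (P) in
/-- second moments of the edge observables -/
lemma exists_V_bound : ∃ C, 0 ≤ C ∧ ∀ θ θ' : ℝ, P.Below θ → P.Below θ' → ∀ t : ℝ, 0 < t → t ≤ P.K →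
    ∀ a b : V, P.G.Adj a b → ∀ Y : ℝ, 0 ≤ Y → ∀ v,
      limI P.G (fun D ω => P.dPh θ θ' t a b D ω ^ 2)
        ≤ C * (Y * P.dist2 θ θ' t v + Real.exp (-(Y ^ 2 / sig t ^ 16)) + P.eps' θ θ' * sig t ^ 80) := by
  obtain ⟨CF, hCF0, hCF⟩ := P.exists_cosh_bound
  set L := lipC P.q P.K P.θ0 P.θ1
  have hL : 0 ≤ L := lipC_nonneg P.pos P.le P.lt_one _ _
  set Cq := P.cA * (7 / P.cG)
  have hcG := P.cG_pos
  have hA := P.cA_nonneg
  refine ⟨64 * L ^ 2 + 512 * L ^ 2 * CF + 16 * L * L * P.θ0 * Cq, by have := P.pos; positivity,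
    fun θ θ' hθ hθ' t ht htK a b hab Y hY v => ?_⟩
  have := P.neBot
  have htI : t ∈ Icc (0:ℝ) P.K := ⟨ht.le, htK⟩
  set S := sig t
  have hS : 0 < S := sig_pos ht
  set l := (S ^ 16)⁻¹ with hl
  have hl0 : 0 < l := by positivity
  set T := Real.exp (-(l * Y ^ 2))
  set Q : Finset V → Om V → ℝ := fun D ω => P.M θ t a D ω ^ 2 + P.M θ t b D ω ^ 2
      + P.M θ' t a D ω ^ 2 + P.M θ' t b D ω ^ 2
  set Cs : Finset V → Om V → ℝ := fun D ω => Real.cosh (l * P.M θ t a D ω)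
      + Real.cosh (l * P.M θ t b D ω) + Real.cosh (l * P.M θ' t a D ω) + Real.cosh (l * P.M θ' t b D ω)
  set E : Finset V → Om V → ℝ := fun D ω =>
      (P.M θ t a D ω - P.M θ' t a D ω) ^ 2 + (P.M θ t b D ω - P.M θ' t b D ω) ^ 2
  have rQ : Reg P.G Q :=
    (((reg_M hθ htI a).sq.add (reg_M hθ htI b).sq).add (reg_M hθ' htI a).sq).add (reg_M hθ' htI b).sq
  have rC : Reg P.G Cs := (((reg_cosh hθ htI a hl0.le).add (reg_cosh hθ htI b hl0.le)).add
    (reg_cosh hθ' htI a hl0.le)).add (reg_cosh hθ' htI b hl0.le)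
  have rE : Reg P.G E := ((reg_M hθ htI a).sub (reg_M hθ' htI a)).sq.add
    ((reg_M hθ htI b).sub (reg_M hθ' htI b)).sq
  set c1 := 8 * L ^ 2 * (4 * Y)
  set c2 := 8 * L ^ 2 * (16 * T)
  set c3 := 2 * (L * |θ - θ'|) * (2 * L)
  have sq_le : ∀ m : ℝ, |m| ≤ 1 → m ^ 2 ≤ Y + 2 * T * Real.cosh (l * m) := by
    intro m hm
    have hm2 : m ^ 2 ≤ |m| := by
      rw [← sq_abs]; exact pow_le_of_le_one (abs_nonneg m) hm two_ne_zero
    have hp : 0 ≤ 2 * T * Real.cosh (l * m) := by positivity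
    rcases le_or_gt |m| (Y ^ 2) with c | c
    · rcases le_total 1 Y with d | d
      · linarith
      · have : Y ^ 2 ≤ Y := pow_le_of_le_one hY d two_ne_zero
        linarith
    · have h1 : 1 ≤ 2 * T * Real.cosh (l * m) := by
        have hc := mul_le_mul_of_nonneg_left c.le hl0.le
        have e : Real.exp (l * |m|) ≤ 2 * Real.cosh (l * m) := by
          rw [← Real.cosh_abs (l * m), abs_mul, abs_of_pos hl0, Real.cosh_eq]
          linarith [Real.exp_pos (-(l * |m|))]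
        have e2 : 1 ≤ T * Real.exp (l * |m|) := by
          rw [← Real.exp_add]; exact Real.one_le_exp (by linarith)
        calc (1:ℝ) ≤ T * Real.exp (l * |m|) := e2
          _ ≤ T * (2 * Real.cosh (l * m)) := mul_le_mul_of_nonneg_left e (Real.exp_pos _).le
          _ = _ := by ring
      linarith
  have pt : ∀ᶠ D in vol P.G, ∀ ω,
      P.dPh θ θ' t a b D ω ^ 2 ≤ c1 * E D ω + c2 * Cs D ω + c3 * Q D ω := by
    refine eventually_vol (E := {a, b}) (fun D _ h ω => ?_)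
    have ha : a ∈ D := h (by simp)
    have hb : b ∈ D := h (by simp)
    have hd := phi_diff (K := P.K) (t := t) (t' := t) P.tree P.deg P.pos hθ.1.1 hθ.1.2 hθ'.1.1 hθ'.1.2
      P.lt_one ha hb ha hb hab (Smp P.G θ P.K D ω) (Smp P.G θ' P.K D ω)
    obtain ⟨f0, -⟩ := abs_phi_le (K := P.K) (t := t) P.tree P.deg hθ.1.nonneg hθ.1.2 P.lt_one hb hab
      (Smp P.G θ P.K D ω)
    obtain ⟨g0, -⟩ := abs_phi_le (K := P.K) (t := t) P.tree P.deg hθ'.1.nonneg hθ'.1.2 P.lt_one hb hab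
      (Smp P.G θ' P.K D ω)
    have f1 := phi_small (K := P.K) (t := t) P.tree P.deg P.pos hθ.1.1 hθ.1.2 P.lt_one ha hb hab
      (Smp P.G θ P.K D ω)
    have g1 := phi_small (K := P.K) (t := t) P.tree P.deg P.pos hθ'.1.1 hθ'.1.2 P.lt_one ha hb hab
      (Smp P.G θ' P.K D ω)
    have bx := abs_M_le hθ.1 t a D ω
    have by₁ := abs_M_le hθ.1 t b D ω
    have bx' := abs_M_le hθ'.1 t a D ω
    have by₂ := abs_M_le hθ'.1 t b D ω
    refine sq_obs_le (f := P.Ph θ t a b D ω) (g := P.Ph θ' t a b D ω) hL (abs_nonneg _) (Real.exp_pos _).le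
      f0 f1 g0 g1 hd (by positivity) ?_ bx by₁ bx' by₂
    linarith [sq_le _ bx, sq_le _ by₁, sq_le _ bx', sq_le _ by₂]
  have rr := (((Reg.const c1).mul rE).add ((Reg.const c2).mul rC)).add ((Reg.const c3).mul rQ)
  refine (((reg_dPh hθ hθ' htI hab).sq).lim_mono rr pt).trans ?_
  rw [(((Reg.const c1).mul rE).add ((Reg.const c2).mul rC)).lim_add ((Reg.const c3).mul rQ),
    ((Reg.const c1).mul rE).lim_add ((Reg.const c2).mul rC), rE.lim_const_mul, rC.lim_const_mul,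
    rQ.lim_const_mul]
  have eE : limI P.G E = 2 * P.dist2 θ θ' t v := by
    rw [((reg_M hθ htI a).sub (reg_M hθ' htI a)).sq.lim_add ((reg_M hθ htI b).sub (reg_M hθ' htI b)).sq]
    have h1 := dist2_eq hθ hθ' htI a v
    have h2 := dist2_eq hθ hθ' htI b v
    unfold dist2 at h1 h2 ⊢
    rw [h1, h2]; ring
  have eC : limI P.G Cs ≤ 4 * CF := by
    rw [(((reg_cosh hθ htI a hl0.le).add (reg_cosh hθ htI b hl0.le)).add
      (reg_cosh hθ' htI a hl0.le)).lim_add (reg_cosh hθ' htI b hl0.le),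
      ((reg_cosh hθ htI a hl0.le).add (reg_cosh hθ htI b hl0.le)).lim_add (reg_cosh hθ' htI a hl0.le),
      (reg_cosh hθ htI a hl0.le).lim_add (reg_cosh hθ htI b hl0.le)]
    linarith [hCF θ hθ t ht htK a, hCF θ hθ t ht htK b, hCF θ' hθ' t ht htK a, hCF θ' hθ' t ht htK b]
  have eQ : limI P.G Q ≤ 4 * (Cq * S ^ 80) := by
    rw [(((reg_M hθ htI a).sq.add (reg_M hθ htI b).sq).add (reg_M hθ' htI a).sq).lim_add (reg_M hθ' htI b).sq,
      ((reg_M hθ htI a).sq.add (reg_M hθ htI b).sq).lim_add (reg_M hθ' htI a).sq,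
      (reg_M hθ htI a).sq.lim_add (reg_M hθ htI b).sq]
    linarith [lim_sq hθ htI a, lim_sq hθ htI b, lim_sq hθ' htI a, lim_sq hθ' htI b]
  rw [eE]
  have hT : T = Real.exp (-(Y ^ 2 / S ^ 16)) := by simp only [T, hl]; ring_nf
  rw [← hT]
  have hd := dist2_nonneg hθ hθ' htI v
  have he := P.eps'_nonneg θ θ'
  have hc3 : c3 = 4 * L * L * P.θ0 * P.eps' θ θ' := by
    have := P.pos.ne'
    simp only [c3, eps']; field_simp; ring
  have q2 := mul_le_mul_of_nonneg_left eC (show 0 ≤ c2 by positivity)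
  have q3 := mul_le_mul_of_nonneg_left eQ (show 0 ≤ c3 by positivity)
  rw [hc3] at q3 ⊢
  set K1 := 64 * L ^ 2
  set K2 := 512 * L ^ 2 * CF
  set K3 := 16 * L * L * P.θ0 * Cq
  have p1 : 0 ≤ (K2 + K3) * (Y * P.dist2 θ θ' t v) := by have := P.pos; positivity
  have p2 : 0 ≤ (K1 + K3) * T := by have := P.pos; positivity
  have p3 : 0 ≤ (K1 + K2) * (P.eps' θ θ' * S ^ 80) := by positivity
  simp only [c1, c2, K1, K2, K3] at *
  linarith

variable (P) in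
/-- the mean of an edge observable is of the order of the second moment -/
lemma exists_mu_bound : ∃ C, 0 ≤ C ∧ ∀ θ : ℝ, P.Below θ → ∀ t : ℝ, t ∈ Icc (0:ℝ) P.K →
    ∀ a b : V, P.G.Adj a b →
      0 ≤ limI P.G (P.Ph θ t a b) ∧ limI P.G (P.Ph θ t a b) ≤ C * sig t ^ 80 := by
  set L := lipC P.q P.K P.θ0 P.θ1
  have hL : 0 ≤ L := lipC_nonneg P.pos P.le P.lt_one _ _
  have hcG := P.cG_pos
  have hA := P.cA_nonneg
  refine ⟨4 * L * (P.cA * (7 / P.cG)), by positivity, fun θ hθ t ht a b hab => ?_⟩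
  have := P.neBot
  have hm : ∀ᶠ D in vol P.G, ∀ ω, 0 ≤ P.Ph θ t a b D ω ∧
      P.Ph θ t a b D ω ≤ (2 * L) * (P.M θ t a D ω ^ 2 + P.M θ t b D ω ^ 2) := by
    refine eventually_vol (E := {a, b}) (fun D _ h ω => ⟨?_, ?_⟩)
    · exact (abs_phi_le (K := P.K) (t := t) P.tree P.deg hθ.1.nonneg hθ.1.2 P.lt_one
        (show b ∈ D from h (by simp)) hab _).1
    · refine (phi_small (K := P.K) (t := t) P.tree P.deg P.pos hθ.1.1 hθ.1.2 P.lt_one
        (show a ∈ D from h (by simp)) (show b ∈ D from h (by simp)) hab _).trans ?_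
      have q := mul_le_mul_of_nonneg_left (add_sq_le' |P.M θ t a D ω| |P.M θ t b D ω|) hL
      simp only [sq_abs] at q
      refine q.trans (le_of_eq ?_)
      ring
  have r := (reg_M hθ ht a).sq.add (reg_M hθ ht b).sq
  refine ⟨(reg_Ph hθ ht hab).lim_nonneg (hm.mono (fun D hD ω => (hD ω).1)),
    ((reg_Ph hθ ht hab).lim_mono ((Reg.const (2 * L)).mul r) (hm.mono (fun D hD ω => (hD ω).2))).trans ?_⟩
  rw [r.lim_const_mul, (reg_M hθ ht a).sq.lim_add (reg_M hθ ht b).sq]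
  calc 2 * L * (limI P.G (fun D ω => P.M θ t a D ω ^ 2) + limI P.G (fun D ω => P.M θ t b D ω ^ 2))
      ≤ 2 * L * (P.cA * (7 / P.cG) * sig t ^ 80 + P.cA * (7 / P.cG) * sig t ^ 80) :=
        mul_le_mul_of_nonneg_left (add_le_add (lim_sq hθ ht a) (lim_sq hθ ht b)) (by positivity)
    _ = _ := by ring

end Env

end Vale.Agent.P161.Crit
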