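import Mathlib
import Vale.Agent.P161.Crit.Terms

/-!
The limits at two parameters below criticality are close, uniformly up to the critical one.
-/

open MeasureTheory Set Function Filter
open scoped Classical Topology

noncomputable section

namespace Vale.Agent.P161.Crit

variable {V : Type*}

lemma sig_rpow_kernel {s : ℝ} (hs : 0 ≤ s) : (sig s ^ 28)⁻¹ = s ^ ((1 : ℝ) / 8 - 1) := by
  rw [sig_pow hs, ← Real.rpow_neg hs]
  norm_num

namespace Env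

variable {P : Env V}
variable {θ θ' t : ℝ}

/-- the far spheres cost little -/
lemma exists_far_bound (P : Env V) : ∃ C, 0 ≤ C ∧ ∀ t : ℝ, 0 < t → t ≤ P.K → ∀ lam : ℝ, 1 ≤ lam →
    ∀ N : ℕ, lam / sig t ^ 81 ≤ N → ∀ R : ℕ,
      lam ^ 8 * ∑ n ∈ (Finset.range R).filter (fun n => N < n), ((n : ℝ) + 1) ^ 2 * P.dec t n ≤ C := by
  have hcG := P.cG_pos
  have hsK := P.one_le_sK
  obtain ⟨C2, hC20, hC2⟩ := exists_pow_exp_le 2 (show (0:ℝ) < 1 / 8 by norm_num)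
  obtain ⟨C3, hC30, hC3⟩ := exists_pow_exp_le 248 (show (0:ℝ) < P.cG / 16 by positivity)
  refine ⟨128 * C2 / P.cG ^ 3 * (P.sK ^ 8 * C3), by positivity, fun t ht htK lam hlam N hN R => ?_⟩
  set g := P.gam t
  have hg : 0 < g := gam_pos ht
  have hg4 : g ≤ 1 / 4 := gam_le_quarter ht htK
  have hS : 0 < sig t := sig_pos ht
  set Y := lam / sig t with hY
  have hY0 : 0 < Y := by positivity
  have hgN : P.cG * Y ≤ g * N := by
    calc P.cG * Y = g * (lam / sig t ^ 81) := by simp only [g, gam, hY]; field_simp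
      _ ≤ _ := mul_le_mul_of_nonneg_left hN hg.le
  have key : ∀ n, N < n → ((n : ℝ) + 1) ^ 2 * P.dec t n
      ≤ 4 * (C2 / g ^ 2) * Real.exp (-(g * N / 16)) * Real.exp (-(g / 16)) ^ n := by
    intro n hn
    have hn1 : (1:ℝ) ≤ n := by exact_mod_cast (by omega : 1 ≤ n)
    have hnN : (N:ℝ) ≤ n := by exact_mod_cast hn.le
    have h1 : ((n : ℝ) + 1) ^ 2 ≤ 4 * (n:ℝ) ^ 2 := by nlinarith
    have h2 : (n:ℝ) ^ 2 * Real.exp (-(g * n / 8)) ≤ C2 / g ^ 2 := by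
      rw [le_div_iff₀ (by positivity)]
      have := hC2 (g * n) (by positivity)
      calc (n:ℝ) ^ 2 * Real.exp (-(g * n / 8)) * g ^ 2 = (g * n) ^ 2 * Real.exp (-(1 / 8 * (g * n))) := by
            ring_nf
        _ ≤ _ := this
    have h3 : P.dec t n ≤ Real.exp (-(g * n / 8)) * (Real.exp (-(g * N / 16)) * Real.exp (-(g / 16)) ^ n) := by
      rw [dec, ← Real.exp_nat_mul, ← Real.exp_add, ← Real.exp_add]
      refine Real.exp_le_exp.2 ?_
      have := mul_le_mul_of_nonneg_left hnN hg.le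
      simp only [g] at *
      linarith
    have h0 : 0 ≤ P.dec t n := (Real.exp_pos _).le
    calc ((n : ℝ) + 1) ^ 2 * P.dec t n
        ≤ 4 * (n:ℝ) ^ 2 * (Real.exp (-(g * n / 8)) * (Real.exp (-(g * N / 16)) * Real.exp (-(g / 16)) ^ n)) :=
          mul_le_mul h1 h3 h0 (by positivity)
      _ = 4 * ((n:ℝ) ^ 2 * Real.exp (-(g * n / 8))) * Real.exp (-(g * N / 16)) * Real.exp (-(g / 16)) ^ n := by
          ring
      _ ≤ _ := by gcongr
  have hsum : ∑ n ∈ (Finset.range R).filter (fun n => N < n), ((n : ℝ) + 1) ^ 2 * P.dec t n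
      ≤ 128 * C2 / g ^ 3 * Real.exp (-(P.cG / 16 * Y)) := by
    refine (Finset.sum_le_sum (fun n hn => key n (Finset.mem_filter.1 hn).2)).trans ?_
    rw [← Finset.mul_sum]
    have h := (Finset.sum_le_sum_of_subset_of_nonneg
      (Finset.filter_subset (fun n => N < n) (Finset.range R))
      (fun n _ _ => pow_nonneg (Real.exp_pos (-(g / 16))).le n)).trans
      (sum_exp_neg_le (x := g / 16) (by positivity) (by linarith) R)
    have he : Real.exp (-(g * N / 16)) ≤ Real.exp (-(P.cG / 16 * Y)) := by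
      refine Real.exp_le_exp.2 ?_
      linarith
    calc 4 * (C2 / g ^ 2) * Real.exp (-(g * N / 16)) * _
        ≤ 4 * (C2 / g ^ 2) * Real.exp (-(P.cG / 16 * Y)) * (2 / (g / 16)) := by
          refine mul_le_mul (mul_le_mul_of_nonneg_left he (by positivity)) h
            (Finset.sum_nonneg (fun n _ => pow_nonneg (Real.exp_pos _).le n)) (by positivity)
      _ = _ := by field_simp; ring
  refine (mul_le_mul_of_nonneg_left hsum (by positivity)).trans ?_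
  have h1 : lam ^ 8 / g ^ 3 ≤ P.sK ^ 8 * Y ^ 248 / P.cG ^ 3 := by
    have e : lam ^ 8 / g ^ 3 = lam ^ 8 / sig t ^ 240 / P.cG ^ 3 := by
      simp only [g, gam, mul_pow, ← pow_mul]; field_simp
    rw [e]
    gcongr
    calc lam ^ 8 / sig t ^ 240 = sig t ^ 8 * Y ^ 8 * (1 / sig t ^ 240) := by
          rw [hY]; field_simp
      _ ≤ P.sK ^ 8 * Y ^ 8 * Y ^ 240 := by
          gcongr
          · exact sig_le_sK ht.le htK
          · rw [hY, div_pow]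
            gcongr
            exact one_le_pow₀ hlam
      _ = _ := by ring
  calc lam ^ 8 * (128 * C2 / g ^ 3 * Real.exp (-(P.cG / 16 * Y)))
      = 128 * C2 * (lam ^ 8 / g ^ 3) * Real.exp (-(P.cG / 16 * Y)) := by ring
    _ ≤ 128 * C2 * (P.sK ^ 8 * Y ^ 248 / P.cG ^ 3) * Real.exp (-(P.cG / 16 * Y)) := by gcongr
    _ = 128 * C2 / P.cG ^ 3 * (P.sK ^ 8 * (Y ^ 248 * Real.exp (-(P.cG / 16 * Y)))) := by ring
    _ ≤ _ := by gcongr; exact hC3 Y hY0.le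

variable [Countable V]

lemma Ph_mean_eq (hθ : P.Below θ) (ht : t ∈ Icc (0:ℝ) P.K) {a b a' b' : V} (h : P.G.Adj a b)
    (h' : P.G.Adj a' b') : limI P.G (P.Ph θ t a' b') = limI P.G (P.Ph θ t a b) := by
  have := P.neBot
  obtain ⟨g, ga, gb⟩ := P.exists_iso_pair (a := a) (b := b) (a' := a') (b' := b')
    (by rw [SimpleGraph.dist_eq_one_iff_adj.2 h, SimpleGraph.dist_eq_one_iff_adj.2 h'])
  refine Reg.lim_image P.tree g (reg_Ph hθ ht h) (reg_Ph hθ ht h') ?_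
  filter_upwards [Ph_image hθ.1 t g h] with D hD ω
  have := hD ω
  rwa [ga, gb] at this

lemma dPh_sq_eq (hθ : P.Below θ) (hθ' : P.Below θ') (ht : t ∈ Icc (0:ℝ) P.K) {a b a' b' : V}
    (h : P.G.Adj a b) (h' : P.G.Adj a' b') :
    limI P.G (fun D ω => P.dPh θ θ' t a' b' D ω ^ 2) = limI P.G (fun D ω => P.dPh θ θ' t a b D ω ^ 2) := by
  have := P.neBot
  obtain ⟨g, ga, gb⟩ := P.exists_iso_pair (a := a) (b := b) (a' := a') (b' := b')
    (by rw [SimpleGraph.dist_eq_one_iff_adj.2 h, SimpleGraph.dist_eq_one_iff_adj.2 h'])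
  refine Reg.lim_image P.tree g (reg_dPh hθ hθ' ht h).sq (reg_dPh hθ hθ' ht h').sq ?_
  filter_upwards [dPh_image hθ.1 hθ'.1 t g h] with D hD ω
  have := hD ω
  rw [ga, gb] at this
  rw [this]

/-- the error scale at one time -/
def srcX (c S lam e se st : ℝ) : ℝ :=
  lam ^ 6 * ((S ^ 28)⁻¹ * e + se + st) + Real.exp (-(c * lam ^ 8))

omit [Countable V] in
lemma srcX_bounds {c S lam e se st : ℝ} (hS : 0 < S) (hl : 0 < lam) (he : 0 ≤ e) (hse : 0 ≤ se)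
    (hst : 0 ≤ st) : lam ^ 6 * ((S ^ 28)⁻¹ * e) ≤ srcX c S lam e se st ∧ lam ^ 6 * se ≤ srcX c S lam e se st
      ∧ lam ^ 6 * st ≤ srcX c S lam e se st ∧ Real.exp (-(c * lam ^ 8)) ≤ srcX c S lam e se st := by
  have a1 : 0 ≤ lam ^ 6 * ((S ^ 28)⁻¹ * e) := by positivity
  have a2 : 0 ≤ lam ^ 6 * se := by positivity
  have a3 : 0 ≤ lam ^ 6 * st := by positivity
  have a4 := (Real.exp_pos (-(c * lam ^ 8))).le
  have e0 : srcX c S lam e se st = lam ^ 6 * ((S ^ 28)⁻¹ * e) + lam ^ 6 * se + lam ^ 6 * st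
      + Real.exp (-(c * lam ^ 8)) := by unfold srcX; ring
  rw [e0]
  exact ⟨by linarith, by linarith, by linarith, by linarith⟩

/-- the second moment of an edge observable at the error scale -/
lemma exists_V_scaled (P : Env V) : ∃ C, 0 ≤ C ∧ ∀ θ θ' : ℝ, P.Below θ → P.Below θ' →
    ∀ t : ℝ, 0 < t → t ≤ P.K → ∀ lam : ℝ, 1 ≤ lam → ∀ a b : V, P.G.Adj a b → ∀ (v : V) (st : ℝ), 0 ≤ st →
      lam ^ 2 * (sig t ^ 34)⁻¹ * limI P.G (fun D ω => P.dPh θ θ' t a b D ω ^ 2)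
        ≤ C * srcX (1 / (2 * P.sK ^ 4)) (sig t) lam (P.dist2 θ θ' t v)
            (Real.sqrt (P.eps' θ θ')) st := by
  obtain ⟨CV, hCV0, hCV⟩ := P.exists_V_bound
  obtain ⟨C9, hC90, hC9⟩ := exists_pow_exp_le 9 (show (0:ℝ) < 1 / 2 by norm_num)
  have hsK := P.one_le_sK
  set CE := Real.sqrt (1 / P.θ0) with hCE
  have hCE0 : 0 ≤ CE := Real.sqrt_nonneg _
  refine ⟨CV * (1 + P.sK ^ 2 * C9 + P.sK ^ 46 * CE), by positivity,
    fun θ θ' hθ hθ' t ht htK lam hlam a b hab v st hst => ?_⟩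
  have htI : t ∈ Icc (0:ℝ) P.K := ⟨ht.le, htK⟩
  have he := dist2_nonneg hθ hθ' htI v
  have hε := P.eps'_nonneg θ θ'
  have hS : 0 < sig t := sig_pos ht
  have hSK : sig t ≤ P.sK := sig_le_sK ht.le htK
  have hl0 : 0 < lam := by linarith
  have h := hCV θ θ' hθ hθ' t ht htK a b hab (lam ^ 4 * sig t ^ 6) (by positivity) v
  obtain ⟨x1, x2, -, x4⟩ := srcX_bounds (c := 1 / (2 * P.sK ^ 4)) hS hl0 he
    (Real.sqrt_nonneg (P.eps' θ θ')) hst
  generalize sig t = S at *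
  generalize P.dist2 θ θ' t v = e at *
  generalize limI P.G (fun D ω => P.dPh θ θ' t a b D ω ^ 2) = V0 at *
  generalize srcX (1 / (2 * P.sK ^ 4)) S lam e (Real.sqrt (P.eps' θ θ')) st = X at *
  set T := Real.exp (-(1 / (2 * P.sK ^ 4) * lam ^ 8)) with hT'
  have hT : Real.exp (-((lam ^ 4 * S ^ 6) ^ 2 / S ^ 16))
      ≤ T * Real.exp (-(1 / 2 * (lam ^ 8 / S ^ 4))) := by
    rw [hT', ← Real.exp_add]
    refine Real.exp_le_exp.2 ?_
    have e1 : (lam ^ 4 * S ^ 6) ^ 2 / S ^ 16 = lam ^ 8 / S ^ 4 := by field_simp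
    have e2 : 1 / (2 * P.sK ^ 4) * lam ^ 8 ≤ 1 / 2 * (lam ^ 8 / S ^ 4) := by
      calc 1 / (2 * P.sK ^ 4) * lam ^ 8 = 1 / 2 * (lam ^ 8 / P.sK ^ 4) := by field_simp
        _ ≤ _ := by gcongr
    rw [e1]; linarith
  have hpow : lam ^ 2 * (S ^ 34)⁻¹ ≤ P.sK ^ 2 * (lam ^ 8 / S ^ 4) ^ 9 := by
    calc lam ^ 2 * (S ^ 34)⁻¹ = S ^ 2 * (lam ^ 2 / S ^ 36) := by field_simp
      _ ≤ P.sK ^ 2 * (lam ^ 72 / S ^ 36) := by
          gcongr
          norm_num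
      _ = _ := by rw [div_pow, ← pow_mul, ← pow_mul]
  have t1 : lam ^ 2 * (S ^ 34)⁻¹ * (lam ^ 4 * S ^ 6 * e) ≤ X := by
    refine le_trans (le_of_eq ?_) x1
    field_simp
  have t2 : lam ^ 2 * (S ^ 34)⁻¹ * Real.exp (-((lam ^ 4 * S ^ 6) ^ 2 / S ^ 16)) ≤ P.sK ^ 2 * C9 * X := by
    calc _ ≤ P.sK ^ 2 * (lam ^ 8 / S ^ 4) ^ 9 * (T * Real.exp (-(1 / 2 * (lam ^ 8 / S ^ 4)))) :=
          mul_le_mul hpow hT (Real.exp_pos _).le (by positivity)
      _ = P.sK ^ 2 * ((lam ^ 8 / S ^ 4) ^ 9 * Real.exp (-(1 / 2 * (lam ^ 8 / S ^ 4)))) * T := by ring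
      _ ≤ P.sK ^ 2 * C9 * X := by
          gcongr
          exact hC9 _ (by positivity)
  have t3 : lam ^ 2 * (S ^ 34)⁻¹ * (P.eps' θ θ' * S ^ 80) ≤ P.sK ^ 46 * CE * X := by
    have h1 : P.eps' θ θ' ≤ CE * Real.sqrt (P.eps' θ θ') := by
      have h2 : P.eps' θ θ' ≤ 1 / P.θ0 := by
        refine div_le_div_of_nonneg_right ?_ P.pos.le
        rw [abs_le]
        constructor <;> linarith [hθ.1.nonneg, hθ'.1.nonneg, hθ.1.lt_one', hθ'.1.lt_one']
      calc P.eps' θ θ' = Real.sqrt (P.eps' θ θ') * Real.sqrt (P.eps' θ θ') := (Real.mul_self_sqrt hε).symm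
        _ ≤ _ := mul_le_mul_of_nonneg_right (Real.sqrt_le_sqrt h2) (Real.sqrt_nonneg _)
    calc lam ^ 2 * (S ^ 34)⁻¹ * (P.eps' θ θ' * S ^ 80) = S ^ 46 * (lam ^ 2 * P.eps' θ θ') := by field_simp
      _ ≤ P.sK ^ 46 * (lam ^ 6 * (CE * Real.sqrt (P.eps' θ θ'))) := by
          gcongr
          norm_num
      _ = P.sK ^ 46 * CE * (lam ^ 6 * Real.sqrt (P.eps' θ θ')) := by ring
      _ ≤ _ := mul_le_mul_of_nonneg_left x2 (by positivity)
  calc lam ^ 2 * (S ^ 34)⁻¹ * V0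
      ≤ lam ^ 2 * (S ^ 34)⁻¹ * (CV * (lam ^ 4 * S ^ 6 * e + Real.exp (-((lam ^ 4 * S ^ 6) ^ 2 / S ^ 16))
          + P.eps' θ θ' * S ^ 80)) := mul_le_mul_of_nonneg_left h (by positivity)
    _ = CV * (lam ^ 2 * (S ^ 34)⁻¹ * (lam ^ 4 * S ^ 6 * e)
        + lam ^ 2 * (S ^ 34)⁻¹ * Real.exp (-((lam ^ 4 * S ^ 6) ^ 2 / S ^ 16))
        + lam ^ 2 * (S ^ 34)⁻¹ * (P.eps' θ θ' * S ^ 80)) := by ring
    _ ≤ CV * (X + P.sK ^ 2 * C9 * X + P.sK ^ 46 * CE * X) := by gcongr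
    _ = _ := by ring

/-- near and far spheres -/
lemma source_split {θ θ' t : ℝ} (hθ : P.Below θ) (hθ' : P.Below θ') (ht : 0 < t) (htK : t ≤ P.K)
    {Cb : ℝ} (hCb0 : 0 ≤ Cb) {a b : V} (hab : P.G.Adj a b)
    (hCb : ∀ (n : ℕ) (p : ℕ → V), IsGeod P.G n p → limI P.G (fun D ω => P.dS θ θ' t n p D ω ^ 2)
      ≤ (n : ℝ) ^ 2 * (limI P.G (P.Ph θ t a b) - limI P.G (P.Ph θ' t a b)) ^ 2
        + Cb * n * limI P.G (fun D ω => P.dPh θ θ' t a b D ω ^ 2))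
    (v : V) (R : ℕ) {Λ : ℝ} (hΛ : 1 ≤ Λ) {N : ℕ} (hN : 1 ≤ N) :
    ∑ n ∈ Finset.range R, ∑ u ∈ sph P.G P.fin v n, limI P.G (P.Gp θ θ' t v u)
      ≤ 2 * (N:ℝ) * ((16 + 2 * (1 / kapK P.q P.K P.θ1 ^ 2)) * P.dist2 θ θ' t v
          + 32 * (Real.sqrt N * Real.sqrt (P.eps' θ θ'))
          + 32 * ((N:ℝ) ^ 2 * (limI P.G (P.Ph θ t a b) - limI P.G (P.Ph θ' t a b)) ^ 2
              + Cb * N * limI P.G (fun D ω => P.dPh θ θ' t a b D ω ^ 2)))
        + (∑ n ∈ (Finset.range R).filter (fun n => N < n), ((n:ℝ) + 1) ^ 2 * P.dec t n)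
          * ((32 + 4 * (1 / kapK P.q P.K P.θ1 ^ 2)) * splitB Λ 4 (P.dist2 θ θ' t v)
            + 32 * Real.sqrt (P.eps' θ θ')
            + 64 * (1 / kapK P.q P.K P.θ1 ^ 2) * splitB Λ (4 * (1 / kapK P.q P.K P.θ1 ^ 2))
                (limI P.G (fun D ω => P.dPh θ θ' t a b D ω ^ 2))) := by
  have := P.neBot
  have htI : t ∈ Icc (0:ℝ) P.K := ⟨ht.le, htK⟩
  set k := 1 / kapK P.q P.K P.θ1 ^ 2 with hk
  have hk0 : 0 ≤ k := by positivity
  set e := P.dist2 θ θ' t v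
  have he : 0 ≤ e := dist2_nonneg hθ hθ' htI v
  set se := Real.sqrt (P.eps' θ θ')
  have hse : 0 ≤ se := Real.sqrt_nonneg _
  set d2 := (limI P.G (P.Ph θ t a b) - limI P.G (P.Ph θ' t a b)) ^ 2
  have hd2 : 0 ≤ d2 := sq_nonneg _
  set V0 := limI P.G (fun D ω => P.dPh θ θ' t a b D ω ^ 2)
  have hV0 : 0 ≤ V0 := (reg_dPh hθ hθ' htI hab).sq.lim_nonneg (Eventually.of_forall (fun _ _ => sq_nonneg _))
  have hnear : ∀ n ∈ (Finset.range R).filter (fun n => n ≤ N),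
      ∑ u ∈ sph P.G P.fin v n, limI P.G (P.Gp θ θ' t v u)
        ≤ (16 + 2 * k) * e + 32 * (Real.sqrt N * se) + 32 * ((N:ℝ) ^ 2 * d2 + Cb * N * V0) := by
    intro n hn
    have hn' : (n:ℝ) ≤ N := by exact_mod_cast (Finset.mem_filter.1 hn).2
    refine (sphere_gap_near hθ hθ' htI v n (BS := (N:ℝ) ^ 2 * d2 + Cb * N * V0)
      (fun p hp => (hCb n p hp).trans (by gcongr))).trans ?_
    rw [show 2 / kapK P.q P.K P.θ1 ^ 2 = 2 * k by rw [hk]; ring]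
    gcongr
  have hfar : ∀ n ∈ (Finset.range R).filter (fun n => N < n),
      ∑ u ∈ sph P.G P.fin v n, limI P.G (P.Gp θ θ' t v u) ≤ ((n:ℝ) + 1) ^ 2 * P.dec t n
        * ((32 + 4 * k) * splitB Λ 4 e + 32 * se + 64 * k * splitB Λ (4 * k) V0) := by
    intro n _
    refine (sphere_gap_far hθ hθ' ht htK v n hΛ (fun x y h => dPh_sq_eq hθ hθ' htI hab h)).trans ?_
    rw [show 4 / kapK P.q P.K P.θ1 ^ 2 = 4 * k by rw [hk]; ring,
      show 64 / kapK P.q P.K P.θ1 ^ 2 = 64 * k by rw [hk]; ring]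
    have hd0 : 0 ≤ P.dec t n := (Real.exp_pos _).le
    have hΛ0 : 0 ≤ Λ := by linarith
    have hsp1 : 0 ≤ splitB Λ 4 e := by unfold splitB; positivity
    have hsp2 : 0 ≤ splitB Λ (4 * k) V0 := by unfold splitB; positivity
    have hn0 : (0:ℝ) ≤ n := Nat.cast_nonneg n
    have h1 : (1:ℝ) ≤ ((n:ℝ) + 1) ^ 2 := one_le_pow₀ (by linarith)
    have h2 : Real.sqrt n ≤ ((n:ℝ) + 1) ^ 2 := Real.sqrt_le_iff.2 ⟨by positivity, by nlinarith⟩
    have h3 : (n:ℝ) ^ 2 ≤ ((n:ℝ) + 1) ^ 2 := by nlinarith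
    have q1 : (32 + 4 * k) * (P.dec t n * splitB Λ 4 e) * 1
        ≤ (32 + 4 * k) * (P.dec t n * splitB Λ 4 e) * ((n:ℝ) + 1) ^ 2 := by gcongr
    have q2 : 32 * (Real.sqrt n * se) * P.dec t n ≤ 32 * (((n:ℝ) + 1) ^ 2 * se) * P.dec t n := by gcongr
    have q3 : 64 * k * (n:ℝ) ^ 2 * (P.dec t n * splitB Λ (4 * k) V0)
        ≤ 64 * k * ((n:ℝ) + 1) ^ 2 * (P.dec t n * splitB Λ (4 * k) V0) := by gcongr
    linarith
  have hcard : (((Finset.range R).filter (fun n => n ≤ N)).card : ℝ) ≤ 2 * N := by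
    have h := Finset.card_le_card (show (Finset.range R).filter (fun n => n ≤ N) ⊆ Finset.range (N + 1)
      from fun n hn => Finset.mem_range.2 (Nat.lt_succ_of_le (Finset.mem_filter.1 hn).2))
    rw [Finset.card_range] at h
    have h' : (((Finset.range R).filter (fun n => n ≤ N)).card : ℝ) ≤ ((N + 1 : ℕ) : ℝ) := by
      exact_mod_cast h
    push_cast at h'
    have : (1:ℝ) ≤ N := by exact_mod_cast hN
    linarith
  rw [← Finset.sum_filter_add_sum_filter_not (Finset.range R) (fun n => n ≤ N)]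
  simp only [not_le]
  refine add_le_add ((Finset.sum_le_card_nsmul _ _ _ hnear).trans ?_)
    ((Finset.sum_le_sum hfar).trans (le_of_eq (Finset.sum_mul _ _ _).symm))
  rw [nsmul_eq_mul]
  exact mul_le_mul_of_nonneg_right hcard (by positivity)

omit [Countable V] in
/-- the arithmetic of the error scale -/
lemma source_arith {S sK lam e se st V0 d2 N sN Fs k Cb CF Cd CN CR Cm X ex : ℝ}
    (hS : 0 < S) (hSK : S ≤ sK) (hlam : 1 ≤ lam) (he : 0 ≤ e) (hse : 0 ≤ se) (hst : 0 ≤ st)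
    (hV0 : 0 ≤ V0) (hd20 : 0 ≤ d2) (hN0 : 0 ≤ N) (hsN0 : 0 ≤ sN) (hFs0 : 0 ≤ Fs) (hk : 0 ≤ k)
    (hCb : 0 ≤ Cb) (hCN : 0 ≤ CN) (hCR : 0 ≤ CR) (hCm : 0 ≤ Cm) (hCF : 0 ≤ CF) (hex0 : 0 ≤ ex)
    (hN : N ≤ CN * (lam / S ^ 81)) (hsN : sN ≤ CR * (lam / S ^ 41)) (hd : d2 ≤ Cm * S ^ 120 * st)
    (hF : lam ^ 8 * Fs ≤ CF)
    (x1 : lam ^ 6 * ((S ^ 28)⁻¹ * e) ≤ X) (x2 : lam ^ 6 * se ≤ X) (x3 : lam ^ 6 * st ≤ X)
    (x4 : ex ≤ X) (xV : lam ^ 2 * (S ^ 34)⁻¹ * V0 ≤ Cd * X) :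
    S ^ 128 * (2 * N * ((16 + 2 * k) * e + 32 * (sN * se) + 32 * (N ^ 2 * d2 + Cb * N * V0))
        + Fs * ((32 + 4 * k) * (lam ^ 8 * e + 2 * 4 * Real.exp 2 * ex) + 32 * se
          + 64 * k * (lam ^ 8 * V0 + 2 * (4 * k) * Real.exp 2 * ex)))
      ≤ (2 * (16 + 2 * k) * (CN * sK ^ 75) + 64 * (CN * CR * sK ^ 6) + 64 * (CN ^ 3 * Cm * sK ^ 5)
          + 64 * Cb * CN ^ 2 * Cd + CF * (32 + 4 * k) * sK ^ 156 + CF * 32 * sK ^ 128
          + CF * (64 * k) * sK ^ 162 * Cd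
          + CF * ((32 + 4 * k) * (8 * Real.exp 2) + 64 * k * (8 * k * Real.exp 2)) * sK ^ 128) * X := by
  have hl0 : 0 < lam := by linarith
  have hsK : 0 < sK := lt_of_lt_of_le hS hSK
  have hl6 : lam ≤ lam ^ 6 := le_self_pow₀ hlam (by norm_num)
  have hl16 : 1 ≤ lam ^ 6 := one_le_pow₀ hlam
  have n1 : S ^ 128 * (2 * N * ((16 + 2 * k) * e)) ≤ 2 * (16 + 2 * k) * (CN * sK ^ 75) * X := by
    calc S ^ 128 * (2 * N * ((16 + 2 * k) * e))
        ≤ S ^ 128 * (2 * (CN * (lam / S ^ 81)) * ((16 + 2 * k) * e)) := by gcongr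
      _ = 2 * (16 + 2 * k) * (CN * S ^ 75) * (lam * ((S ^ 28)⁻¹ * e)) := by field_simp
      _ ≤ 2 * (16 + 2 * k) * (CN * sK ^ 75) * (lam ^ 6 * ((S ^ 28)⁻¹ * e)) := by gcongr
      _ ≤ _ := mul_le_mul_of_nonneg_left x1 (by positivity)
  have n2 : S ^ 128 * (2 * N * (32 * (sN * se))) ≤ 64 * (CN * CR * sK ^ 6) * X := by
    calc S ^ 128 * (2 * N * (32 * (sN * se)))
        ≤ S ^ 128 * (2 * (CN * (lam / S ^ 81)) * (32 * (CR * (lam / S ^ 41) * se))) := by gcongr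
      _ = 64 * (CN * CR * S ^ 6) * (lam ^ 2 * se) := by field_simp; ring
      _ ≤ 64 * (CN * CR * sK ^ 6) * (lam ^ 6 * se) := by gcongr; norm_num
      _ ≤ _ := mul_le_mul_of_nonneg_left x2 (by positivity)
  have n3 : S ^ 128 * (2 * N * (32 * (N ^ 2 * d2))) ≤ 64 * (CN ^ 3 * Cm * sK ^ 5) * X := by
    calc S ^ 128 * (2 * N * (32 * (N ^ 2 * d2))) = 64 * S ^ 128 * N ^ 3 * d2 := by ring
      _ ≤ 64 * S ^ 128 * (CN * (lam / S ^ 81)) ^ 3 * (Cm * S ^ 120 * st) := by gcongr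
      _ = 64 * (CN ^ 3 * Cm * S ^ 5) * (lam ^ 3 * st) := by field_simp
      _ ≤ 64 * (CN ^ 3 * Cm * sK ^ 5) * (lam ^ 6 * st) := by gcongr; norm_num
      _ ≤ _ := mul_le_mul_of_nonneg_left x3 (by positivity)
  have n4 : S ^ 128 * (2 * N * (32 * (Cb * N * V0))) ≤ 64 * Cb * CN ^ 2 * Cd * X := by
    calc S ^ 128 * (2 * N * (32 * (Cb * N * V0))) = 64 * Cb * S ^ 128 * N ^ 2 * V0 := by ring
      _ ≤ 64 * Cb * S ^ 128 * (CN * (lam / S ^ 81)) ^ 2 * V0 := by gcongr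
      _ = 64 * Cb * CN ^ 2 * (lam ^ 2 * (S ^ 34)⁻¹ * V0) := by field_simp
      _ ≤ 64 * Cb * CN ^ 2 * (Cd * X) := by gcongr
      _ = _ := by ring
  have hF1 : Fs ≤ CF := (le_mul_of_one_le_left hFs0 (one_le_pow₀ hlam)).trans hF
  have f1 : S ^ 128 * (lam ^ 8 * Fs) * ((32 + 4 * k) * e) ≤ CF * (32 + 4 * k) * sK ^ 156 * X := by
    calc S ^ 128 * (lam ^ 8 * Fs) * ((32 + 4 * k) * e) ≤ S ^ 128 * CF * ((32 + 4 * k) * e) := by gcongr
      _ = CF * (32 + 4 * k) * S ^ 156 * (1 * ((S ^ 28)⁻¹ * e)) := by field_simp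
      _ ≤ CF * (32 + 4 * k) * sK ^ 156 * (lam ^ 6 * ((S ^ 28)⁻¹ * e)) := by gcongr
      _ ≤ _ := mul_le_mul_of_nonneg_left x1 (by positivity)
  have f2 : S ^ 128 * Fs * (32 * se) ≤ CF * 32 * sK ^ 128 * X := by
    calc S ^ 128 * Fs * (32 * se) ≤ sK ^ 128 * CF * (32 * se) := by gcongr
      _ = CF * 32 * sK ^ 128 * (1 * se) := by ring
      _ ≤ CF * 32 * sK ^ 128 * (lam ^ 6 * se) := by gcongr
      _ ≤ _ := mul_le_mul_of_nonneg_left x2 (by positivity)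
  have f3 : S ^ 128 * (lam ^ 8 * Fs) * (64 * k * V0) ≤ CF * (64 * k) * sK ^ 162 * Cd * X := by
    calc S ^ 128 * (lam ^ 8 * Fs) * (64 * k * V0) ≤ S ^ 128 * CF * (64 * k * V0) := by gcongr
      _ = CF * (64 * k) * S ^ 162 * (1 * (S ^ 34)⁻¹ * V0) := by field_simp
      _ ≤ CF * (64 * k) * sK ^ 162 * (lam ^ 2 * (S ^ 34)⁻¹ * V0) := by
          gcongr
          exact one_le_pow₀ hlam
      _ ≤ CF * (64 * k) * sK ^ 162 * (Cd * X) := by gcongr
      _ = _ := by ring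
  have f4 : S ^ 128 * Fs * (((32 + 4 * k) * (8 * Real.exp 2) + 64 * k * (8 * k * Real.exp 2)) * ex)
      ≤ CF * ((32 + 4 * k) * (8 * Real.exp 2) + 64 * k * (8 * k * Real.exp 2)) * sK ^ 128 * X := by
    calc _ ≤ sK ^ 128 * CF * (((32 + 4 * k) * (8 * Real.exp 2) + 64 * k * (8 * k * Real.exp 2)) * X) := by
          gcongr
      _ = _ := by ring
  linarith

/-- the source of discrepancy at one time -/
lemma exists_source_bound (P : Env V) : ∃ C c : ℝ, 0 ≤ C ∧ 0 < c ∧ ∀ θ θ' : ℝ, P.Below θ → P.Below θ' →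
    ∀ t : ℝ, 0 < t → t ≤ P.K → ∀ τ : ℝ, (∀ a b, P.G.Adj a b →
      |limI P.G (P.Ph θ t a b) - limI P.G (P.Ph θ' t a b)| ≤ τ) →
    ∀ lam : ℝ, 1 ≤ lam → ∀ (v : V) (R : ℕ),
      sig t ^ 128 * ∑ n ∈ Finset.range R, ∑ u ∈ sph P.G P.fin v n, limI P.G (P.Gp θ θ' t v u)
        ≤ C * srcX c (sig t) lam (P.dist2 θ θ' t v) (Real.sqrt (P.eps' θ θ')) (Real.sqrt τ) := by
  have := P.neBot
  obtain ⟨Cd, hCd0, hCd⟩ := exists_V_scaled P
  obtain ⟨Cm, hCm0, hCm⟩ := P.exists_mu_bound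
  obtain ⟨Cb, hCb0, hCb⟩ := exists_var_path P
  obtain ⟨CF, hCF0, hCF⟩ := exists_far_bound P
  set k := 1 / kapK P.q P.K P.θ1 ^ 2 with hk
  have hk0 : 0 ≤ k := by positivity
  have hsK := P.one_le_sK
  set CN := 1 + P.sK ^ 81 with hCNdef
  have hCN : 0 ≤ CN := by positivity
  set CR := Real.sqrt (CN * P.sK)
  set Cm' := Cm * Real.sqrt Cm
  refine ⟨2 * (16 + 2 * k) * (CN * P.sK ^ 75) + 64 * (CN * CR * P.sK ^ 6) + 64 * (CN ^ 3 * Cm' * P.sK ^ 5)
          + 64 * Cb * CN ^ 2 * Cd + CF * (32 + 4 * k) * P.sK ^ 156 + CF * 32 * P.sK ^ 128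
          + CF * (64 * k) * P.sK ^ 162 * Cd
          + CF * ((32 + 4 * k) * (8 * Real.exp 2) + 64 * k * (8 * k * Real.exp 2)) * P.sK ^ 128,
    1 / (2 * P.sK ^ 4), by positivity, by positivity,
    fun θ θ' hθ hθ' t ht htK τ hτ lam hlam v R => ?_⟩
  have htI : t ∈ Icc (0:ℝ) P.K := ⟨ht.le, htK⟩
  obtain ⟨b0, hb0⟩ : ∃ b0, P.G.Adj v b0 := by
    obtain ⟨y, hy⟩ : (nbs P.G v).Nonempty := by rw [← Finset.card_pos, card_nbs P.deg]; omega
    exact ⟨y, (mem_nbs P.deg).1 hy⟩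
  have he0 : 0 ≤ P.dist2 θ θ' t v := dist2_nonneg hθ hθ' htI v
  have hS : 0 < sig t := sig_pos ht
  have hSK : sig t ≤ P.sK := sig_le_sK ht.le htK
  have hl0 : 0 < lam := by linarith
  obtain ⟨x1, x2, x3, x4⟩ := srcX_bounds (c := 1 / (2 * P.sK ^ 4)) hS hl0 he0
    (Real.sqrt_nonneg (P.eps' θ θ')) (Real.sqrt_nonneg τ)
  have hd : (limI P.G (P.Ph θ t v b0) - limI P.G (P.Ph θ' t v b0)) ^ 2
      ≤ Cm' * sig t ^ 120 * Real.sqrt τ := by
    obtain ⟨p1, p2⟩ := hCm θ hθ t htI v b0 hb0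
    obtain ⟨p3, p4⟩ := hCm θ' hθ' t htI v b0 hb0
    have h1 := hτ v b0 hb0
    generalize limI P.G (P.Ph θ t v b0) = m at *
    generalize limI P.G (P.Ph θ' t v b0) = m' at *
    have h2 : |m - m'| ≤ Cm * sig t ^ 80 := by rw [abs_le]; constructor <;> linarith
    calc (m - m') ^ 2 = |m - m'| * (Real.sqrt |m - m'| * Real.sqrt |m - m'|) := by
          rw [Real.mul_self_sqrt (abs_nonneg _), ← sq_abs, pow_two]
      _ ≤ Cm * sig t ^ 80 * (Real.sqrt (Cm * sig t ^ 80) * Real.sqrt τ) := by gcongr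
      _ = _ := by
          rw [Real.sqrt_mul hCm0, show sig t ^ 80 = (sig t ^ 40) ^ 2 by ring, Real.sqrt_sq (by positivity)]
          simp only [Cm']
          ring
  set N := ⌈lam / sig t ^ 81⌉₊ with hNdef
  have hN1 : 1 ≤ N := Nat.one_le_ceil_iff.2 (by positivity)
  have hNlow : lam / sig t ^ 81 ≤ N := Nat.le_ceil _
  have hNup : (N:ℝ) ≤ CN * (lam / sig t ^ 81) := by
    have h1 := (Nat.ceil_lt_add_one (show 0 ≤ lam / sig t ^ 81 by positivity)).le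
    have h2 : 1 ≤ P.sK ^ 81 * (lam / sig t ^ 81) := by
      rw [mul_div_assoc', le_div_iff₀ (by positivity), one_mul]
      calc sig t ^ 81 ≤ P.sK ^ 81 * 1 := by rw [mul_one]; gcongr
        _ ≤ _ := by gcongr
    rw [hCNdef, add_mul, one_mul]
    linarith
  have hsN : Real.sqrt N ≤ CR * (lam / sig t ^ 41) := by
    have h1 : (N:ℝ) ≤ CN * P.sK * (lam / sig t ^ 41) ^ 2 := by
      refine hNup.trans ?_
      rw [mul_assoc CN]
      refine mul_le_mul_of_nonneg_left ?_ hCN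
      rw [div_pow, ← pow_mul, mul_div_assoc', div_le_div_iff₀ (by positivity) (by positivity),
        show sig t ^ (41 * 2) = sig t ^ 81 * sig t by ring]
      calc lam * (sig t ^ 81 * sig t) ≤ lam ^ 2 * (sig t ^ 81 * P.sK) := by
            gcongr
            exact le_self_pow₀ hlam two_ne_zero
        _ = _ := by ring
    refine (Real.sqrt_le_sqrt h1).trans (le_of_eq ?_)
    rw [Real.sqrt_mul (by positivity), Real.sqrt_sq (by positivity)]
  have hex : Real.exp (-(lam ^ 8 / 2)) ≤ Real.exp (-(1 / (2 * P.sK ^ 4) * lam ^ 8)) := by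
    refine Real.exp_le_exp.2 ?_
    have : 1 / (2 * P.sK ^ 4) ≤ 1 / 2 := by
      refine one_div_le_one_div_of_le two_pos ?_
      linarith [one_le_pow₀ (n := 4) hsK]
    nlinarith [pow_nonneg hl0.le 8]
  have hsplit := source_split hθ hθ' ht htK hCb0 hb0
    (fun n p hp => hCb θ θ' hθ hθ' t htI v b0 hb0 n p hp) v R (Λ := lam ^ 8) (one_le_pow₀ hlam) hN1
  refine (mul_le_mul_of_nonneg_left hsplit (by positivity)).trans ?_
  simp only [splitB, ← hk]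
  exact source_arith hS hSK hlam he0 (Real.sqrt_nonneg _) (Real.sqrt_nonneg _)
    ((reg_dPh hθ hθ' htI hb0).sq.lim_nonneg (Eventually.of_forall (fun _ _ => sq_nonneg _)))
    (sq_nonneg _) (Nat.cast_nonneg N) (Real.sqrt_nonneg _)
    (Finset.sum_nonneg (fun n _ => mul_nonneg (sq_nonneg _) (Real.exp_pos _).le)) hk0 hCb0 hCN
    (Real.sqrt_nonneg _) (by positivity) hCF0 (Real.exp_pos _).le hNup hsN hd
    (hCF t ht htK lam hlam N hNlow R) x1 x2 x3 (hex.trans x4)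
    (hCd θ θ' hθ hθ' t ht htK lam hlam v b0 hb0 v (Real.sqrt τ) (Real.sqrt_nonneg _))

/-- the two limits are close at all times up to the horizon -/
lemma exists_rate (P : Env V) : ∃ C c : ℝ, 0 ≤ C ∧ 0 < c ∧ ∀ θ θ' : ℝ, P.Below θ → P.Below θ' →
    ∀ τ : ℝ, (∀ s : ℝ, 0 < s → s ≤ P.K → ∀ a b, P.G.Adj a b →
      |limI P.G (P.Ph θ s a b) - limI P.G (P.Ph θ' s a b)| ≤ τ) →
    ∀ lam : ℝ, 1 ≤ lam → ∀ t ∈ Icc (0:ℝ) P.K, ∀ v : V,
      P.dist2 θ θ' t v ≤ C * (lam ^ 6 * (Real.sqrt (P.eps' θ θ') + Real.sqrt τ)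
          + Real.exp (-(c * lam ^ 8))) * Real.exp (C * lam ^ 6) := by
  obtain ⟨C0, c, hC00, hc, hsrc⟩ := exists_source_bound P
  have hA := P.cA_nonneg
  set C := P.cA * C0 * P.K + P.cA * C0 * (8 * (P.K : ℝ) ^ ((1:ℝ) / 8))
  have hC0' : 0 ≤ C := by positivity
  refine ⟨C, c, hC0', hc, fun θ θ' hθ hθ' τ hτ lam hlam t ht v => ?_⟩
  have := P.neBot
  set E : ℝ → ℝ := fun s => P.dist2 θ θ' (P.clamp s) v with hE
  have hreg : ∀ s ∈ Icc (0:ℝ) P.K,
      Reg P.G (fun D ω => (P.M θ s v D ω - P.M θ' s v D ω) ^ 2) :=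
    fun s hs => ((reg_M hθ hs v).sub (reg_M hθ' hs v)).sq
  have hEm : Measurable E := measurable_lim (F := fun s D ω => (P.M θ s v D ω - P.M θ' s v D ω) ^ 2)
    (fun D => ((measurable_mT D v).sub (measurable_mT D v)).pow_const 2) hreg
  have hE0 : ∀ s, 0 ≤ E s := fun s => dist2_nonneg hθ hθ' (P.clamp_mem s) v
  have hE4 : ∀ s, E s ≤ 4 := fun s => by
    refine ((hreg _ (P.clamp_mem s)).lim_mono (Reg.const 4) ?_).trans (le_of_eq (Reg.lim_const 4))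
    exact Eventually.of_forall (fun D ω => sq_M_diff_le hθ.1 hθ'.1 _ v D ω)
  set r := lam ^ 6 * (Real.sqrt (P.eps' θ θ') + Real.sqrt τ) + Real.exp (-(c * lam ^ 8)) with hr
  have hl0 : 0 < lam := by linarith
  have hr0 : 0 ≤ r := by positivity
  set f : ℝ → ℝ := fun s => if s ∈ Icc (0:ℝ) P.K then str s ^ 2 else 0 with hf
  have hfm : Measurable f := Measurable.ite measurableSet_Icc (measurable_str.pow_const 2) measurable_const
  have hf0 : ∀ s, 0 ≤ f s := fun s => by simp only [hf]; split_ifs <;> positivity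
  have hf1 : ∀ s, f s ≤ 1 := fun s => by
    simp only [hf]; split_ifs with h
    · exact pow_le_one₀ (str_mem h.1).1 (str_mem h.1).2
    · exact zero_le_one
  set b := max (θ ^ 2) (θ' ^ 2)
  have hb0 : 0 < b := lt_max_of_lt_left (pow_pos hθ.1.posθ 2)
  have hb : (P.q : ℝ) * b < 1 := by
    rw [mul_max_of_nonneg _ _ (Nat.cast_nonneg _)]
    exact max_lt (hθ.1.sub hθ.2) (hθ'.1.sub hθ'.2)
  have key : ∀ u ∈ Icc (0:ℝ) P.K, E u ≤ P.cA * C0 * P.K * r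
      + P.cA * C0 * lam ^ 6 * ∫ s in Ioo 0 u, s ^ ((1:ℝ) / 8 - 1) * E s := by
    intro u hu
    have iE : IntegrableOn (fun s => s ^ ((1:ℝ) / 8 - 1) * E s) (Ioo 0 u) := by
      refine Integrable.mono' ((integral_Ioo_rpow (β := 1 / 8) (by norm_num) hu.1).1.const_mul 4)
        (((measurable_id.pow_const _).mul hEm).aestronglyMeasurable) ?_
      filter_upwards [ae_restrict_mem measurableSet_Ioo] with s hs
      rw [Real.norm_eq_abs, abs_of_nonneg (mul_nonneg (Real.rpow_nonneg hs.1.le _) (hE0 s)), mul_comm 4]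
      exact mul_le_mul_of_nonneg_left (hE4 s) (Real.rpow_nonneg hs.1.le _)
    set h : ℝ → ℝ := fun s => C0 * lam ^ 6 * (s ^ ((1:ℝ) / 8 - 1) * E s) + C0 * r with hh
    have i1 : IntegrableOn (fun s => C0 * lam ^ 6 * (s ^ ((1:ℝ) / 8 - 1) * E s)) (Ioo 0 u) :=
      iE.const_mul _
    have ih : IntegrableOn h (Ioo 0 u) := i1.add (integrableOn_const measure_Ioo_lt_top.ne)
    have hle : ∀ s ∈ Ioo 0 u, ∀ R : ℕ, f s * ∑ n ∈ Finset.range R, ∑ w ∈ sph P.G P.fin v n,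
        limI P.G (P.Gp θ θ' s v w) ≤ h s := by
      intro s hs R
      have hsK : s ≤ P.K := hs.2.le.trans hu.2
      have h0 : 0 ≤ ∑ n ∈ Finset.range R, ∑ w ∈ sph P.G P.fin v n, limI P.G (P.Gp θ θ' s v w) :=
        Finset.sum_nonneg (fun n _ => Finset.sum_nonneg (fun w _ =>
          (reg_Gp hθ hθ' ⟨hs.1.le, hsK⟩ v w).lim_nonneg
            (Eventually.of_forall (fun D ω => gap_nonneg D D s v w ω))))
      have hfs : f s ≤ sig s ^ 128 := by
        simp only [hf, if_pos (show s ∈ Icc (0:ℝ) P.K from ⟨hs.1.le, hsK⟩)]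
        exact str_sq_le hs.1.le
      refine (mul_le_mul_of_nonneg_right hfs h0).trans
        ((hsrc θ θ' hθ hθ' s hs.1 hsK τ (hτ s hs.1 hsK) lam hlam v R).trans (le_of_eq ?_))
      simp only [hh, hE, hr, srcX, P.clamp_eq (show s ∈ Icc (0:ℝ) P.K from ⟨hs.1.le, hsK⟩),
        ← sig_rpow_kernel hs.1.le]
      ring
    have main : E u ≤ P.cA * ∫ s in Ioo 0 u, h s := by
      simp only [hE, P.clamp_eq hu, dist2]
      refine (hreg u hu).lim_le (fun δ hδ => ?_)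
      filter_upwards [budget (F := fun s w D ω => P.Gp θ θ' s v w D ω) v hu
        (fun w D => measurable_gap hθ.1 hθ'.1 D D v w) (fun s w D ω => gap_nonneg D D s v w ω)
        (C := 8) hb0 hb
        (fun D hD hv s w ω => by
          refine (gap_le_pow hθ.1 hθ'.1 hD hD hv hv s w ω).trans ?_
          have e1 : (θ ^ 2) ^ P.G.dist v w ≤ b ^ P.G.dist v w :=
            pow_le_pow_left₀ (sq_nonneg _) (le_max_left _ _) _
          have e2 : (θ' ^ 2) ^ P.G.dist v w ≤ b ^ P.G.dist v w :=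
            pow_le_pow_left₀ (sq_nonneg _) (le_max_right _ _) _
          linarith)
        (fun D s w k ω y y' hy hy' => by
          obtain ⟨-, m1, c1⟩ := P.state_indep (θ := θ) D (i := (w, k)) (ω := ω) hy hy'
          obtain ⟨-, m2, c2⟩ := P.state_indep (θ := θ') D (i := (w, k)) (ω := ω) hy hy'
          simp only [Gp, gap, m1, m2, c1, c2])
        (fun s hs w => reg_Gp hθ hθ' ⟨hs.1.le, hs.2.le.trans hu.2⟩ v w) hfm hf0 hf1 ih
        ((measurable_const.mul ((measurable_id.pow_const _).mul hEm)).add measurable_const)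
        (fun s hs => by have := hE0 s; have := hs.1; positivity) hle hδ,
        P.eventually_rch v 0] with D hD hv
      refine (isometry_le P.tree hθ.1.nonneg hθ.1.lt_one' hθ'.1.nonneg hθ'.1.lt_one' hv.1 hv.1
        (Finset.Subset.refl D) (Finset.Subset.refl D) hv.2.mem hv.2.mem u).trans
        (le_trans (le_of_eq ?_) hD)
      refine Finset.sum_congr rfl (fun i _ => integral_congr_ae (ae_of_all _ (fun ω => ?_)))
      by_cases c : tau ω i < u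
      · have : tau ω i ∈ Icc (0:ℝ) P.K := ⟨tim_nonneg _ _, c.le.trans hu.2⟩
        simp only [hf, Gp, if_pos c, if_pos this]
      · simp [c]
    refine main.trans ?_
    rw [hh, integral_add i1 (integrableOn_const measure_Ioo_lt_top.ne), integral_const_mul, setIntegral_const,
      smul_eq_mul, Real.volume_real_Ioo_of_le hu.1, sub_zero]
    have : P.cA * (u * (C0 * r)) ≤ P.cA * ((P.K:ℝ) * (C0 * r)) := by
      gcongr
      exact hu.2
    linarith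
  have hg := gronwall (β := (1:ℝ) / 8) hEm (by positivity) (by positivity) (by norm_num) (fun s _ => hE0 s)
    (fun s _ => hE4 s) key ht
  simp only [hE, P.clamp_eq ht] at hg
  refine hg.trans (mul_le_mul ?_ (Real.exp_le_exp.2 ?_) (Real.exp_pos _).le (by positivity))
  · refine mul_le_mul_of_nonneg_right ?_ hr0
    simp only [C]
    have : 0 ≤ P.cA * C0 * (8 * (P.K : ℝ) ^ ((1:ℝ) / 8)) := by positivity
    linarith
  · have h1 : t ^ ((1:ℝ) / 8) ≤ (P.K : ℝ) ^ ((1:ℝ) / 8) := Real.rpow_le_rpow ht.1 ht.2 (by norm_num)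
    calc P.cA * C0 * lam ^ 6 * t ^ ((1:ℝ) / 8) / (1 / 8)
        = P.cA * C0 * (8 * t ^ ((1:ℝ) / 8)) * lam ^ 6 := by ring
      _ ≤ C * lam ^ 6 := by
          refine mul_le_mul_of_nonneg_right (le_trans ?_ (le_add_of_nonneg_left (by positivity))) (by positivity)
          gcongr

end Env

end Vale.Agent.P161.Crit
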