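import Mathlib
import Vale.Agent.P161.Crit.Rate

/-!
Continuity in time of the mean edge observable, and a subsequence of parameters along which
the limits converge uniformly up to every horizon.
-/

open MeasureTheory Set Function Filter
open scoped Classical Topology

noncomputable section

namespace Vale.Agent.P161.Crit

variable {V : Type*}

lemma abs_le_split {x η : ℝ} (hη : 0 < η) : |x| ≤ η + x ^ 2 / η := by
  rw [← sq_abs x, ← sub_le_iff_le_add', le_div_iff₀ hη]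
  nlinarith [sq_nonneg (|x| - η), abs_nonneg x]

namespace Env

variable [Countable V]

/-- the mean edge observable is equicontinuous in time -/
lemma exists_mu_lip (P : Env V) : ∃ C, 0 ≤ C ∧ ∀ θ : ℝ, P.Below θ → ∀ a b : V, P.G.Adj a b →
    ∀ s t : ℝ, 0 ≤ s → s ≤ t → t ≤ P.K → ∀ η : ℝ, 0 < η →
      |limI P.G (P.Ph θ t a b) - limI P.G (P.Ph θ s a b)| ≤ C * (η + (t - s) / η) := by
  have := P.neBot
  have hcG := P.cG_pos
  have hA := P.cA_nonneg
  set L := P.L4
  have hL : 0 ≤ L := P.L4_nonneg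
  set Cs := P.cA * (16 / P.cG * P.sK ^ 48)
  have hsK := P.one_le_sK
  have hCs : 0 ≤ Cs := by positivity
  refine ⟨2 * L * (1 + Cs), by positivity, fun θ hθ a b hab s t hs hst htK η hη => ?_⟩
  have ht : t ∈ Icc (0:ℝ) P.K := ⟨hs.trans hst, htK⟩
  have hsI : s ∈ Icc (0:ℝ) P.K := ⟨hs, hst.trans htK⟩
  set E : Finset V → Om V → ℝ := fun D ω =>
    (P.M θ t a D ω - P.M θ s a D ω) ^ 2 + (P.M θ t b D ω - P.M θ s b D ω) ^ 2
  have rE : Reg P.G E := ((reg_M hθ ht a).sub (reg_M hθ hsI a)).sq.add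
    ((reg_M hθ ht b).sub (reg_M hθ hsI b)).sq
  set H : Finset V → Om V → ℝ := fun D ω => L * (2 * η) + L / η * E D ω
  have rH : Reg P.G H := (Reg.const (L * (2 * η))).add ((Reg.const (L / η)).mul rE)
  have pt : ∀ᶠ D in vol P.G, ∀ ω, |P.Ph θ t a b D ω - P.Ph θ s a b D ω| ≤ H D ω := by
    refine eventually_vol (E := {a, b}) (fun D _ h ω => ?_)
    have hd := phi_diff (K := P.K) (t := t) (t' := s) P.tree P.deg P.pos hθ.1.1 hθ.1.2 hθ.1.1 hθ.1.2
      P.lt_one (show a ∈ D from h (by simp)) (show b ∈ D from h (by simp)) (show a ∈ D from h (by simp))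
      (show b ∈ D from h (by simp)) hab (Smp P.G θ P.K D ω) (Smp P.G θ P.K D ω)
    simp only [sub_self, abs_zero, add_zero] at hd
    refine hd.trans ?_
    have a1 := abs_M_le hθ.1 t a D ω
    have a2 := abs_M_le hθ.1 t b D ω
    have a3 := abs_M_le hθ.1 s a D ω
    have a4 := abs_M_le hθ.1 s b D ω
    have e1 := abs_le_split (x := P.M θ t a D ω - P.M θ s a D ω) hη
    have e2 := abs_le_split (x := P.M θ t b D ω - P.M θ s b D ω) hη
    simp only [H, E, L, L4]
    simp only [Env.M, mT] at *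
    set x := Xw P.G θ P.K t D a (Smp P.G θ P.K D ω)
    set y := Xw P.G θ P.K t D b (Smp P.G θ P.K D ω)
    set x' := Xw P.G θ P.K s D a (Smp P.G θ P.K D ω)
    set y' := Xw P.G θ P.K s D b (Smp P.G θ P.K D ω)
    have hl := lipC_nonneg P.pos P.le P.lt_one P.q P.K
    calc lipC P.q P.K P.θ0 P.θ1 * ((|x - x'| + |y - y'|) * (|x| + |y| + |x'| + |y'|))
        ≤ lipC P.q P.K P.θ0 P.θ1 * ((η + (x - x') ^ 2 / η + (η + (y - y') ^ 2 / η)) * 4) := by
          gcongr
          linarith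
      _ = _ := by ring
  have rd := (reg_Ph hθ ht hab).sub (reg_Ph hθ hsI hab)
  have e : limI P.G (fun D ω => P.Ph θ t a b D ω - P.Ph θ s a b D ω)
      = limI P.G (P.Ph θ t a b) - limI P.G (P.Ph θ s a b) := by
    have h := rd.lim_add (reg_Ph hθ hsI hab)
    simp only [sub_add_cancel] at h
    linarith
  have hH : limI P.G H ≤ 2 * L * (1 + Cs) * (η + (t - s) / η) := by
    rw [(Reg.const (L * (2 * η))).lim_add ((Reg.const (L / η)).mul rE), Reg.lim_const, rE.lim_const_mul,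
      ((reg_M hθ ht a).sub (reg_M hθ hsI a)).sq.lim_add ((reg_M hθ ht b).sub (reg_M hθ hsI b)).sq]
    have h1 := lim_sq_lip hθ hs hst htK a
    have h2 := lim_sq_lip hθ hs hst htK b
    calc L * (2 * η) + L / η * (_ + _) ≤ L * (2 * η) + L / η * (Cs * (t - s) + Cs * (t - s)) := by
          gcongr
      _ = 2 * L * η + 2 * L * Cs * ((t - s) / η) := by ring
      _ ≤ _ := by
          have : 0 ≤ (t - s) / η := div_nonneg (by linarith) hη.le
          have : 0 ≤ 2 * L * ((t - s) / η) := by positivity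
          have : 0 ≤ 2 * L * Cs * η := by positivity
          linarith
  rw [← e, abs_le]
  constructor
  · have h := ((Reg.const (-1)).mul rd).lim_mono rH (pt.mono (fun D hD ω => by
      linarith [(abs_le.1 (hD ω)).1]))
    rw [rd.lim_const_mul] at h
    linarith
  · exact (rd.lim_mono rH (pt.mono (fun D hD ω => (abs_le.1 (hD ω)).2))).trans hH

end Env

/-- a subsequence along which every mean edge observable converges at rational times -/
lemma exists_conv_subseq [Countable V] {ι : Type*} [Countable ι] (x : ℕ → ι → ℝ) (B : ι → ℝ)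
    (hx : ∀ j i, x j i ∈ Icc 0 (B i)) :
    ∃ φ : ℕ → ℕ, StrictMono φ ∧ ∀ i, CauchySeq (fun j => x (φ j) i) := by
  obtain ⟨a, -, φ, hφ, hlim⟩ := (isCompact_univ_pi (fun i => isCompact_Icc (a := (0:ℝ)) (b := B i))).tendsto_subseq
    (x := x) (fun j i _ => hx j i)
  exact ⟨φ, hφ, fun i => ((tendsto_pi_nhds.1 hlim) i).cauchySeq⟩

namespace Env

variable [Countable V] (P : Env V)

/-- uniform convergence of the mean edge observable from convergence on a grid -/
lemma mu_uniform (θs : ℕ → ℝ) (hθ : ∀ j, P.Below (θs j)) {a b : V} (hab : P.G.Adj a b)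
    (hc : ∀ r : ℚ, CauchySeq (fun j => limI P.G (P.Ph (θs j) (P.clamp r) a b))) {τ : ℝ} (hτ : 0 < τ) :
    ∃ J, ∀ j ≥ J, ∀ l ≥ J, ∀ s : ℝ, 0 < s → s ≤ P.K → ∀ a' b', P.G.Adj a' b' →
      |limI P.G (P.Ph (θs j) s a' b') - limI P.G (P.Ph (θs l) s a' b')| ≤ τ := by
  obtain ⟨C, hC0, hC⟩ := exists_mu_lip P
  set η := τ / (8 * (C + 1)) with hη
  have hη0 : 0 < η := by positivity
  obtain ⟨m, hm⟩ := exists_nat_gt (1 / (η * η))
  have hm0 : (0:ℝ) < m := lt_trans (by positivity) hm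
  have hm' : m ≠ 0 := by exact_mod_cast hm0.ne'
  choose J hJ using fun i : ℕ => Metric.cauchySeq_iff.1 (hc ((i : ℚ) / m)) (τ / 4) (by positivity)
  refine ⟨(Finset.range (m * P.K + 1)).sup J, fun j hj l hl s hs hsK a' b' hab' => ?_⟩
  rw [Ph_mean_eq (hθ j) ⟨hs.le, hsK⟩ hab hab', Ph_mean_eq (hθ l) ⟨hs.le, hsK⟩ hab hab']
  set i := ⌊s * m⌋₊ with hi
  have hi1 : (i:ℝ) ≤ s * m := Nat.floor_le (by positivity)
  have hi2 : s * m < (i:ℝ) + 1 := Nat.lt_floor_add_one _
  have hiK : i ∈ Finset.range (m * P.K + 1) := by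
    rw [Finset.mem_range, Nat.lt_succ_iff]
    have : (i:ℝ) ≤ ((m * P.K : ℕ) : ℝ) := by
      push_cast
      calc (i:ℝ) ≤ s * m := hi1
        _ ≤ P.K * m := mul_le_mul_of_nonneg_right hsK hm0.le
        _ = _ := mul_comm _ _
    exact_mod_cast this
  set r : ℝ := (i:ℝ) / m with hr
  have hrs : r ≤ s := by rw [hr, div_le_iff₀ hm0]; exact hi1
  have hr0 : 0 ≤ r := by positivity
  have hrm : (s - r) / η ≤ η := by
    rw [div_le_iff₀ hη0]
    have h1 : s - r ≤ 1 / m := by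
      rw [hr, le_div_iff₀ hm0, sub_mul, div_mul_cancel₀ _ hm0.ne']; linarith
    refine h1.trans ?_
    rw [div_le_iff₀ hm0]
    rw [div_lt_iff₀ (by positivity)] at hm
    linarith
  have e1 := hC (θs j) (hθ j) a b hab r s hr0 hrs hsK η hη0
  have e2 := hC (θs l) (hθ l) a b hab r s hr0 hrs hsK η hη0
  have hJi := Finset.le_sup (f := J) hiK
  have e3 := hJ i j (hJi.trans hj) l (hJi.trans hl)
  have hcr : P.clamp (((i : ℚ) / m : ℚ) : ℝ) = r := by
    push_cast
    exact P.clamp_eq ⟨hr0, hrs.trans hsK⟩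
  rw [Real.dist_eq, hcr] at e3
  have hb : C * (η + (s - r) / η) ≤ τ / 4 := by
    calc C * (η + (s - r) / η) ≤ (C + 1) * (η + η) := by
          refine mul_le_mul (by linarith) (by linarith) ?_ (by linarith)
          have : 0 ≤ (s - r) / η := div_nonneg (by linarith) hη0.le
          linarith
      _ = τ / 4 := by rw [hη]; field_simp; ring
  obtain ⟨x1, y1⟩ := abs_le.1 e1
  obtain ⟨x2, y2⟩ := abs_le.1 e2
  obtain ⟨x3, y3⟩ := abs_le.1 e3.le
  rw [abs_le]
  constructor <;> linarith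

/-- the limits are Cauchy in the parameter, uniformly up to the horizon -/
lemma dist2_small {θs : ℕ → ℝ} (hθ : ∀ j, P.Below (θs j)) (hlim : Tendsto θs atTop (𝓝 P.θ1))
    {a b : V} (hab : P.G.Adj a b)
    (hc : ∀ r : ℚ, CauchySeq (fun j => limI P.G (P.Ph (θs j) (P.clamp r) a b))) {δ : ℝ} (hδ : 0 < δ) :
    ∃ J, ∀ j ≥ J, ∀ l ≥ J, ∀ t ∈ Icc (0:ℝ) P.K, ∀ v, P.dist2 (θs j) (θs l) t v ≤ δ := by
  obtain ⟨C, c, hC0, hc0, hrate⟩ := exists_rate P
  obtain ⟨lam, hlam⟩ : ∃ lam : ℝ, 1 ≤ lam ∧ (C + 1) / c ≤ lam ∧ 2 * C / δ + 1 ≤ lam :=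
    ⟨max 1 (max ((C + 1) / c) (2 * C / δ + 1)), le_max_left _ _,
      le_max_of_le_right (le_max_left _ _), le_max_of_le_right (le_max_right _ _)⟩
  obtain ⟨hl1, hl2, hl3⟩ := hlam
  have hl0 : 0 < lam := by linarith
  have htail : C * Real.exp (-(c * lam ^ 8)) * Real.exp (C * lam ^ 6) ≤ δ / 2 := by
    rw [mul_assoc, ← Real.exp_add]
    have h1 : -(c * lam ^ 8) + C * lam ^ 6 ≤ -lam := by
      rw [div_le_iff₀ hc0] at hl2
      have h2 : C + 1 ≤ c * lam ^ 2 := by
        calc C + 1 ≤ lam * c := hl2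
          _ ≤ lam ^ 2 * c := mul_le_mul_of_nonneg_right (le_self_pow₀ hl1 two_ne_zero) hc0.le
          _ = _ := mul_comm _ _
      have h3 := mul_le_mul_of_nonneg_right h2 (pow_nonneg hl0.le 6)
      have h4 : lam ≤ lam ^ 6 := le_self_pow₀ hl1 (by norm_num)
      nlinarith
    have h5 : Real.exp (-lam) ≤ 1 / lam := by
      rw [Real.exp_neg, one_div]
      exact inv_anti₀ hl0 (by linarith [Real.add_one_le_exp lam])
    refine (mul_le_mul_of_nonneg_left ((Real.exp_le_exp.2 h1).trans h5) hC0).trans ?_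
    rw [mul_one_div, div_le_iff₀ hl0]
    have : 2 * C / δ * δ ≤ lam * δ := mul_le_mul_of_nonneg_right (by linarith) hδ.le
    rw [div_mul_cancel₀ _ hδ.ne'] at this
    linarith
  set A := C * lam ^ 6 * Real.exp (C * lam ^ 6)
  have hA : 0 ≤ A := by positivity
  set δ' := δ / (4 * (A + 1)) with hδ'
  have hδ'0 : 0 < δ' := by positivity
  obtain ⟨J1, hJ1⟩ := P.mu_uniform θs hθ hab hc (pow_pos hδ'0 2)
  obtain ⟨J2, hJ2⟩ := Metric.cauchySeq_iff.1 hlim.cauchySeq (P.θ0 * δ' ^ 2)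
    (by have := P.pos; positivity)
  refine ⟨max J1 J2, fun j hj l hl t ht v => ?_⟩
  have hε : Real.sqrt (P.eps' (θs j) (θs l)) ≤ δ' := by
    refine (Real.sqrt_le_sqrt (?_ : _ ≤ δ' ^ 2)).trans_eq (Real.sqrt_sq hδ'0.le)
    have h := hJ2 j (le_of_max_le_right hj) l (le_of_max_le_right hl)
    rw [Real.dist_eq] at h
    rw [eps', div_le_iff₀ P.pos]
    linarith
  refine (hrate (θs j) (θs l) (hθ j) (hθ l) (δ' ^ 2)
    (hJ1 j (le_of_max_le_left hj) l (le_of_max_le_left hl)) lam hl1 t ht v).trans ?_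
  rw [Real.sqrt_sq hδ'0.le]
  calc C * (lam ^ 6 * (Real.sqrt (P.eps' (θs j) (θs l)) + δ') + Real.exp (-(c * lam ^ 8)))
        * Real.exp (C * lam ^ 6)
      = A * (Real.sqrt (P.eps' (θs j) (θs l)) + δ')
        + C * Real.exp (-(c * lam ^ 8)) * Real.exp (C * lam ^ 6) := by simp only [A]; ring
    _ ≤ A * (δ' + δ') + δ / 2 := by gcongr
    _ ≤ δ := by
        have : (A + 1) * (δ' + δ') = δ / 2 := by rw [hδ']; field_simp; ring
        nlinarith

end Env

end Vale.Agent.P161.Crit
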