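import Mathlib
import Vale.Agent.P161.Crit.Subseq
import Vale.Agent.P161.Crit.Finish

/-!
The free Ising state at the Kesten–Stigum threshold is a factor of i.i.d.
-/

open MeasureTheory Set Function Filter
open scoped Classical Topology

noncomputable section

namespace Vale.Agent.P161.Crit

variable {V : Type*}

namespace Env

variable [Countable V] (P : Env V)

/-- a bound on the means at every time transfers to the observations -/
lemma obs_diff_le {θ θ' : ℝ} (hθ : P.Adm θ) (hθ' : P.Adm θ') {D D' : Finset V} {i : V × ℕ}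
    (hi : i ∈ box P.K D) (hi' : i ∈ box P.K D') {η S : ℝ} (hη : 0 < η)
    (h : ∀ s ∈ Icc (0:ℝ) P.K,
      ∫ ω, (mT P.G θ P.K D s i.1 ω - mT P.G θ' P.K D' s i.1 ω) ^ 2 ∂PU _ ≤ S) :
    ∫ ω, (if tau ω i < (P.K:ℝ) then |Smp P.G θ P.K D ω (Sum.inr i) - Smp P.G θ' P.K D' ω (Sum.inr i)|
      else 0) ∂PU _ ≤ (1 + P.K) * (η + S / η) := by
  have hS : 0 ≤ S := (integral_nonneg (fun ω => sq_nonneg _)).trans (h 0 ⟨le_rfl, Nat.cast_nonneg _⟩)
  set Gd : ℝ → Om V → ℝ := fun s ω => |mT P.G θ P.K D s i.1 ω - mT P.G θ' P.K D' s i.1 ω| with hGd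
  have hGm : Measurable (fun p : ℝ × Om V => Gd p.1 p.2) :=
    ((measurable_mT D i.1).sub (measurable_mT D' i.1)).abs
  have hG2 : ∀ s ω, Gd s ω ≤ 2 := fun s ω => by
    refine (abs_sub _ _).trans ?_
    linarith [abs_mT_le (G := P.G) (K := P.K) hθ.nonneg hθ.lt_one' D s i.1 ω,
      abs_mT_le (G := P.G) (K := P.K) hθ'.nonneg hθ'.lt_one' D' s i.1 ω]
  have hmean : ∀ s ∈ Icc (0:ℝ) P.K, ∫ ω, Gd s ω ∂PU _ ≤ η + S / η := by
    intro s hs
    have bd : BM (fun ω => mT P.G θ P.K D s i.1 ω - mT P.G θ' P.K D' s i.1 ω) :=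
      (bm_mT hθ.nonneg hθ.lt_one' D s i.1).sub (bm_mT hθ'.nonneg hθ'.lt_one' D' s i.1)
    refine (integral_mono (bd.abs.integrable _) ((integrable_const η).add ((bd.sq.integrable _).div_const η))
      (fun ω => abs_le_split hη)).trans ?_
    simp only [Pi.add_apply]
    rw [integral_add (integrable_const η) ((bd.sq.integrable _).div_const η), integral_const,
      probReal_univ, one_smul, integral_div]
    gcongr
    exact h s hs
  have h1 := minus_trick (V := V) (i := i) (t := (P.K:ℝ)) (Cf := 1) (Nat.cast_nonneg _) (G := Gd) hGm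
    (fun s ω => abs_nonneg _) hG2
    (fun s ω y y' hy hy' => by
      obtain ⟨-, m1, -⟩ := P.state_indep (θ := θ) D (i := i) (ω := ω) hy hy'
      obtain ⟨-, m2, -⟩ := P.state_indep (θ := θ') D' (i := i) (ω := ω) hy hy'
      simp only [hGd, m1, m2])
    (f := fun _ => (1:ℝ)) measurable_const (fun _ _ => zero_le_one) (fun _ _ => le_rfl)
  simp only [one_mul] at h1
  refine le_trans ?_ (h1.trans ?_)
  · refine integral_mono_of_nonneg (ae_of_all _ (fun ω => ?_))
      ((bm_if_tau (P.K:ℝ) i (bm_at_tau i Gd hGm (C := 2) (fun s ω => by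
        rw [abs_of_nonneg (abs_nonneg _)]; exact hG2 s ω))).integrable _) (ae_of_all _ (fun ω => ?_))
    · dsimp only; split_ifs <;> positivity
    · dsimp only
      split_ifs with c
      · rw [Smp_fixed D ω hi, Smp_fixed D' ω hi']
        refine le_trans (le_of_eq_of_le rfl (Qv_lip _ _ _ _)) ?_
        simp only [sub_self, abs_zero, add_zero]
        have hs : 0 ≤ str (tau ω i) ∧ str (tau ω i) ≤ 1 := str_mem (tim_nonneg i.2 (ω (Sum.inl i)))
        rw [← mul_sub, ← mul_sub, abs_mul, abs_mul, abs_of_nonneg hs.1,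
          abs_of_pos (show (0:ℝ) < eps by norm_num [eps])]
        simp only [hGd]
        have h0 := abs_nonneg (mT P.G θ P.K D (tau ω i) i.1 ω - mT P.G θ' P.K D' (tau ω i) i.1 ω)
        have h2 := mul_le_of_le_one_left h0 hs.2
        unfold eps
        nlinarith
      · exact le_rfl
  · refine mul_le_mul_of_nonneg_left ?_ (by positivity)
    have h2 := integral_mono_of_nonneg (μ := lam) (f := fun y => if tim i.2 y < (P.K:ℝ) then
        ∫ ω, Gd (tim i.2 y) ω ∂PU _ else 0) (g := fun _ => η + S / η)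
      (ae_of_all _ (fun y => by
        dsimp only
        split_ifs
        · exact integral_nonneg (fun ω => abs_nonneg _)
        · exact le_rfl)) (integrable_const _) (ae_of_all _ (fun y => by
        dsimp only
        split_ifs with c
        · exact hmean _ ⟨tim_nonneg _ _, c.le⟩
        · positivity))
    rwa [integral_const, probReal_univ, one_smul] at h2

lemma obs_vol {θ : ℝ} (hθ : P.Below θ) {i : V × ℕ} (hi : i.2 < P.K) {δ : ℝ} (hδ : 0 < δ) :
    ∃ E : Finset V, ∀ D M, Geo P.G D → Geo P.G M → E ⊆ D → E ⊆ M →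
      ∫ ω, (if tau ω i < (P.K:ℝ) then |Smp P.G θ P.K D ω (Sum.inr i)
        - Smp P.G θ P.K M ω (Sum.inr i)| else 0) ∂PU _ ≤ δ := by
  set η := δ / (2 * (1 + (P.K:ℝ))) with hη
  have hη0 : 0 < η := by positivity
  obtain ⟨R, hR⟩ := P.cauchy_mT hθ.1 hθ.2 (mul_pos hη0 hη0)
  refine ⟨ball P.G P.fin i.1 R, fun D M hD hM hRD hRM => ?_⟩
  have hv := fun (A : Finset V) (h : ball P.G P.fin i.1 R ⊆ A) =>
    mem_box.2 ⟨h (self_mem_ball P.tree P.fin i.1 R), hi⟩
  refine (P.obs_diff_le hθ.1 hθ.1 (hv D hRD) (hv M hRM) hη0 (fun s hs => hR i.1 D M hD hM hRD hRM s hs)).trans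
    (le_of_eq ?_)
  rw [hη]
  field_simp
  ring

lemma obs_pair {θ θ' : ℝ} (hθ : P.Below θ) (hθ' : P.Below θ') {i : V × ℕ} (hi : i.2 < P.K)
    {η : ℝ} (hη : 0 < η) (h : ∀ t ∈ Icc (0:ℝ) P.K, P.dist2 θ θ' t i.1 ≤ η * η) :
    ∃ E : Finset V, ∀ D, Geo P.G D → E ⊆ D →
      ∫ ω, (if tau ω i < (P.K:ℝ) then |Smp P.G θ P.K D ω (Sum.inr i)
        - Smp P.G θ' P.K D ω (Sum.inr i)| else 0) ∂PU _ ≤ 13 * (1 + P.K) * η := by
  obtain ⟨R, hR⟩ := P.cauchy_mT hθ.1 hθ.2 (mul_pos hη hη)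
  obtain ⟨R', hR'⟩ := P.cauchy_mT hθ'.1 hθ'.2 (mul_pos hη hη)
  refine ⟨ball P.G P.fin i.1 (max R R'), fun D hD hRD => ?_⟩
  have hsub : ball P.G P.fin i.1 R ⊆ D := (ball_mono P.tree P.fin i.1 (le_max_left _ _)).trans hRD
  have hsub' : ball P.G P.fin i.1 R' ⊆ D := (ball_mono P.tree P.fin i.1 (le_max_right _ _)).trans hRD
  have hb := mem_box.2 ⟨hsub (self_mem_ball P.tree P.fin i.1 R), hi⟩
  refine (P.obs_diff_le hθ.1 hθ'.1 hb hb hη (S := 12 * (η * η)) (fun s hs => ?_)).trans (le_of_eq ?_)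
  · have := P.neBot
    obtain ⟨M, ⟨hM, hMR⟩, hMd⟩ := ((eventually_vol (G := P.G) (E := ball P.G P.fin i.1 (max R R'))
      (p := fun M => Geo P.G M ∧ ball P.G P.fin i.1 (max R R') ⊆ M) (fun M h1 h2 => ⟨h1, h2⟩)).and
      (((reg_M hθ hs i.1).sub (reg_M hθ' hs i.1)).sq.tendsto.eventually
        (gt_mem_nhds (show P.dist2 θ θ' s i.1 < 2 * (η * η) by nlinarith [h s hs])))).exists
    simp only [Env.M] at hMd
    set a := fun ω => mT P.G θ P.K D s i.1 ω - mT P.G θ P.K M s i.1 ω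
    set b := fun ω => mT P.G θ P.K M s i.1 ω - mT P.G θ' P.K M s i.1 ω
    set c := fun ω => mT P.G θ' P.K M s i.1 ω - mT P.G θ' P.K D s i.1 ω
    have b1 : BM a := (bm_mT hθ.1.nonneg hθ.1.lt_one' D s i.1).sub (bm_mT hθ.1.nonneg hθ.1.lt_one' M s i.1)
    have b2 : BM b := (bm_mT hθ.1.nonneg hθ.1.lt_one' M s i.1).sub (bm_mT hθ'.1.nonneg hθ'.1.lt_one' M s i.1)
    have b3 : BM c := (bm_mT hθ'.1.nonneg hθ'.1.lt_one' M s i.1).sub (bm_mT hθ'.1.nonneg hθ'.1.lt_one' D s i.1)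
    have e1 : ∫ ω, a ω ^ 2 ∂PU _ ≤ η * η := hR i.1 D M hD hM hsub
      ((ball_mono P.tree P.fin i.1 (le_max_left _ _)).trans hMR) s hs
    have e3 : ∫ ω, c ω ^ 2 ∂PU _ ≤ η * η := hR' i.1 M D hM hD
      ((ball_mono P.tree P.fin i.1 (le_max_right _ _)).trans hMR) hsub' s hs
    have e2 : ∫ ω, b ω ^ 2 ∂PU _ ≤ 2 * (η * η) := hMd.le
    refine (integral_mono_of_nonneg (ae_of_all _ (fun ω => sq_nonneg _))
      ((((b1.sq.integrable (PU _)).add (b2.sq.integrable _)).add (b3.sq.integrable _)).const_mul 3)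
      (ae_of_all _ (fun ω => ?_))).trans ?_
    · show _ ≤ 3 * (a ω ^ 2 + b ω ^ 2 + c ω ^ 2)
      simp only [a, b, c]
      generalize mT P.G θ P.K D s i.1 ω = x
      generalize mT P.G θ P.K M s i.1 ω = y
      generalize mT P.G θ' P.K M s i.1 ω = z
      generalize mT P.G θ' P.K D s i.1 ω = w
      nlinarith [sq_nonneg ((x - y) - (y - z)), sq_nonneg ((y - z) - (z - w)), sq_nonneg ((x - y) - (z - w))]
    · rw [integral_const_mul]
      simp only [Pi.add_apply]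
      rw [integral_add, integral_add (b1.sq.integrable _) (b2.sq.integrable _)]
      · linarith
      · exact (b1.sq.integrable _).add (b2.sq.integrable _)
      · exact b3.sq.integrable _
  · field_simp
    ring

end Env

/-- at criticality the free Ising state exists and is a factor of i.i.d. -/
theorem fiid_at_threshold [Countable V] {G : SimpleGraph V} (hT : G.IsTree) {q : ℕ}
    (hd : ∀ v, (G.neighborSet v).ncard = q + 1) (hq : 2 ≤ q) {θ : ℝ} (h0 : 0 < θ)
    (hc : (q : ℝ) * θ ^ 2 = 1) :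
    (∃ ν, IsFreeIsing G θ ν) ∧ ∀ ν, IsFreeIsing G θ ν → IsFactorOfIID G ν := by
  have h1 : θ < 1 := by
    have hq' : (2:ℝ) ≤ q := by exact_mod_cast hq
    nlinarith
  let env : ∀ K : ℕ, 1 ≤ K → Env V := fun K hK =>
    { G := G, q := q, θ0 := θ / 2, θ1 := θ, K := K, tree := hT, deg := hd, two_le := hq,
      pos := by linarith, le := by linarith, lt_one := h1, crit := hc.le, hK := hK }
  set θs : ℕ → ℝ := fun j => θ * (1 - 1 / ((j:ℝ) + 2)) with hθs
  have hj : ∀ j : ℕ, θ / 2 ≤ θs j ∧ θs j < θ := by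
    intro j
    have h2 : 1 / ((j:ℝ) + 2) ≤ 1 / 2 :=
      one_div_le_one_div_of_le two_pos (by linarith [Nat.cast_nonneg (α := ℝ) j])
    have h3 : 0 < 1 / ((j:ℝ) + 2) := by positivity
    constructor <;> simp only [hθs] <;> nlinarith
  have hB : ∀ K (hK : 1 ≤ K) j, (env K hK).Below (θs j) := fun K hK j =>
    ⟨⟨(hj j).1, (hj j).2.le⟩, (hj j).2⟩
  have hlim : Tendsto θs atTop (𝓝 θ) := by
    have h := ((tendsto_const_div_atTop_nhds_zero_nat (1:ℝ)).comp (tendsto_add_atTop_nat 2)).const_sub 1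
    have h' := h.const_mul θ
    simp only [sub_zero, mul_one] at h'
    refine h'.congr (fun j => ?_)
    simp [hθs]
  obtain ⟨o⟩ := hT.connected.nonempty
  obtain ⟨b0, hb0⟩ : ∃ b0, G.Adj o b0 := by
    obtain ⟨y, hy⟩ : (nbs G o).Nonempty := by rw [← Finset.card_pos, card_nbs hd]; omega
    exact ⟨y, (mem_nbs hd).1 hy⟩
  set x : ℕ → (ℕ × ℚ) → ℝ := fun j p =>
    if h : 1 ≤ p.1 then limI G ((env p.1 h).Ph (θs j) ((env p.1 h).clamp p.2) o b0) else 0 with hx
  obtain ⟨B, hB'⟩ : ∃ B : ℕ × ℚ → ℝ, ∀ j p, x j p ∈ Icc 0 (B p) := by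
    have : ∀ p : ℕ × ℚ, ∃ B, ∀ j, x j p ∈ Icc 0 B := by
      intro p
      by_cases h : 1 ≤ p.1
      · obtain ⟨C, hC0, hC⟩ := (env p.1 h).exists_mu_bound
        refine ⟨C * sig ((env p.1 h).clamp p.2) ^ 80, fun j => ?_⟩
        simp only [hx, dif_pos h]
        exact hC _ (hB _ h j) _ ((env p.1 h).clamp_mem _) o b0 hb0
      · exact ⟨0, fun j => by simp [hx, h]⟩
    choose B hB' using this
    exact ⟨B, fun j p => hB' p j⟩
  obtain ⟨φ, hφ, hcau⟩ := exists_conv_subseq (V := V) x B hB'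
  refine fiid_of_sampler_limit hT hd (fun j => θs (φ j)) (fun j => by linarith [(hj (φ j)).1])
    (fun j => lt_trans (hj (φ j)).2 h1) (hlim.comp hφ.tendsto_atTop) ?_ ?_
  · intro j K i hi δ hδ
    exact (env K (by omega)).obs_vol (hB K (by omega) (φ j)) hi hδ
  · intro K i hi δ hδ
    have hK : 1 ≤ K := by omega
    set η := δ / (13 * (1 + (K:ℝ))) with hη
    have hη0 : 0 < η := by positivity
    obtain ⟨J, hJ⟩ := (env K hK).dist2_small (θs := fun j => θs (φ j)) (fun j => hB K hK (φ j))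
      (hlim.comp hφ.tendsto_atTop) (a := o) (b := b0) hb0
      (fun r => by simpa [hx, hK] using hcau (K, r)) (mul_pos hη0 hη0)
    refine ⟨J, fun j hjJ l hlJ => ?_⟩
    obtain ⟨E, hE⟩ := (env K hK).obs_pair (hB K hK (φ j)) (hB K hK (φ l)) hi hη0
      (fun t ht => hJ j hjJ l hlJ t ht i.1)
    refine ⟨E, fun D hD hED => (hE D hD hED).trans (le_of_eq ?_)⟩
    show 13 * (1 + (K:ℝ)) * η = δ
    rw [hη]
    field_simp

end Vale.Agent.P161.Crit
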